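import Vale.Agent.P057IV.Defs

/-!
The blocks of the inverse step as statements.
-/

set_option linter.unusedSectionVars false

open Matrix Finset Real
open Vale.Agent.P267.H775 Vale.Agent.P057G Vale.Agent.P057MA
open Vale.Agent.P057T1 (NF ind gsc lab pr a4 cq)

namespace Vale.Agent.P057IV

variable (V : Type) [Fintype V] [DecidableEq V]

/-- from many relations along parallelograms in the class `b` to local charts: `P a` is the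
set charted around the centre `a`, and many pairs (centre, centre + narrow displacement) lie
in it -/
def PIECE : Prop := ∃ C : ℕ, ∀ (ι : Type) [Fintype ι] [DecidableEq ι] (S : MS V ι)
  (B : Finset V) (b : V) (κ : Type) [Fintype κ] (ty : κ → Finset V)
  (ψ : Fin 4 → κ → (ι → ℝ) → ℝ) (U : (ι → ℝ) → Prop) (Y Y' Z lam : ℝ),
  S.Ok → S.Cen → 2 ≤ Y → Y ^ C ≤ Y' → Y' ≤ Z → exp (Y' ^ C) ≤ lam → lam ≤ exp Z → b ∈ B →
  (∀ r, (ty r).Nonempty ∧ Disjoint (ty r) B) → (∀ j r, Ty S (ty r) B (ψ j r)) →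
  OnP (fce S B) U → (Fintype.card ι : ℝ) ≤ exp Y → (Fintype.card κ : ℝ) ≤ Y → Mg S (Z ^ C) →
  exp (-Y) ≤ den (jt S b (exp Y')) (b4 B b) (fun W => U (pr S b 0 2 W) ∧
    ∀ r, Nr (jt S b (exp Y')) (a4 (ty r)) (b4 B b) (rel S b fun j => ψ j r) (exp Y) W) →
  ∃ P : (ι → ℝ) → (ι → ℝ) → Prop, (∀ a z, P a (toR z) → U (toR z)) ∧
    (∀ a, CH S B b ty (ψ 0) (P a) (Y' ^ C)) ∧
    exp (-Y' ^ C) ≤ den (jt S b lam) (b2 B b) fun W => P (W ∘ cq S b 0) (pr S b 0 2 W)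

/-- two witnesses: near on the joint system implies near at the designated point -/
def TW : Prop := ∃ C : ℕ, ∀ (ι : Type) [Fintype ι] [DecidableEq ι] (S : MS V ι)
  (B : Finset V) (b : V) (κ : Type) [Fintype κ] (ty : κ → Finset V)
  (ψ : κ → (ι → ℝ) → ℝ) (Ω : (BI S.fc (0 : Fin 4) → ℝ) → Prop) (Y Y' : ℝ),
  S.Ok → S.Cen → 2 ≤ Y → Y ^ C ≤ Y' → b ∈ B →
  (∀ r, (ty r).Nonempty ∧ Disjoint (ty r) B) → (∀ r, Ty S (ty r) B (ψ r)) →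
  OnP (fce (jt S b (exp Y')) (b4 B b)) Ω → (Fintype.card ι : ℝ) ≤ exp Y →
  (Fintype.card κ : ℝ) ≤ Y → Mg S (Y' ^ C) →
  (∀ W, Ω (toR W) → ∀ r, Nr (jt S b (exp Y')) (a4 (ty r)) (b4 B b)
    (fun w => ψ r (pr S b 0 2 w)) (exp Y) (toR W)) →
  exp (-Y) ≤ den (jt S b (exp Y')) (b4 B b) Ω →
  exp (-(Y + 1)) ≤ den (jt S b (exp Y')) (b4 B b) fun W => Ω W ∧
    ∀ r, Nr S (ty r) B (ψ r) (exp (Y' ^ C)) (pr S b 0 2 W)

/-- dense vanishing of functions that are affine in the class `i`: slope and constant term -/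
def DV1 : Prop := ∃ C : ℕ, ∀ (ι : Type) [Fintype ι] [DecidableEq ι] (S : MS V ι)
  (B : Finset V) (i : V) (κ : Type) [Fintype κ] (ty : κ → Finset V)
  (f : κ → (ι → ℝ) → ℝ) (E : (ι → ℝ) → Prop) (Y : ℝ),
  S.Ok → S.Cen → 2 ≤ Y → i ∈ B → (∀ r, (ty r).Nonempty ∧ Disjoint (ty r) B) →
  (∀ r, Ty S (ty r) B (f r) ∧ Aff (S.st i) (f r)) → OnP (fce S B) E →
  (Fintype.card ι : ℝ) ≤ exp Y → (Fintype.card κ : ℝ) ≤ Y → Mg S (Y ^ C) →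
  (∀ z, E (toR z) → ∀ r, Nr S (ty r) B (f r) (exp Y) (toR z)) → exp (-Y) ≤ den S B E →
  ∃ q : ℕ, 0 < q ∧ (q : ℝ) ≤ exp (Y ^ C) ∧ exp (-Y ^ C) ≤ den S B fun z => E z ∧ ∀ r,
    Nr S (insert i (ty r)) (B.erase i) (fun w => q * lab S i (f r) w) (exp (Y ^ C)) z ∧
    Nr S (ty r) (B.erase i) (fun w => q * f r (mix (S.st i) 0 w)) (exp (Y ^ C)) z

/-- dense vanishing of a chart: relations of the frequencies, and the coefficients are near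
integer forms in the directions orthogonal to the relations -/
def DVM : Prop := ∃ C : ℕ, ∀ (ι : Type) [Fintype ι] [DecidableEq ι] (S : MS V ι)
  (B : Finset V) (i : V) (κ ϱ : Type) [Fintype κ] [Fintype ϱ] (ty : κ → Finset V)
  (E : (ι → ℝ) → Prop) (γ : ϱ → (ι → ℝ) → ℝ) (Ψ : κ → (ι → ℝ) → ℝ)
  (c : κ → ϱ → (ι → ℝ) → ℝ) (Y : ℝ),
  S.Ok → S.Cen → 2 ≤ Y → i ∈ B → (∀ r, (ty r).Nonempty ∧ Disjoint (ty r) B) →
  OnP (fce S B) E → (Fintype.card ι : ℝ) ≤ exp Y → (Fintype.card κ : ℝ) ≤ Y →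
  (Fintype.card ϱ : ℝ) ≤ Y → Mg S (Y ^ C) →
  Chart S B i ty (fun _ _ => 0) E (exp Y) γ Ψ c → exp (-Y) ≤ den S B E →
  ∃ (q : ℕ) (k : ϱ → ϱ → ℤ), 0 < q ∧ (q : ℝ) ≤ exp (Y ^ C) ∧
    (∀ t ρ, |(k t ρ : ℝ)| ≤ exp (Y ^ C)) ∧ exp (-Y ^ C) ≤ den S B fun z => E z ∧
      (∀ t, Nr S {i} (B.erase i) (lab S i fun w => ∑ ρ, k t ρ * γ ρ w) (exp (Y ^ C)) z) ∧
      ∀ v : ϱ → ℤ, (∀ t, ∑ ρ, k t ρ * v ρ = 0) → ∀ r, Nr S (ty r) (B.erase i)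
        (fun w => q * ∑ ρ, v ρ * c r ρ w) (exp (Y ^ C) * ∑ ρ, |(v ρ : ℝ)|) z

/-- new coordinates make given forms through `b` nearly integral on a smooth extension -/
def EXT : Prop := ∃ C : ℕ, ∀ (ι : Type) [Fintype ι] [DecidableEq ι] (S : MS V ι)
  (B : Finset V) (b : V) (κ : Type) [Fintype κ] (F : κ → Finset V)
  (T : κ → (ι → ℝ) → ℝ) (d0 : ℕ) (Y Z : ℝ),
  S.Ok → S.Cen → 2 ≤ Y → Y ≤ Z → (∀ r, b ∈ F r ∧ F r ⊆ B) → b ∈ B →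
  (∀ r, Fm S (fce S (F r)) (F r) (T r)) → 1 ≤ d0 → (d0 : ℝ) ≤ exp Y →
  (Fintype.card ι : ℝ) ≤ exp Y → (Fintype.card κ : ℝ) ≤ Y → Mg S (Z ^ C) →
  ∃ (s : Stp V ι) (d2 : ℕ), s.b = b ∧ s.d = d0 * d2 ∧ Good S s B (exp Y) (exp (Z ^ C)) Y ∧
    Mg (xt S s) Z ∧ ∀ r, Near (xt S s) (fce (xt S s) (F r)) (F r)
      (fun z => d2 * T r (z ∘ Sum.inl)) (exp (-Y))

/-- choice of the base point: smooth refinement and dense set -/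
def PICK : Prop := ∃ C : ℕ, ∀ (ι : Type) [Fintype ι] [DecidableEq ι] (S : MS V ι)
  (s : Stp V ι) (B F : Finset V) (Λ P R : ℝ)
  (E : (ι → ℤ) → ((ι ⊕ s.X) ⊕ Lk S s.b → ℝ) → Prop) (Bad : (ι → ℤ) → Prop) (β Z : ℝ),
  S.Ok → S.Cen → Good S s B Λ P R → 1 ≤ Λ → B ⊆ F → 2 ≤ Z → exp (-Z) ≤ β →
  Mg (xt S s) (Z ^ C) →
  β * vl S.G (fce S {s.b}) ≤ ∑' o, S.wt (fce S {s.b}) o * den (rf S s o) F (E o) →
  ∑' o, S.wt (fce S {s.b}) o * ind (Bad o) ≤ β / 8 * vl S.G (fce S {s.b}) →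
  ∃ o, ¬ Bad o ∧ Mg (rf S s o) Z ∧ β / 4 ≤ den (rf S s o) F (E o)

/-- the mean density of the pulled back set -/
def LOC : Prop := ∀ (ι : Type) [Fintype ι] [DecidableEq ι] (S : MS V ι)
  (s : Stp V ι) (B F : Finset V) (Λ P R : ℝ) (E : (ι → ℝ) → Prop),
  S.Ok → S.Cen → Good S s B Λ P R → 1 ≤ Λ → (Fintype.card ι : ℝ) ≤ Λ → B ⊆ F →
  OnP (fce S F) E → den S F E / 2 * vl S.G (fce S {s.b}) ≤
    ∑' o, S.wt (fce S {s.b}) o * den (rf S s o) F fun w => E (mp S s o w)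

/-- the passengers survive the splitting of a point into centre and displacement -/
def PAS : Prop := ∃ C : ℕ, ∀ (ι : Type) [Fintype ι] [DecidableEq ι] (S : MS V ι)
  (B L : Finset V) (b : V) (E : (ι → ℝ) → Prop) (g : (BI S.fc (0 : Fin 4) → ℝ) → Prop)
  (Y Z lam : ℝ), S.Ok → S.Cen → 2 ≤ Y → Y ≤ Z → exp (Y ^ C) ≤ lam → lam ≤ exp Z → b ∈ B →
  Disjoint B L → OnP (fce S (B ∪ L)) E → OnP (fce (jt S b lam) (b2 B b)) g →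
  (Fintype.card ι : ℝ) ≤ exp Y → Mg S (Z ^ C) →
  (∀ W, g (toR W) → exp (-Y) ≤ pd S B L E (pr S b 0 2 (toR W))) →
  exp (-Y) ≤ den (jt S b lam) (b2 B b) g →
  exp (-(2 * Y + 3)) ≤ den (jt S b lam) (b2 (B ∪ L) b) fun W => g W ∧ E (pr S b 0 2 W)

/-- the system of centre and displacement is the mean of the refined systems -/
def UNF : Prop := ∀ (ι : Type) [Fintype ι] [DecidableEq ι] (S : MS V ι) (F : Finset V) (b : V)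
  (lam : ℝ) (H : (ι → ℝ) → (ι → ℝ) → Prop), S.Ok → S.Cen → b ∈ F → 1 ≤ lam →
  den (jt S b lam) (b2 F b) (fun W => H (W ∘ cq S b 0) (pr S b 0 2 W)) * vl S.G (fce S {b}) ≤
    ∑' o, S.wt (fce S {b}) o * den (rf S (nw ι b √lam) o) F
      fun w => H (bv S (nw ι b √lam) o w) (mp S (nw ι b √lam) o w)

/-- narrowing one class keeps smoothness -/
def NWM : Prop := ∀ (ι : Type) [Fintype ι] [DecidableEq ι] (S : MS V ι) (b : V) (lam Z : ℝ),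
  S.Ok → S.Cen → 2 ≤ Z → 1 ≤ lam → lam ≤ exp Z → Mg S (2 * Z) → Mg (xt S (nw ι b lam)) Z

/-- the joint system is smooth -/
def JSM : Prop := ∀ (ι : Type) [Fintype ι] [DecidableEq ι] (S : MS V ι) (b : V) (lam Z : ℝ),
  S.Ok → S.Cen → 2 ≤ Z → 1 ≤ lam → lam ≤ exp Z → Mg S (6 * Z) → Mg (jt S b lam) Z

/-- a dense set contains many parallelograms -/
def QUAD : Prop := ∃ C : ℕ, ∀ (ι : Type) [Fintype ι] [DecidableEq ι] (S : MS V ι)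
  (B : Finset V) (b : V) (U : (ι → ℝ) → Prop) (Y Z lam : ℝ),
  S.Ok → S.Cen → 2 ≤ Y → Y ≤ Z → b ∈ B → OnP (fce S B) U → (Fintype.card ι : ℝ) ≤ lam →
  1 ≤ lam → lam ≤ exp Z → Mg S (Z ^ C) → exp (-Y) ≤ den S B U →
  exp (-Y ^ C) ≤ den (jt S b lam) (b4 B b) fun W =>
    U (pr S b 0 2 W) ∧ U (pr S b 0 3 W) ∧ U (pr S b 1 2 W) ∧ U (pr S b 1 3 W)

variable {V} in
/-- a property of refinements of `X` that survives a step for most base points -/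
def Clos (B : Finset V) (Λ P R Z ε : ℝ) (X : Sy V)
    (Gd : ℕ → (X' : Sy V) → ((X'.ι → ℝ) → X.ι → ℝ) → Prop) : Prop :=
  (∀ j X' f, Gd (j + 1) X' f → Gd j X' f) ∧
  ∀ (j : ℕ) (X' : Sy V) (f : (X'.ι → ℝ) → X.ι → ℝ) (s : Stp V X'.ι), Gd (j + 1) X' f →
    X'.S.Ok → X'.S.Cen → Good X'.S s B Λ P R → Mg (xt X'.S s) Z →
    ∑' o, X'.S.wt (fce X'.S {s.b}) o * ind (¬ Gd j (X'.rf s o) (f ∘ mp X'.S s o)) ≤
      ε * vl X'.S.G (fce X'.S {s.b})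

/-- the inverse step: charts in all directions give a multi-affine model on a refinement -/
def INV : Prop := ∃ C : ℕ, ∀ (X : Sy V) (B L : Finset V) (κ : Type) [Fintype κ]
  (ty : κ → Finset V) (Φ : κ → (X.ι → ℝ) → ℝ) (E : (X.ι → ℝ) → Prop) (Y Z : ℝ)
  (Gd : ℕ → (X' : Sy V) → ((X'.ι → ℝ) → X.ι → ℝ) → Prop), X.S.Ok → X.S.Cen → 2 ≤ Y → Y ≤ Z → Disjoint B L →
  (∀ r, (ty r).Nonempty ∧ Disjoint (ty r) B) → (∀ r, Ty X.S (ty r) B (Φ r)) →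
  OnP (fce X.S (B ∪ L)) E → (Fintype.card X.ι : ℝ) ≤ exp Y → (Fintype.card κ : ℝ) ≤ Y →
  exp (-Y) ≤ den X.S (B ∪ L) E → (∀ b ∈ B, CH X.S B b ty Φ E Y) → Mg X.S (Z ^ C) →
  Clos B (exp Y) (exp (Z ^ C)) (Y ^ C) Z (exp (-Y ^ C)) X Gd → Gd C X id →
  ∃ (n : ℕ) (X' : Sy V) (φ : (X'.ι → ℝ) → X.ι → ℝ) (E' : (X'.ι → ℝ) → Prop) (d : ℕ)
    (T : κ → (X'.ι → ℝ) → ℝ), n ≤ C ∧ Chain B (exp Y) (exp (Z ^ C)) (Y ^ C) X n X' φ ∧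
    Gd 0 X' φ ∧ Mg X'.S Z ∧ OnP (fce X'.S (B ∪ L)) E' ∧ (∀ z, E' (toR z) → E (φ (toR z))) ∧
    exp (-Y ^ C) ≤ den X'.S (B ∪ L) E' ∧ 0 < d ∧ (d : ℝ) ≤ exp (Y ^ C) ∧
    (∀ r, Ty X'.S (ty r) B (T r) ∧ ∀ b ∈ B, Aff (X'.S.st b) (T r)) ∧
    ∀ z, E' (toR z) → ∀ r,
      Nr X'.S (ty r) B (fun w => d * Φ r (φ w) - T r w) (exp (Y ^ C)) (toR z)

end Vale.Agent.P057IV
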