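import Vale.Agent.P057IV.Den
import Vale.Agent.P057IV.Plan

/-!
Bookkeeping: states of the recursion and transitions between them.
-/

set_option linter.unusedSectionVars false

open Matrix Finset Real
open Vale.Agent.P267.H775 Vale.Agent.P057G Vale.Agent.P057MA
open Vale.Agent.P057T1 (ind)

namespace Vale.Agent.P057IV

noncomputable section

/-- polynomially bounded functions -/
def Pl (f : ℝ → ℝ) : Prop := ∃ C : ℕ, 1 ≤ C ∧ ∀ Y, 2 ≤ Y → f Y ≤ Y ^ C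

theorem pw_mono {Y : ℝ} (h : 2 ≤ Y) {a b : ℕ} (hab : a ≤ b) : Y ^ a ≤ Y ^ b :=
  pow_le_pow_right₀ (by linarith) hab

theorem le_pw {Y : ℝ} (h : 2 ≤ Y) {a : ℕ} (ha : 1 ≤ a) : Y ≤ Y ^ a := by
  simpa using pw_mono h ha

theorem nat_le_pw {Y : ℝ} (h : 2 ≤ Y) (a : ℕ) : (a : ℝ) ≤ Y ^ a :=
  le_trans (by exact_mod_cast a.lt_two_pow_self.le) (pow_le_pow_left₀ zero_le_two h a)

theorem pl_id : Pl fun Y => Y := ⟨1, le_rfl, fun _ _ => by simp⟩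

theorem pl_const (c : ℝ) : Pl fun _ => c :=
  ⟨⌈c⌉₊ + 1, by omega, fun _ h => (Nat.le_ceil c).trans ((nat_le_pw h _).trans
    (pw_mono h (by omega)))⟩

theorem Pl.add {f g : ℝ → ℝ} (hf : Pl f) (hg : Pl g) : Pl fun Y => f Y + g Y := by
  obtain ⟨a, ha, hf⟩ := hf
  obtain ⟨b, hb, hg⟩ := hg
  refine ⟨a + b + 1, by omega, fun Y h => ?_⟩
  have h1 := (hf Y h).trans (pw_mono h (Nat.le_add_right a b))
  have h2 := (hg Y h).trans (pw_mono h (Nat.le_add_left b a))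
  have h3 : 0 ≤ Y ^ (a + b) := by positivity
  rw [pow_succ]; nlinarith

theorem Pl.pow {f : ℝ → ℝ} (hf : Pl f) (h0 : ∀ Y, 2 ≤ Y → 0 ≤ f Y) (n : ℕ) :
    Pl fun Y => f Y ^ n := by
  obtain ⟨a, ha, hf⟩ := hf
  refine ⟨a * n + 1, by omega, fun Y h => (pow_le_pow_left₀ (h0 Y h) (hf Y h) n).trans ?_⟩
  rw [← pow_mul]; exact pw_mono h (by omega)

variable {V : Type} [Fintype V] [DecidableEq V]

theorem Clos.mono {B B' : Finset V} {Λ P R Z ε Λ' P' R' Z' ε' : ℝ} {X : Sy V}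
    {Gd : ℕ → (X' : Sy V) → ((X'.ι → ℝ) → X.ι → ℝ) → Prop} (h : Clos B Λ P R Z ε X Gd)
    (hB : B' ⊆ B) (h0 : 1 ≤ Λ') (hΛ : Λ ≤ Λ') (hP : P' ≤ P) (hR : R' ≤ R) (hZ : Z ≤ Z')
    (hε : ε ≤ ε') : Clos B' Λ' P' R' Z' ε' X Gd :=
  ⟨h.1, fun j X' f s a b c d e => (h.2 j X' f s a b c (d.mono hB hΛ hP hR)
    (e.mono (d.ok_xt h0 b) (d.cen_xt h0 b c) hZ)).trans
      (mul_le_mul_of_nonneg_right hε (vl_pos b.pd _).le)⟩

theorem Clos.down {B : Finset V} {Λ P R Z ε : ℝ} {X : Sy V}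
    {Gd : ℕ → (X' : Sy V) → ((X'.ι → ℝ) → X.ι → ℝ) → Prop} (h : Clos B Λ P R Z ε X Gd)
    {X' : Sy V} {f : (X'.ι → ℝ) → X.ι → ℝ} {j k : ℕ} (hj : j ≤ k) (hk : Gd k X' f) :
    Gd j X' f := by
  induction hj with
  | refl => exact hk
  | step _ ih => exact ih (h.1 _ _ _ hk)

/-- a node of the recursion -/
structure Nd (V : Type) : Type 1 where
  X : Sy V
  κ : Type
  [fin : Fintype κ]
  ty : κ → Finset V
  Φ : κ → (X.ι → ℝ) → ℝ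
  E : (X.ι → ℝ) → Prop

attribute [instance] Nd.fin

/-- the node after a refinement -/
@[reducible] def Nd.next (N : Nd V) (X' : Sy V) (φ : (X'.ι → ℝ) → N.X.ι → ℝ)
    (E' : (X'.ι → ℝ) → Prop) (d : ℕ) : Nd V :=
  ⟨X', N.κ, N.ty, fun r w => d * N.Φ r (φ w), E'⟩

theorem Nd.next_next (N : Nd V) (X' X'' : Sy V) (φ : (X'.ι → ℝ) → N.X.ι → ℝ)
    (ψ : (X''.ι → ℝ) → X'.ι → ℝ) (E' : (X'.ι → ℝ) → Prop) (E'' : (X''.ι → ℝ) → Prop) (d d' : ℕ) :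
    (N.next X' φ E' d).next X'' ψ E'' d' = N.next X'' (φ ∘ ψ) E'' (d' * d) := by
  simp only [Nd.next, Nat.cast_mul, mul_assoc, Function.comp]

/-- the standing assumptions -/
structure Base (B L : Finset V) (N : Nd V) (Y : ℝ) : Prop where
  ok : N.X.S.Ok
  cen : N.X.S.Cen
  ci : (Fintype.card N.X.ι : ℝ) ≤ exp Y
  ck : (Fintype.card N.κ : ℝ) ≤ Y
  ty : ∀ r, (N.ty r).Nonempty ∧ Disjoint (N.ty r) B
  fm : ∀ r, Ty N.X.S (N.ty r) B (N.Φ r)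
  on : OnP (fce N.X.S (B ∪ L)) N.E
  dn : exp (-Y) ≤ den N.X.S (B ∪ L) N.E

theorem Base.mono {B L : Finset V} {N : Nd V} {Y Y' : ℝ} (h : Base B L N Y) (hY : Y ≤ Y') :
    Base B L N Y' :=
  ⟨h.ok, h.cen, h.ci.trans (exp_le_exp.2 hY), h.ck.trans hY, h.ty, h.fm, h.on,
    (exp_le_exp.2 (neg_le_neg hY)).trans h.dn⟩

/-- monotone states -/
def Mn (Q : Nd V → ℝ → Prop) : Prop := ∀ N Y Y', Y ≤ Y' → Q N Y → Q N Y'

/-- transitions with the exponent `C` -/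
def TrC (B L : Finset V) (P Q : Nd V → ℝ → Prop) (C : ℕ) : Prop :=
  ∀ (N : Nd V) (Y Z : ℝ) (Gd : ℕ → (X' : Sy V) → ((X'.ι → ℝ) → N.X.ι → ℝ) → Prop),
    2 ≤ Y → Y ≤ Z → Base B L N Y → P N Y → Mg N.X.S (Z ^ C) →
    Clos B (exp Y) (exp (Z ^ C)) (Y ^ C) Z (exp (-Y ^ C)) N.X Gd → Gd C N.X id →
    ∃ (n : ℕ) (X' : Sy V) (φ : (X'.ι → ℝ) → N.X.ι → ℝ) (E' : (X'.ι → ℝ) → Prop) (d : ℕ),
      n ≤ C ∧ Chain B (exp Y) (exp (Z ^ C)) (Y ^ C) N.X n X' φ ∧ Gd 0 X' φ ∧ Mg X'.S Z ∧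
      (∀ z, E' (toR z) → N.E (φ (toR z))) ∧ 0 < d ∧ (d : ℝ) ≤ exp (Y ^ C) ∧
      Base B L (N.next X' φ E' d) (Y ^ C) ∧ Q (N.next X' φ E' d) (Y ^ C)

/-- transitions -/
def Tr (B L : Finset V) (P Q : Nd V → ℝ → Prop) : Prop := ∃ C, 1 ≤ C ∧ TrC B L P Q C

variable {B L : Finset V} {P Q R : Nd V → ℝ → Prop}

theorem TrC.mono {C C' : ℕ} (h : TrC B L P Q C) (hQ : Mn Q) (hC : C ≤ C') : TrC B L P Q C' := by
  intro N Y Z Gd h2 hZ hb hp hm hcl hg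
  have z2 := h2.trans hZ
  have a1 := pw_mono h2 hC
  have a2 := pw_mono z2 hC
  obtain ⟨n, X', φ, E', d, b1, b2, b3, b4, b5, b6, b7, b8, b9⟩ := h N Y Z Gd h2 hZ hb hp
    (hm.mono hb.ok hb.cen a2) (hcl.mono Subset.rfl (one_le_exp (by linarith)) le_rfl
      (exp_le_exp.2 a2) a1 le_rfl (exp_le_exp.2 (neg_le_neg a1))) (hcl.down hC hg)
  exact ⟨n, X', φ, E', d, b1.trans hC, b2.mono Subset.rfl le_rfl (exp_le_exp.2 a2) a1, b3, b4, b5,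
    b6, b7.trans (exp_le_exp.2 a1), b8.mono a1, hQ _ _ _ a1 b9⟩

theorem Tr.trans (h : Tr B L P Q) (h' : Tr B L Q R) (hR : Mn R) : Tr B L P R := by
  obtain ⟨a, ha, h⟩ := h
  obtain ⟨b, hb, h'⟩ := h'
  have hab : a ≤ a * b := Nat.le_mul_of_pos_right _ hb
  have hab' : a * b ≤ a * b * a := Nat.le_mul_of_pos_right _ ha
  refine ⟨a * b * a + a + b, by omega, fun N Y Z Gd h2 hZ hbs hp hm hcl hg => ?_⟩
  have z2 := h2.trans hZ
  have y1 := le_pw h2 ha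
  have e1 : (Z ^ (a * b)) ^ a ≤ Z ^ (a * b * a + a + b) := by
    rw [← pow_mul]; exact pw_mono z2 (by omega)
  have e2 : Y ^ a ≤ Y ^ (a * b * a + a + b) := pw_mono h2 (by omega)
  have e3 : Z ≤ Z ^ (a * b) := le_pw z2 (by omega)
  have e4 : (Z ^ a) ^ b ≤ Z ^ (a * b * a + a + b) := by
    rw [← pow_mul]; exact pw_mono z2 (by omega)
  have e5 : (Y ^ a) ^ b ≤ Y ^ (a * b * a + a + b - 1) := by
    rw [← pow_mul]; exact pw_mono h2 (by omega)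
  have e6 : Y ^ (a * b * a + a + b - 1) ≤ Y ^ (a * b * a + a + b) := pw_mono h2 (by omega)
  have e7 := e5.trans e6
  obtain ⟨n, X', φ, E', d, b1, b2, b3, b4, b5, b6, b7, b8, b9⟩ := h N Y (Z ^ (a * b))
    (fun j => Gd (b + j)) h2 (hZ.trans e3) hbs hp (hm.mono hbs.ok hbs.cen e1)
    (Clos.mono ⟨fun j X' f e => hcl.1 _ _ _ e, fun j X' f s e => hcl.2 _ _ _ s e⟩ Subset.rfl
      (one_le_exp (by linarith)) le_rfl (exp_le_exp.2 e1) e2 e3 (exp_le_exp.2 (neg_le_neg e2)))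
    (hcl.down (by omega) hg)
  obtain ⟨n', X'', ψ, E'', d', c1, c2, c3, c4, c5, c6, c7, c8, c9⟩ := h' (N.next X' φ E' d) (Y ^ a)
    (Z ^ a) (fun j X'' f => Gd j X'' (φ ∘ f)) (h2.trans y1) (pow_le_pow_left₀ (by linarith) hZ a)
    b8 b9 (by rwa [← pow_mul])
    (Clos.mono ⟨fun j X' f => hcl.1 _ _ _, fun j X' f s => hcl.2 _ _ _ s⟩ Subset.rfl
      (one_le_exp (by linarith)) (exp_le_exp.2 y1) (exp_le_exp.2 e4) e7 (le_pw z2 ha)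
      (exp_le_exp.2 (neg_le_neg e7)))
    (by simpa using b3)
  rw [Nd.next_next] at c8 c9
  refine ⟨n + n', X'', φ ∘ ψ, E'', d' * d, by omega,
    (b2.mono Subset.rfl le_rfl (exp_le_exp.2 e1) e2).trans
      (c2.mono Subset.rfl (exp_le_exp.2 y1) (exp_le_exp.2 e4) e7), c3,
    c4.mono c8.ok c8.cen (le_pw z2 ha), fun z hz => ?_, Nat.mul_pos c6 b6, ?_, c8.mono e7,
    hR _ _ _ e7 c9⟩
  · obtain ⟨y, hy⟩ := (c2.ok (one_le_exp (by linarith)) b8.ok b8.cen).2.2.int z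
    have := c5 z hz
    rw [hy] at this
    simpa only [Function.comp, hy] using b5 y this
  · rw [Nat.cast_mul]
    refine (mul_le_mul c7 b7 (Nat.cast_nonneg _) (exp_pos _).le).trans ?_
    rw [← exp_add]
    refine exp_le_exp.2 ?_
    have e8 : Y ^ a ≤ Y ^ (a * b * a + a + b - 1) := pw_mono h2 (by omega)
    have e9 : 0 ≤ Y ^ (a * b * a + a + b - 1) := by positivity
    rw [← pow_sub_one_mul (show a * b * a + a + b ≠ 0 by omega)]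
    nlinarith

theorem Nd.next_id (N : Nd V) : N.next N.X id N.E 1 = N := by
  simp only [Nd.next, Nat.cast_one, one_mul, id]

theorem tr_imp (h : ∀ N Y, 2 ≤ Y → Base B L N Y → P N Y → Q N Y) : Tr B L P Q := by
  refine ⟨1, le_rfl, fun N Y Z Gd h2 hZ hb hp hm hcl hg => ⟨0, N.X, id, N.E, 1, zero_le_one,
    Chain.refl, hcl.1 _ _ _ hg, by simpa using hm, fun _ hz => hz, one_pos,
    by simpa using (by linarith : 0 ≤ Y), ?_, ?_⟩⟩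
  · rw [Nd.next_id, pow_one]; exact hb
  · rw [Nd.next_id, pow_one]; exact h N Y h2 hb hp

/-- iteration over a finite set of directions -/
theorem tr_iter {St : Finset V → Nd V → ℝ → Prop} (hm : ∀ D, Mn (St D)) (T : Finset V)
    (h : ∀ b ∈ T, ∀ D, Tr B L (St D) (St (insert b D))) : Tr B L (St ∅) (St T) := by
  induction T using Finset.induction_on with
  | empty => exact tr_imp fun _ _ _ _ h => h
  | insert b T _ ih =>
    exact (ih fun c hc => h c (mem_insert_of_mem hc)).trans (h b (mem_insert_self _ _) T) (hm _)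

theorem base_next {N : Nd V} {Y Y' K : ℝ} (hb : Base B L N Y) {X' : Sy V}
    {φ : (X'.ι → ℝ) → N.X.ι → ℝ} (h1 : X'.S.Ok) (h2 : X'.S.Cen) (hφ : Mph B K N.X.S X'.S φ)
    (h3 : (Fintype.card X'.ι : ℝ) ≤ exp Y') (hY : Y ≤ Y') {E' : (X'.ι → ℝ) → Prop}
    (h4 : OnP (fce X'.S (B ∪ L)) E') (h5 : exp (-Y') ≤ den X'.S (B ∪ L) E') (d : ℕ) :
    Base B L (N.next X' φ E' d) Y' :=
  ⟨h1, h2, h3, hb.ck.trans hY, hb.ty, fun r => (hφ.ty (hb.ty r).2 (hb.fm r)).smul d, h4, h5⟩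

/-- one step -/
theorem tr_one (hQ : Mn Q) {f : ℝ → ℝ} (hf : Pl f) (c : ℕ)
    (h : ∀ (N : Nd V) (Y Z : ℝ) (Bad : Stp V N.X.ι → (N.X.ι → ℤ) → Prop), 2 ≤ Y → Y ≤ Z →
      f Y ≤ Z → Base B L N Y → P N Y → Mg N.X.S (Z ^ c) →
      (∀ s, Good N.X.S s B (exp Y) (exp (Z ^ c)) (f Y) → Mg (xt N.X.S s) Z →
        ∑' o, N.X.S.wt (fce N.X.S {s.b}) o * ind (Bad s o) ≤
          exp (-f Y) * vl N.X.S.G (fce N.X.S {s.b})) →
      ∃ (s : Stp V N.X.ι) (o : N.X.ι → ℤ) (E' : ((N.X.rf s o).ι → ℝ) → Prop) (d : ℕ),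
        Good N.X.S s B (exp Y) (exp (Z ^ c)) (f Y) ∧ ¬ Bad s o ∧ Mg (N.X.rf s o).S Z ∧
        (∀ z, E' (toR z) → N.E (mp N.X.S s o (toR z))) ∧ 0 < d ∧ (d : ℝ) ≤ exp (f Y) ∧
        OnP (fce (N.X.rf s o).S (B ∪ L)) E' ∧ exp (-f Y) ≤ den (N.X.rf s o).S (B ∪ L) E' ∧
        Q (N.next (N.X.rf s o) (mp N.X.S s o) E' d) (f Y)) : Tr B L P Q := by
  obtain ⟨a, ha, hf⟩ := hf
  refine ⟨a * c + a + 2, by omega, fun N Y Z Gd h2 hZ hb hp hm hcl hg => ?_⟩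
  have z2 := h2.trans hZ
  have y0 : 1 ≤ exp Y := one_le_exp (by linarith)
  have e1 : (Z ^ a) ^ c ≤ Z ^ (a * c + a + 2) := by rw [← pow_mul]; exact pw_mono z2 (by omega)
  have e2 : Y ^ a ≤ Y ^ (a * c + a + 2) := pw_mono h2 (by omega)
  have e3 := (hf Y h2).trans e2
  have e4 := le_pw z2 ha
  have e5 := le_pw h2 ha
  obtain ⟨s, o, E', d, b1, b2, b3, b4, b5, b6, b7, b8, b9⟩ := h N Y (Z ^ a)
    (fun s o => ¬ Gd 0 (N.X.rf s o) (id ∘ mp N.X.S s o)) h2 (hZ.trans e4)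
    ((hf Y h2).trans (pow_le_pow_left₀ (by linarith) hZ a)) hb hp (hm.mono hb.ok hb.cen e1)
    fun s g m => (hcl.mono Subset.rfl y0 le_rfl (exp_le_exp.2 e1) e3 e4
      (exp_le_exp.2 (neg_le_neg e3))).2 0 N.X id s (hcl.down (by omega) hg) hb.ok hb.cen g m
  have o1 := b1.ok_rf y0 hb.ok o
  have o2 := b1.cen_rf y0 hb.ok hb.cen o
  refine ⟨1, N.X.rf s o, mp N.X.S s o, E', d, by omega,
    Chain.refl.step s o (b1.mono Subset.rfl le_rfl (exp_le_exp.2 e1) e3), not_not.1 b2,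
    b3.mono o1 o2 e4, b4, b5, b6.trans (exp_le_exp.2 e3),
    base_next hb o1 o2 (mph_mp hb.ok hb.cen b1 y0 o) ((card_rf b1).trans ?_) (e5.trans e2) b7
      ((exp_le_exp.2 (neg_le_neg e3)).trans b8) d, hQ _ _ _ e3 b9⟩
  have e6 : Y ^ a + 2 ≤ Y ^ (a * c + a + 2) := by
    refine le_trans ?_ (pw_mono h2 (show a + 1 ≤ _ by omega))
    rw [pow_succ]; nlinarith
  have e7 := exp_le_exp.2 e6
  rw [exp_add] at e7
  have e8 := exp_le_exp.2 e5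
  nlinarith [add_one_le_exp (Y ^ a), add_one_le_exp 2, hb.ci, hf Y h2, exp_pos (Y ^ a)]

/-- a call of a transition for another family and fewer raw classes -/
theorem Tr.call {B' L' : Finset V} {P' Q' : Nd V → ℝ → Prop} (h : Tr B' L' P' Q') (hQ' : Mn Q')
    (hQ : Mn Q) (hB : B' ⊆ B) {f : ℝ → ℝ} (hf : Pl f)
    (hk : ∀ (N : Nd V) (Y : ℝ), 2 ≤ Y → Base B L N Y → P N Y →
      ∃ (κ : Type) (_ : Fintype κ) (ty : κ → Finset V) (Φ : κ → (N.X.ι → ℝ) → ℝ),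
        Base B' L' ⟨N.X, κ, ty, Φ, N.E⟩ (2 * Y) ∧ P' ⟨N.X, κ, ty, Φ, N.E⟩ (2 * Y) ∧
        ∀ (X' : Sy V) (φ : (X'.ι → ℝ) → N.X.ι → ℝ) (E' : (X'.ι → ℝ) → Prop) (d : ℕ) (K Y' : ℝ),
          Y ≤ Y' → Mph B' K N.X.S X'.S φ → 1 ≤ K → K ^ Fintype.card V ≤ exp Y' → Mg X'.S 2 →
          (∀ z, E' (toR z) → N.E (φ (toR z))) → 0 < d → (d : ℝ) ≤ exp Y' →
          Base B' L' (Nd.next ⟨N.X, κ, ty, Φ, N.E⟩ X' φ E' d) Y' →
          Q' (Nd.next ⟨N.X, κ, ty, Φ, N.E⟩ X' φ E' d) Y' →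
          ∃ (E'' : (X'.ι → ℝ) → Prop) (d' : ℕ), (∀ z, E'' (toR z) → E' (toR z)) ∧ 0 < d' ∧
            (d' : ℝ) ≤ exp (f Y') ∧ OnP (fce X'.S (B ∪ L)) E'' ∧
            exp (-f Y') ≤ den X'.S (B ∪ L) E'' ∧ Q (N.next X' φ E'' d') (f Y')) :
    Tr B L P Q := by
  obtain ⟨a, ha, h⟩ := h
  obtain ⟨b, hb, hf⟩ := hf
  set m := 2 * a + a * Fintype.card V with hm
  have hmb : m ≤ m * b := Nat.le_mul_of_pos_right _ hb
  refine ⟨m * b, by omega, fun N Y Z Gd h2 hZ hbs hp hmg hcl hg => ?_⟩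
  have z2 := h2.trans hZ
  obtain ⟨κ, _, ty, Φ, k1, k2, k3⟩ := hk N Y h2 hbs hp
  have p2 : ∀ {W : ℝ}, 2 ≤ W → (2 * W) ^ a ≤ W ^ m := fun {W} hW => by
    refine (pow_le_pow_left₀ (by linarith) (show 2 * W ≤ W ^ 2 by nlinarith) a).trans ?_
    rw [← pow_mul]; exact pw_mono hW (by omega)
  have e1 := (p2 z2).trans (pw_mono z2 hmb)
  have e2 := p2 h2
  have e3 : Y ^ m ≤ Y ^ (m * b) := pw_mono h2 hmb
  have e4 : Y ≤ Y ^ m := le_pw h2 (by omega)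
  have e5 : f (Y ^ m) ≤ Y ^ (m * b) := by rw [pow_mul]; exact hf _ (h2.trans e4)
  have y0 : 1 ≤ exp (2 * Y) := one_le_exp (by linarith)
  obtain ⟨n, X', φ, E', d, b1, b2, b3, b4, b5, b6, b7, b8, b9⟩ := h ⟨N.X, κ, ty, Φ, N.E⟩ (2 * Y)
    (2 * Z) Gd (by linarith) (by linarith) k1 k2 (hmg.mono hbs.ok hbs.cen e1)
    (hcl.mono hB y0 (exp_le_exp.2 (by linarith)) (exp_le_exp.2 e1) (e2.trans e3) (by linarith)
      (exp_le_exp.2 (neg_le_neg (e2.trans e3)))) (hcl.down (by omega) hg)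
  obtain ⟨o1, o2, o3⟩ := b2.ok y0 hbs.ok hbs.cen
  obtain ⟨E'', d', c1, c2, c3, c4, c5, c6⟩ := k3 X' φ E' d (2 ^ n) (Y ^ m) e4 o3
    (one_le_pow₀ one_le_two) (by
      rw [← pow_mul]
      refine (pow_le_pow_left₀ zero_le_two (show (2 : ℝ) ≤ exp 1 by
        linarith [add_one_le_exp 1]) _).trans ?_
      rw [← exp_nat_mul, mul_one]
      exact exp_le_exp.2 ((nat_le_pw h2 _).trans (pw_mono h2
        ((Nat.mul_le_mul_right _ b1).trans (by omega)))))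
    (b4.mono o1 o2 (by linarith)) b5 b6 (b7.trans (exp_le_exp.2 e2)) (b8.mono e2)
    (hQ' _ _ _ e2 b9)
  exact ⟨n, X', φ, E'', d', by omega,
    b2.mono hB (exp_le_exp.2 (by linarith)) (exp_le_exp.2 e1) (e2.trans e3), b3,
    b4.mono o1 o2 (by linarith), fun z hz => b5 z (c1 z hz), c2, c3.trans (exp_le_exp.2 e5),
    base_next hbs o1 o2 (o3.mono o1 hB le_rfl) (b8.ci.trans (exp_le_exp.2 (e2.trans e3)))
      (e4.trans e3) c4 ((exp_le_exp.2 (neg_le_neg e5)).trans c5) d', hQ _ _ _ e5 c6⟩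

end

end Vale.Agent.P057IV
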