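import Vale.Agent.P057IV.Nr

/-!
Densities: monotonicity, pigeonhole, passengers, tails.
-/

set_option linter.unusedSectionVars false

open Matrix Finset Real
open Vale.Agent.P267.H775 Vale.Agent.P057G Vale.Agent.P057MA
open Vale.Agent.P057T1 (ind ind_pos ind_neg ind_nonneg ind_le abs_ind ind_mono)

namespace Vale.Agent.P057IV

noncomputable section

variable {V : Type} [Fintype V] [DecidableEq V] {ι : Type} [Fintype ι] [DecidableEq ι]
  {S : MS V ι} {F B L : Finset V} {E E' : (ι → ℝ) → Prop}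

theorem Mg.mono (h : S.Ok) (hc : S.Cen) {Z Z' : ℝ} (hs : Mg S Z) (hZ : Z' ≤ Z) : Mg S Z' :=
  Smo.mono h hc (cls_univ S) (cls_univ S) hs Subset.rfl (Nat.ceil_mono hZ) (exp_pos _)
    (exp_le_exp.2 hZ) (exp_le_exp.2 (neg_le_neg hZ))

theorem Mg.mass (h : S.Ok) (hc : S.Cen) {Z : ℝ} (hs : Mg S Z) (hZ : 0 < Z) {q : Finset ι}
    (hq : Cls S q) : S.mass q ≤ 1 + exp (-Z) := by
  have := (Smo.mono h hc (cls_univ S) hq hs (subset_univ _) (Nat.one_le_iff_ne_zero.2
    (Nat.ceil_pos.2 hZ).ne') one_pos (one_le_exp hZ.le) le_rfl).mass h hc hq le_rfl one_ne_zero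
  rwa [nar_one] at this

theorem den_supp (h : S.Ok)
    (e : ∀ z : ι → ℤ, (∀ i ∉ fce S F, z i = 0) → E (toR z) → E' (toR z)) :
    den S F E ≤ den S F E' := by
  refine div_le_div_of_nonneg_right (Summable.tsum_le_tsum (fun z => ?_)
    (h.summable_re _ fun _ => abs_ind _) (h.summable_re _ fun _ => abs_ind _)) (vl_pos h.pd _).le
  by_cases hz : ∀ i ∉ fce S F, z i = 0
  · exact mul_le_mul_of_nonneg_left (ind_mono (e z hz)) (MS.wt_nonneg _ _)
  · simp only [MS.wt, if_neg hz, zero_mul, le_refl]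

theorem den_mono (h : S.Ok) (e : ∀ z : ι → ℤ, E (toR z) → E' (toR z)) :
    den S F E ≤ den S F E' := den_supp h fun z _ => e z

theorem den_nonneg (h : S.Ok) : 0 ≤ den S F E :=
  div_nonneg (tsum_nonneg fun _ => mul_nonneg (MS.wt_nonneg _ _) (ind_nonneg _))
    (vl_pos h.pd _).le

theorem den_and (h : S.Ok) (P : (ι → ℝ) → Prop) :
    den S F E - den S F (fun z => ¬ P z) ≤ den S F fun z => E z ∧ P z := by
  unfold den
  rw [← sub_div]
  exact div_le_div_of_nonneg_right (P057T1.wt_ind_and h _ (fun z => E (toR z)) fun z => P (toR z))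
    (vl_pos h.pd _).le

theorem sum_pigeon {Ω J : Type*} [Fintype J] [Nonempty J] {a : Ω → ℝ} {b : J → Ω → ℝ}
    (ha : Summable a) (hb : ∀ j, Summable (b j)) (h : ∀ x, a x ≤ ∑ j, b j x) :
    ∃ j, (∑' x, a x) / Fintype.card J ≤ ∑' x, b j x := by
  have h1 : ∑' x, a x ≤ ∑ j, ∑' x, b j x := by
    rw [← Summable.tsum_finsetSum fun j _ => hb j]
    exact Summable.tsum_le_tsum h ha (summable_sum fun j _ => hb j)
  have h0 : (0 : ℝ) < Fintype.card J := by exact_mod_cast Fintype.card_pos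
  obtain ⟨j, -, h2⟩ := exists_le_of_sum_le (s := univ) (f := fun _ : J => (∑' x, a x) / Fintype.card J)
    univ_nonempty (le_of_eq_of_le (by rw [sum_const, card_univ, nsmul_eq_mul]; field_simp) h1)
  exact ⟨j, h2⟩

theorem den_pigeon (h : S.Ok) {J : Type*} [Fintype J] [Nonempty J] (P : J → (ι → ℝ) → Prop)
    (e : ∀ z : ι → ℤ, E (toR z) → ∃ j, P j (toR z)) :
    ∃ j, den S F E / Fintype.card J ≤ den S F fun z => E z ∧ P j z := by
  obtain ⟨j, hj⟩ := sum_pigeon (J := J) (a := fun z => S.wt (fce S F) z * ind (E (toR z)))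
    (b := fun j z => S.wt (fce S F) z * ind (E (toR z) ∧ P j (toR z)))
    (h.summable_re _ fun _ => abs_ind _) (fun _ => h.summable_re _ fun _ => abs_ind _) fun z => by
      rw [← mul_sum]
      refine mul_le_mul_of_nonneg_left ?_ (MS.wt_nonneg _ _)
      by_cases a : E (toR z)
      · obtain ⟨j, hj⟩ := e z a
        exact (ind_le _).trans ((ind_pos ⟨a, hj⟩).ge.trans (single_le_sum
          (f := fun j => ind (E (toR z) ∧ P j (toR z))) (fun _ _ => ind_nonneg _) (mem_univ j)))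
      · rw [ind_neg a]; exact sum_nonneg fun _ _ => ind_nonneg _
  refine ⟨j, ?_⟩
  unfold den
  rw [div_right_comm]
  exact div_le_div_of_nonneg_right hj (vl_pos h.pd _).le

theorem fce_sdiff (hd : Disjoint B L) : fce S (B ∪ L) \ S.sts L = fce S B := by
  ext i
  rw [union_comm]
  exact ⟨fun hi => raw_of (A := L) (mem_sdiff.2 ⟨(mem_sdiff.1 hi).1, fun e =>
    (mem_sdiff.1 hi).2 (mem_inter.1 e).2⟩), fun hi =>
    mem_sdiff.2 ⟨fce_mono subset_union_right hi, not_sts hd.symm hi⟩⟩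

theorem hasSum_pd (h : S.Ok) (hd : Disjoint B L) (E : (ι → ℝ) → Prop) :
    HasSum (fun y => S.wt (fce S B) y * pd S B L E (toR y))
      (den S (B ∪ L) E * vl S.G (fce S B)) := by
  have h1 := (h.hasSum_frz_re (fce S (B ∪ L)) L (F := fun z => ind (E (toR z)))
    (h.summable_re _ fun _ => abs_ind _)).div_const (vl S.G (fce S (B ∪ L) ∩ S.sts L))
  simp only [fce_sdiff hd, toR_mix, mul_div_assoc] at h1
  have p1 := vl_pos h.pd (fce S B)
  have p2 := vl_pos h.pd (fce S (B ∪ L) ∩ S.sts L)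
  have e : den S (B ∪ L) E * vl S.G (fce S B) = (∑' z, S.wt (fce S (B ∪ L)) z *
      ind (E (toR z))) / vl S.G (fce S (B ∪ L) ∩ S.sts L) := by
    rw [den, vl_split h.pd (h.sat_sts L) (fce S (B ∪ L)), fce_sdiff hd]
    field_simp
  rw [e]
  exact h1

theorem pd_nonneg (h : S.Ok) (y : ι → ℝ) : 0 ≤ pd S B L E y :=
  div_nonneg (tsum_nonneg fun _ => mul_nonneg (MS.wt_nonneg _ _) (ind_nonneg _))
    (vl_pos h.pd _).le

theorem pd_mono (h : S.Ok) {y : ι → ℝ}
    (e : ∀ x : ι → ℤ, E (mix (S.sts L) (toR x) y) → E' (mix (S.sts L) (toR x) y)) :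
    pd S B L E y ≤ pd S B L E' y :=
  div_le_div_of_nonneg_right (P057T1.wt_ind_mono (h.frz L y) _ e) (vl_pos h.pd _).le

theorem pd_le (h : S.Ok) (y : ι → ℝ) :
    pd S B L E y ≤ (S.frz L y).mass (fce S (B ∪ L) ∩ S.sts L) :=
  div_le_div_of_nonneg_right (Summable.tsum_le_tsum
    (fun _ => mul_le_of_le_one_right (MS.wt_nonneg _ _) (ind_le _))
    ((h.frz L y).summable_re _ fun _ => abs_ind _) ((h.frz L y).summable _)) (vl_pos h.pd _).le

theorem pd_false (y : ι → ℝ) : pd S B L (fun _ => False) y = 0 := by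
  simp [pd, ind_neg not_false]

theorem pd_mix (x y : ι → ℝ) : pd S B L E (mix (S.sts L) x y) = pd S B L E y := by
  simp only [pd, MS.frz, mix_mix]

theorem pd_congr (h : S.Ok) (hd : Disjoint B L) (hE : OnP (fce S (B ∪ L)) E) {y y' : ι → ℝ}
    (e : ∀ i ∈ fce S B, y i = y' i) : pd S B L E y = pd S B L E y' := by
  have h1 : ∀ z, ∀ i ∈ fce S (B ∪ L), mix (S.sts L) z y i = mix (S.sts L) z y' i := fun z i hi => by
    by_cases a : i ∈ S.sts L
    · rw [mix_pos _ _ a, mix_pos _ _ a]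
    · rw [mix_neg _ _ a, mix_neg _ _ a, e i (fce_sdiff (S := S) hd ▸ mem_sdiff.2 ⟨hi, a⟩)]
  unfold pd
  congr 2
  funext x
  rw [MS.wt_congr (S := S.frz L y') (S' := S.frz L y) rfl fun z i hi => ?_,
    propext ⟨hE _ _ (h1 _), hE _ _ fun i hi => (h1 _ i hi).symm⟩]
  rw [MS.frz_p_pos _ _ (mem_inter.1 hi).2, MS.frz_p_pos _ _ (mem_inter.1 hi).2]
  exact P057T1.cls_p h (cls_fce S _) (h1 z) (mem_inter.1 hi).1

theorem onP_pd (h : S.Ok) (hd : Disjoint B L) (hE : OnP (fce S (B ∪ L)) E) (c : ℝ) :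
    OnP (fce S B) fun y => c ≤ pd S B L E y := fun _ _ e hy => hy.trans_eq (pd_congr h hd hE e)

/-- projection to the raw classes -/
theorem den_proj (h : S.Ok) (hc : S.Cen) (hd : Disjoint B L) {η : ℝ}
    (hm : S.mass (fce S (B ∪ L)) ≤ 1 + η) {P : (ι → ℝ) → Prop} (hP : OnP (fce S B) P)
    (e : ∀ z : ι → ℤ, E (toR z) → P (toR z)) : den S (B ∪ L) E - η ≤ den S B P := by
  obtain ⟨b, hb, s1⟩ := P057T1.frz_defect h hc ((cls_fce S (B ∪ L)).sat h) L hm
  rw [fce_sdiff hd] at hb s1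
  have p1 := vl_pos h.pd (fce S B)
  have h2 := hasSum_le (fun y => ?_) ((hasSum_pd h hd E).sub s1)
    (h.summable_re (fce S B) fun y => abs_ind (P (toR y))).hasSum
  · unfold den at h2 ⊢
    rw [le_div_iff₀ p1]
    linarith
  rw [← mul_sub]
  refine mul_le_mul_of_nonneg_left ?_ (MS.wt_nonneg _ _)
  by_cases a : P (toR y)
  · rw [ind_pos a]; linarith [pd_le (B := B) (L := L) (E := E) h (toR y)]
  · have h3 := (h.frz L (toR y)).one_le_mass (hc.frz L _) (q := fce S (B ∪ L) ∩ S.sts L)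
      (((cls_fce S _).sat h).inter (h.sat_sts L))
    have h4 := pd_mono (B := B) (L := L) (E := E) (E' := fun _ => False) h (y := toR y)
      fun x hx => a (by
        rw [← toR_mix] at hx
        refine hP _ _ (fun i hi => ?_) (e _ hx)
        rw [toR_mix, mix_neg _ _ (not_sts hd.symm hi)])
    rw [pd_false] at h4
    rw [ind_neg a]; linarith

/-- restriction to the points with many passengers -/
theorem den_pop (h : S.Ok) (hd : Disjoint B L) {c : ℝ} (h0 : 0 ≤ c) (hm : S.mass (fce S B) ≤ 2) :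
    den S (B ∪ L) E - 2 * c ≤ den S (B ∪ L) fun z => E z ∧ c ≤ pd S B L E z := by
  have p1 := vl_pos h.pd (fce S B)
  have h2 := hasSum_le (fun y => ?_) ((hasSum_pd h hd E).sub ((h.hasSum_wt (fce S B)).mul_right c))
    (hasSum_pd h hd fun z => E z ∧ c ≤ pd S B L E z)
  · refine le_of_mul_le_mul_right (le_trans ?_ h2) p1
    nlinarith [mul_nonneg (mul_nonneg h0 p1.le) (sub_nonneg.2 hm)]
  rw [← mul_sub]
  refine mul_le_mul_of_nonneg_left ?_ (MS.wt_nonneg _ _)
  by_cases a : c ≤ pd S B L E (toR y)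
  · exact (sub_le_self _ h0).trans (pd_mono h fun x hx => ⟨hx, by rwa [pd_mix]⟩)
  · linarith [pd_nonneg (B := B) (L := L) (E := fun z => E z ∧ c ≤ pd S B L E z) h (toR y)]

theorem den_tail (h : S.Ok) (hc : S.Cen) (hB : B ⊆ F) (hm : S.mass (fce S F) ≤ 2) {r Y : ℝ}
    (hr : Fintype.card ι + Y + 1 ≤ r) (hY : 0 ≤ Y) :
    den S F (fun z => ¬ ln2 S (fce S B) z ≤ r) ≤ exp (-Y) := by
  have p1 := vl_pos h.pd (fce S F)
  have h1 := tail_cen h hc (fce S F) r
  have h2 : √2 ^ (fce S F).card ≤ exp (Fintype.card ι) := by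
    refine le_trans (pow_le_pow_left₀ (sqrt_nonneg _) (b := exp 1) ?_ _) ?_
    · have := add_one_le_exp 1
      exact (sqrt_le_left (exp_pos _).le).2 (by nlinarith)
    · rw [← exp_nat_mul, mul_one]
      exact exp_le_exp.2 (by exact_mod_cast card_le_univ _)
  have h3 : exp (-(π * r / 2)) * exp (Fintype.card ι) * 2 ≤ exp (-Y) := by
    refine le_trans (mul_le_mul_of_nonneg_left (show (2 : ℝ) ≤ exp 1 by
      linarith [add_one_le_exp 1]) (by positivity)) ?_
    rw [← exp_add, ← exp_add]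
    have : (0 : ℝ) ≤ Fintype.card ι := Nat.cast_nonneg _
    exact exp_le_exp.2 (by nlinarith [pi_gt_three])
  rw [den, div_le_iff₀ p1]
  refine le_trans (Summable.tsum_le_tsum (fun z => ?_) (h.summable_re _ fun _ => abs_ind _)
    (h.summable_re (C := 1) _ fun _ => by split_ifs <;> simp)) (h1.trans ?_)
  · refine mul_le_mul_of_nonneg_left ?_ (MS.wt_nonneg _ _)
    split_ifs with a
    · exact ind_le _
    · refine (ind_neg (not_not.2 ?_)).le
      exact (ln2_mono h (cls_fce S B) (fce_mono hB) _).trans (not_le.1 a).le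
  · have := h.mass_nonneg (fce S F)
    calc _ ≤ exp (-(π * r / 2)) * exp (Fintype.card ι) * (2 * vl S.G (fce S F)) := by gcongr
      _ ≤ _ := by rw [← mul_assoc]; gcongr

/-- the closure of a predicate under agreement on `q` -/
def clo (q : Finset ι) (E : (ι → ℝ) → Prop) (y : ι → ℝ) : Prop :=
  ∃ z : ι → ℤ, (∀ i ∈ q, y i = toR z i) ∧ E (toR z)

theorem onP_clo (q : Finset ι) (E : (ι → ℝ) → Prop) : OnP q (clo q E) :=
  fun _ _ e ⟨z, a, b⟩ => ⟨z, fun i hi => by rw [← e i hi, a i hi], b⟩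

theorem clo_self {q : Finset ι} {z : ι → ℤ} (h : E (toR z)) : clo q E (toR z) :=
  ⟨z, fun _ _ => rfl, h⟩

theorem OnP.mono {q q' : Finset ι} (h : OnP q E) (hq : q ⊆ q') : OnP q' E :=
  fun z z' e => h z z' fun i hi => e i (hq hi)

theorem OnP.and {q : Finset ι} (h : OnP q E) (h' : OnP q E') : OnP q fun z => E z ∧ E' z :=
  fun z z' e a => ⟨h z z' e a.1, h' z z' e a.2⟩

theorem onP_all {q : Finset ι} {J : Sort*} {P : J → (ι → ℝ) → Prop} (h : ∀ j, OnP q (P j)) :
    OnP q fun z => ∀ j, P j z := fun z z' e a j => h j z z' e (a j)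

theorem onP_on {q : Finset ι} {f : (ι → ℝ) → ℝ} (h : On q f) (p : ℝ → Prop) :
    OnP q fun z => p (f z) := fun z z' e a => by beta_reduce; rwa [← h z z' e]

theorem on_ln2 (h : S.Ok) : On (fce S F) (ln2 S (fce S F)) := fun _ _ e =>
  P057T1.ln2_congr fun j hj => by rw [e j hj, P057T1.cls_p h (cls_fce S F) e hj]

end

end Vale.Agent.P057IV
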