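import Vale.Agent.P057IV.Den

/-!
Operations on charts: restriction, multiples, pull back, integer combinations, gluing.
-/

set_option linter.unusedSectionVars false

open Matrix Finset Real
open Vale.Agent.P267.H775 Vale.Agent.P057G Vale.Agent.P057MA
open Vale.Agent.P057T1 (NF Bal lab)

namespace Vale.Agent.P057IV

noncomputable section

variable {V : Type} [Fintype V] [DecidableEq V] {ι : Type} [Fintype ι] [DecidableEq ι]
  {S : MS V ι} {B : Finset V} {b : V} {κ ϱ : Type} [Fintype ϱ] {ty : κ → Finset V}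
  {Φ : κ → (ι → ℝ) → ℝ} {E E' : (ι → ℝ) → Prop} {K K' : ℝ} {γ : ϱ → (ι → ℝ) → ℝ}
  {Ψ : κ → (ι → ℝ) → ℝ} {c : κ → ϱ → (ι → ℝ) → ℝ}

theorem Chart.sub (h : Chart S B b ty Φ E K γ Ψ c) (hK : K ≤ K')
    (e : ∀ z : ι → ℤ, E' (toR z) → clo (fce S B) E (toR z)) : Chart S B b ty Φ E' K' γ Ψ c := by
  refine ⟨h.ga, h.ps, h.pa, h.cf, fun z hz ρ => ?_, fun z hz r => ?_⟩
  · obtain ⟨y, a, e⟩ := e z hz
    rw [(h.ga ρ).on _ _ a]
    exact h.arc y e ρ
  · obtain ⟨y, a, e⟩ := e z hz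
    exact (nr_pt (h.nr y e r) fun i hi => (a i hi).symm).mono hK

theorem Chart.mono (h : Chart S B b ty Φ E K γ Ψ c) (hK : K ≤ K')
    (e : ∀ z : ι → ℤ, E' (toR z) → E (toR z)) : Chart S B b ty Φ E' K' γ Ψ c :=
  h.sub hK fun z hz => clo_self (e z hz)

theorem on_map {q : Finset ι} {f : (ι → ℝ) → ℝ} (h : On q f) (g : ℝ → ℝ) :
    On q fun z => g (f z) := fun z z' e => congrArg g (h z z' e)

theorem Chart.fm (h : Chart S B b ty Φ E K γ Ψ c) {r : κ} (hd : Disjoint (ty r) B)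
    (hΦ : Ty S (ty r) B (Φ r)) :
    Ty S (ty r) B fun w => Φ r w - Ψ r w - ∑ ρ, (round (γ ρ w) : ℝ) * c r ρ w :=
  (hΦ.sub (h.ps r)).sub (Fm.sum univ fun ρ _ =>
    Ty.mul hd (on_map (h.ga ρ).on fun x => (round x : ℝ)) ((h.cf r ρ).up (erase_subset _ _)))

theorem Chart.nsmul (h : Chart S B b ty Φ E K γ Ψ c) (n : ℕ) :
    Chart S B b ty (fun r w => n * Φ r w) E (n * K) γ (fun r w => n * Ψ r w)
      fun r ρ w => n * c r ρ w :=
  ⟨h.ga, fun r => (h.ps r).smul n, fun r => aff_smul (h.pa r) n, fun r ρ => (h.cf r ρ).smul n,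
    h.arc, fun z hz r => nf_congr (nf_nsmul (h.nr z hz r) n) fun w _ => by
      simp only [mul_sub, mul_sum, mul_left_comm]⟩

theorem Chart.comb [Fintype κ] {A : Finset V} (h : Chart S B b (fun _ => A) Φ E K γ Ψ c)
    {κ' : Type} (a : κ' → κ → ℤ) (hK : ∀ t, (∑ r, |(a t r : ℝ)|) * K ≤ K') :
    Chart S B b (fun _ => A) (fun t w => ∑ r, a t r * Φ r w) E K' γ
      (fun t w => ∑ r, a t r * Ψ r w) fun t ρ w => ∑ r, a t r * c r ρ w := by
  refine ⟨h.ga, fun t => Fm.sum univ fun r _ => (h.ps r).smul _,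
    fun t => aff_sum univ fun r _ => aff_smul (h.pa r) _,
    fun t ρ => Fm.sum univ fun r _ => (h.cf r ρ).smul _, h.arc, fun z hz t => ?_⟩
  refine (nf_congr (nf_sum univ fun r _ => nf_zsmul (h.nr z hz r) (a t r)) fun w _ => ?_).mono
    (by rw [← sum_mul]; exact hK t)
  simp only [mul_sub, sum_sub_distrib, mul_sum]
  rw [sum_comm]
  simp only [mul_left_comm]

theorem Chart.pull (h : Chart S B b ty Φ E K γ Ψ c) {ι' : Type} [Fintype ι'] [DecidableEq ι']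
    {S' : MS V ι'} {B0 : Finset V} {M : ℝ} {φ : (ι' → ℝ) → ι → ℝ} (hφ : Mph B0 M S S' φ)
    (hS : S.Ok) (hc : S.Cen) (hM : 1 ≤ M) (hB : B0 ⊆ B) (hd : ∀ r, Disjoint (ty r) B)
    (hΦ : ∀ r, Ty S (ty r) B (Φ r)) (hK : 0 ≤ K) {E' : (ι' → ℝ) → Prop}
    (e : ∀ z : ι' → ℤ, E' (toR z) → E (φ (toR z))) :
    Chart S' B b ty (fun r w => Φ r (φ w)) E' (K * M ^ Fintype.card V) (fun ρ w => γ ρ (φ w))
      (fun r w => Ψ r (φ w)) fun r ρ w => c r ρ (φ w) := by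
  refine ⟨fun ρ => ⟨hφ.on (h.ga ρ).on, fun v hv => hφ.aff' ((h.ga ρ).aff v hv)⟩,
    fun r => hφ.ty ((hd r).mono_right hB) (h.ps r), fun r => hφ.aff' (h.pa r),
    fun r ρ => hφ.ty ((hd r).mono_right hB) (h.cf r ρ), fun z hz ρ => ?_, fun z hz r => ?_⟩
  · obtain ⟨y, hy⟩ := hφ.int z
    simpa only [hy] using h.arc y (hy ▸ e z hz) ρ
  · obtain ⟨y, hy⟩ := hφ.int z
    refine (hφ.nr hS hc hM hB (hd r) (h.fm (hd r) (hΦ r)).lin
      (hy ▸ h.nr y (hy ▸ e z hz) r)).mono ?_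
    exact mul_le_mul_of_nonneg_left (pow_le_pow_right₀ hM (card_le_univ _)) hK

theorem CH.mono {Y Y' : ℝ} (h : CH S B b ty Φ E Y) (hY : Y ≤ Y')
    (e : ∀ z : ι → ℤ, E' (toR z) → E (toR z)) : CH S B b ty Φ E' Y' := by
  obtain ⟨ϱ, _, γ, Ψ, c, h1, h2⟩ := h
  exact ⟨ϱ, _, γ, Ψ, c, h1.trans hY, h2.mono (exp_le_exp.2 hY) e⟩

theorem CH.nsmul {Y Y' : ℝ} (h : CH S B b ty Φ E Y) {n : ℕ} (hn : (n : ℝ) ≤ exp Y')
    (h0 : 0 ≤ Y') : CH S B b ty (fun r w => n * Φ r w) E (Y + Y') := by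
  obtain ⟨ϱ, _, γ, Ψ, c, h1, h2⟩ := h
  refine ⟨ϱ, _, γ, _, _, by linarith, (h2.nsmul n).mono ?_ fun _ h => h⟩
  rw [add_comm, exp_add]; gcongr

theorem CH.comb [Fintype κ] {A : Finset V} {Y Y' : ℝ} (h : CH S B b (fun _ => A) Φ E Y)
    {κ' : Type} (a : κ' → κ → ℤ) (ha : ∀ t, ∑ r, |(a t r : ℝ)| ≤ exp Y') (h0 : 0 ≤ Y') :
    CH S B b (fun _ => A) (fun t w => ∑ r, a t r * Φ r w) E (Y + Y') := by
  obtain ⟨ϱ, _, γ, Ψ, c, h1, h2⟩ := h
  refine ⟨ϱ, _, γ, _, _, by linarith, h2.comb a fun t => ?_⟩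
  rw [add_comm, exp_add]; gcongr; exact ha t

theorem CH.pull {Y Y' : ℝ} (h : CH S B b ty Φ E Y) {ι' : Type} [Fintype ι'] [DecidableEq ι']
    {S' : MS V ι'} {B0 : Finset V} {M : ℝ} {φ : (ι' → ℝ) → ι → ℝ} (hφ : Mph B0 M S S' φ)
    (hS : S.Ok) (hc : S.Cen) (hM : 1 ≤ M) (hB : B0 ⊆ B) (hd : ∀ r, Disjoint (ty r) B)
    (hΦ : ∀ r, Ty S (ty r) B (Φ r)) (hK : M ^ Fintype.card V ≤ exp Y') (h0 : 0 ≤ Y')
    {E' : (ι' → ℝ) → Prop} (e : ∀ z : ι' → ℤ, E' (toR z) → E (φ (toR z))) :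
    CH S' B b ty (fun r w => Φ r (φ w)) E' (Y + Y') := by
  obtain ⟨ϱ, _, γ, Ψ, c, h1, h2⟩ := h
  refine ⟨ϱ, _, _, _, _, by linarith, (h2.pull hφ hS hc hM hB hd hΦ (exp_pos _).le e).mono ?_
    fun _ h => h⟩
  rw [exp_add]; gcongr

/-- a uniform index type for the labels -/
theorem CH.fin {Y : ℝ} (h : CH S B b ty Φ E Y) : ∃ (γ : Fin ⌊Y⌋₊ → (ι → ℝ) → ℝ)
    (Ψ : κ → (ι → ℝ) → ℝ) (c : κ → Fin ⌊Y⌋₊ → (ι → ℝ) → ℝ),
    Chart S B b ty Φ E (exp Y) γ Ψ c := by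
  classical
  obtain ⟨ϱ, _, γ, Ψ, c, h1, h2⟩ := h
  obtain ⟨e⟩ : Nonempty (ϱ ↪ Fin ⌊Y⌋₊) :=
    Function.Embedding.nonempty_of_card_le (by simpa using Nat.le_floor h1)
  have key : ∀ (p : Fin ⌊Y⌋₊ → Prop), (∀ ρ, p (e ρ)) → (∀ j, (¬ ∃ ρ, e ρ = j) → p j) → ∀ j, p j :=
    fun p a b j => by
      by_cases x : ∃ ρ, e ρ = j
      · obtain ⟨ρ, rfl⟩ := x; exact a ρ
      · exact b j x
  refine ⟨Function.extend e γ fun _ _ => 0, Ψ, fun r => Function.extend e (c r) fun _ _ => 0,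
    key _ (fun ρ => ?_) fun j hj => ?_, h2.ps, h2.pa, fun r => key _ (fun ρ => ?_) fun j hj => ?_,
    fun z hz => key _ (fun ρ => ?_) fun j hj => ?_, fun z hz r => nf_congr (h2.nr z hz r) ?_⟩
  · rw [e.injective.extend_apply]; exact h2.ga ρ
  · rw [Function.extend_apply' _ _ _ hj]; exact Af.const _ _ _ _
  · rw [e.injective.extend_apply]; exact h2.cf r ρ
  · rw [Function.extend_apply' _ _ _ hj]; exact Fm.zero _ _ _
  · rw [e.injective.extend_apply]; exact h2.arc z hz ρ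
  · rw [Function.extend_apply' _ _ _ hj]; norm_num
  · intro w _
    congr 1
    refine (Fintype.sum_of_injective e e.injective _ _ (fun j hj => ?_) fun ρ => ?_).symm
    · rw [Function.extend_apply' (c r) _ _ hj, mul_zero]
    · rw [e.injective.extend_apply, e.injective.extend_apply]

section par

variable {Ω : Type*} {a : (ι → ℝ) → Ω} {F : Finset V}

theorem par_mix (ha : ∀ z z', (∀ i ∈ fce S F, z i = z' i) → a z = a z') {v : V} (hv : v ∉ F)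
    (x y : ι → ℝ) : a (mix (S.st v) x y) = a y :=
  ha _ _ fun _ hi => mix_neg _ _ fun e => hv (mem_fce.1 hi (S.mem_st.1 e))

theorem on_par (ha : ∀ z z', (∀ i ∈ fce S F, z i = z' i) → a z = a z') {F' : Finset V}
    (hF : F ⊆ F') {f : Ω → (ι → ℝ) → ℝ} (hf : ∀ ω, On (fce S F') (f ω)) :
    On (fce S F') fun w => f (a w) w := fun z z' e => by
  beta_reduce
  rw [ha z z' fun i hi => e i (fce_mono hF hi), hf _ z z' e]

theorem aff_par (ha : ∀ z z', (∀ i ∈ fce S F, z i = z' i) → a z = a z') {v : V} (hv : v ∉ F)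
    {f : Ω → (ι → ℝ) → ℝ} (hf : ∀ ω, Aff (S.st v) (f ω)) : Aff (S.st v) fun w => f (a w) w :=
  fun y => by
    simp only [par_mix ha hv]
    exact hf _ y

theorem ty_par (ha : ∀ z z', (∀ i ∈ fce S F, z i = z' i) → a z = a z') {A F' : Finset V}
    (hF : F ⊆ F') (hd : Disjoint A F) {f : Ω → (ι → ℝ) → ℝ} (hf : ∀ ω, Ty S A F' (f ω)) :
    Ty S A F' fun w => f (a w) w :=
  ⟨on_par ha (hF.trans subset_union_right) fun ω => (hf ω).on, fun v hv y => by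
    simp only [par_mix ha (disjoint_left.1 hd hv)]
    exact (hf _).lin v hv y⟩

/-- charts that depend on the other raw classes are one chart -/
theorem chart_par (ha : ∀ z z', (∀ i ∈ fce S (B.erase b), z i = z' i) → a z = a z')
    (hd : ∀ r, Disjoint (ty r) B) {P : Ω → (ι → ℝ) → Prop} {γ : Ω → ϱ → (ι → ℝ) → ℝ}
    {Ψ : Ω → κ → (ι → ℝ) → ℝ} {c : Ω → κ → ϱ → (ι → ℝ) → ℝ}
    (h : ∀ ω, Chart S B b ty Φ (P ω) K (γ ω) (Ψ ω) (c ω)) :
    Chart S B b ty Φ (fun w => P (a w) w) K (fun ρ w => γ (a w) ρ w) (fun r w => Ψ (a w) r w)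
      fun r ρ w => c (a w) r ρ w := by
  have hs := erase_subset b B
  refine ⟨fun ρ => ⟨on_par ha hs (f := fun ω => γ ω ρ) fun ω => ((h ω).ga ρ).on, fun v hv => ?_⟩,
    fun r => ty_par ha hs ((hd r).mono_right hs) (f := fun ω => Ψ ω r) fun ω => (h ω).ps r,
    fun r => aff_par ha (notMem_erase b B) (f := fun ω => Ψ ω r) fun ω => (h ω).pa r,
    fun r ρ => ty_par ha Subset.rfl ((hd r).mono_right hs) (f := fun ω => c ω r ρ)
      fun ω => (h ω).cf r ρ,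
    fun z hz => (h _).arc z hz, fun z hz r => nf_congr ((h _).nr z hz r) fun w hw => ?_⟩
  · rw [mem_singleton.1 hv]
    exact aff_par ha (notMem_erase b B) (f := fun ω => γ ω ρ)
      fun ω => ((h ω).ga ρ).aff b (mem_singleton_self b)
  · rw [ha w (toR z) fun i hi => bal_raw (hd r) hw i (fce_mono hs hi)]

end par

theorem msk_toR (q : Finset ι) (z : ι → ℤ) : msk q (toR z) = toR (mix q z 0) := by
  rw [toR_mix, toR_zero]; rfl

theorem msk_agree (q : Finset ι) (z : ι → ℝ) : ∀ i ∈ q, msk q z i = z i :=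
  fun _ hi => msk_pos _ hi

/-- local charts give a chart on the refined system -/
theorem ch_glue (hS : S.Ok) (hc : S.Cen) {s : Stp V ι} {Λ P R : ℝ} (hs : Good S s B Λ P R)
    (hΛ : 1 ≤ Λ) (o : ι → ℤ) (hd : ∀ r, Disjoint (ty r) B) (hΦ : ∀ r, Ty S (ty r) B (Φ r))
    {Y : ℝ} (hY : 0 ≤ Y) {Q : (ι → ℝ) → (ι → ℝ) → Prop} (h : ∀ a, CH S B s.b ty Φ (Q a) Y) :
    CH (rf S s o) B s.b ty (fun r w => Φ r (mp S s o w))
      (fun w => Q (msk (fce S B) (bv S s o w)) (msk (fce S B) (mp S s o w)))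
      (Y + Fintype.card V) := by
  choose γ Ψ c h using fun a => (h a).fin
  have hφ := mph_mp hS hc hs hΛ o
  have h1 := fun a => ((h a).sub (E' := fun y => Q a (msk (fce S B) y)) le_rfl fun z hz =>
    ⟨mix (fce S B) z 0, fun i hi => by rw [← msk_toR, msk_pos _ hi], by rwa [← msk_toR]⟩).pull
    hφ hS hc one_le_two Subset.rfl hd hΦ (exp_pos _).le
    (E' := fun w => Q a (msk (fce S B) (mp S s o w))) fun _ hz => hz
  refine ⟨_, _, _, _, _, ?_, (chart_par (a := fun w => msk (fce S B) (bv S s o w))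
    (fun z z' e => msk_congr fun i hi => on_bv i z z' fun j hj =>
      e j (fce_mono (erase_subset_erase _ (mem_fce.1 hi)) hj)) hd h1).mono ?_ fun _ hz => hz⟩
  · rw [Fintype.card_fin]
    linarith [Nat.floor_le hY, Nat.cast_nonneg (α := ℝ) (Fintype.card V)]
  · rw [exp_add, ← mul_one (Fintype.card V : ℝ), exp_nat_mul]
    gcongr
    linarith [add_one_le_exp 1]

end

end Vale.Agent.P057IV
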