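import Vale.Agent.P057PI.Cop
import Vale.Agent.P057T1.Dva
import Vale.Agent.P057MA.Mor

/-!
Inverse step on multi-affine systems: densities, charts, refinement steps, chains.
-/

set_option linter.unusedSectionVars false

open Matrix Finset
open Vale.Agent.P267.H775 Vale.Agent.P057G Vale.Agent.P057MA
open Vale.Agent.P057T1 (NF ind gsc lab pr a4)
open Vale.Agent.P057PI (dup sg)

namespace Vale.Agent.P057IV

noncomputable section

variable {V : Type} [Fintype V] [DecidableEq V]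

section raw

variable {ι : Type} [Fintype ι] [DecidableEq ι]

/-- a predicate that depends only on the coordinates in `q` -/
def OnP (q : Finset ι) (E : (ι → ℝ) → Prop) : Prop :=
  ∀ z z', (∀ i ∈ q, z i = z' i) → E z → E z'

/-- the density of `E` among the integer configurations on the faces inside `F` -/
def den (S : MS V ι) (F : Finset V) (E : (ι → ℝ) → Prop) : ℝ :=
  (∑' z, S.wt (fce S F) z * ind (E (toR z))) / vl S.G (fce S F)

/-- the density of the passengers `L` over the point `y` of the raw classes `B` -/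
def pd (S : MS V ι) (B L : Finset V) (E : (ι → ℝ) → Prop) (y : ι → ℝ) : ℝ :=
  (∑' x, (S.frz L y).wt (fce S (B ∪ L) ∩ S.sts L) x * ind (E (mix (S.sts L) (toR x) y))) /
    vl S.G (fce S (B ∪ L) ∩ S.sts L)

/-- a form of type `A` over the raw classes `B`: linear in the classes of `A`, an arbitrary
function of the coordinates on the faces inside `B` -/
abbrev Ty (S : MS V ι) (A B : Finset V) (f : (ι → ℝ) → ℝ) : Prop := Fm S (fce S (A ∪ B)) A f

/-- near an integer form of type `A` when the raw classes `B` are frozen at `y` -/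
abbrev Nr (S : MS V ι) (A B : Finset V) (f : (ι → ℝ) → ℝ) (K : ℝ) (y : ι → ℝ) : Prop :=
  NF S (fce S (A ∪ B)) A f K y

/-- smoothness margin -/
def Mg (S : MS V ι) (Z : ℝ) : Prop := Smo S univ ⌈Z⌉₊ (Real.exp Z) (Real.exp (-Z))

/-- the classes of the joint system: four copies of `b` -/
def b4 (B : Finset V) (b : V) : Finset (V × Fin 4) :=
  a4 (B.erase b) ∪ univ.image fun c : Fin 4 => (b, c)

/-- the classes of the system of a centre (copy `0`) and a displacement (copy `2`) -/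
def b2 (B : Finset V) (b : V) : Finset (V × Fin 4) := a4 (B.erase b) ∪ {(b, 0), (b, 2)}

/-- the joint system: copies `0, 1` of `b` as given, copies `2, 3` with Gram matrix `lam • G` -/
def jt (S : MS V ι) (b : V) (lam : ℝ) : MS (V × Fin 4) (BI S.fc (0 : Fin 4)) :=
  dup S 0 (sg S 0 b ![1, 1, √lam, √lam])

/-- the signed sum over the four points of a parallelogram -/
def rel (S : MS V ι) (b : V) (ψ : Fin 4 → (ι → ℝ) → ℝ) (Z : BI S.fc (0 : Fin 4) → ℝ) : ℝ :=
  ψ 0 (pr S b 0 2 Z) - ψ 1 (pr S b 0 3 Z) - ψ 2 (pr S b 1 2 Z) + ψ 3 (pr S b 1 3 Z)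

/-- a chart of the family `Φ` in the direction `b` on the set `E` -/
structure Chart (S : MS V ι) (B : Finset V) (b : V) {κ ϱ : Type} [Fintype ϱ]
    (ty : κ → Finset V) (Φ : κ → (ι → ℝ) → ℝ) (E : (ι → ℝ) → Prop) (K : ℝ)
    (γ : ϱ → (ι → ℝ) → ℝ) (Ψ : κ → (ι → ℝ) → ℝ) (c : κ → ϱ → (ι → ℝ) → ℝ) : Prop where
  ga : ∀ ρ, Af S (fce S B) {b} (γ ρ)
  ps : ∀ r, Ty S (ty r) B (Ψ r)
  pa : ∀ r, Aff (S.st b) (Ψ r)
  cf : ∀ r ρ, Ty S (ty r) (B.erase b) (c r ρ)
  arc : ∀ z : ι → ℤ, E (toR z) → ∀ ρ, |γ ρ (toR z) - round (γ ρ (toR z))| ≤ 1 / 100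
  nr : ∀ z : ι → ℤ, E (toR z) → ∀ r, Nr S (ty r) B
    (fun w => Φ r w - Ψ r w - ∑ ρ, (round (γ ρ w) : ℝ) * c r ρ w) K (toR z)

/-- a chart of complexity `Y` exists -/
def CH (S : MS V ι) (B : Finset V) (b : V) {κ : Type} (ty : κ → Finset V)
    (Φ : κ → (ι → ℝ) → ℝ) (E : (ι → ℝ) → Prop) (Y : ℝ) : Prop :=
  ∃ (ϱ : Type) (_ : Fintype ϱ) (γ : ϱ → (ι → ℝ) → ℝ) (Ψ : κ → (ι → ℝ) → ℝ)
    (c : κ → ϱ → (ι → ℝ) → ℝ), (Fintype.card ϱ : ℝ) ≤ Y ∧ Chart S B b ty Φ E (Real.exp Y) γ Ψ c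

end raw

/-- data of one refinement step: class, dilation, narrowing, new coordinates -/
structure Stp (V ι : Type) : Type 1 where
  b : V
  d : ℕ
  lam : ℝ
  X : Type
  [fin : Fintype X]
  [dec : DecidableEq X]
  fc : X → Finset V
  G : Matrix X X ℝ
  p : (ι → ℝ) → X → ℝ

attribute [instance] Stp.fin Stp.dec

/-- the step that only narrows the class `b` -/
def nw (ι : Type) (b : V) (lam : ℝ) : Stp V ι where
  b := b
  d := 1
  lam := lam
  X := Empty
  fc := Empty.elim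
  G := 1
  p := fun _ => Empty.elim

section step

variable {ι : Type} [Fintype ι] [DecidableEq ι]

/-- class `b` narrowed, new coordinates on top -/
def xt (S : MS V ι) (s : Stp V ι) : MS V (ι ⊕ s.X) := top (dil S {s.b} s.lam) s.fc s.G s.p

/-- the links of the class `b` to the other classes -/
abbrev Lk (S : MS V ι) (b : V) : Type := {i : ι // b ∈ S.fc i ∧ S.fc i ≠ {b}}

/-- the configuration seen from the base point `o` -/
def bv (S : MS V ι) (s : Stp V ι) (o : ι → ℤ) (z : (ι ⊕ s.X) ⊕ Lk S s.b → ℝ) (i : ι) : ℝ :=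
  if h : s.b ∈ S.fc i then (if h' : S.fc i = {s.b} then (o i : ℝ) else z (Sum.inr ⟨i, h, h'⟩))
  else z (Sum.inl (Sum.inl i))

/-- the refined system: the links of the base point `o` are new coordinates -/
def rf (S : MS V ι) (s : Stp V ι) (o : ι → ℤ) : MS V ((ι ⊕ s.X) ⊕ Lk S s.b) where
  fc := Sum.elim (xt S s).fc fun l => (S.fc l).erase s.b
  lv := Sum.elim (xt S s).lv fun l => S.lv l
  G := fromBlocks (xt S s).G 0 0 (S.G.submatrix Subtype.val Subtype.val)
  p z := Sum.elim ((xt S s).p (z ∘ Sum.inl)) fun l => S.p (bv S s o z) l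

/-- the map of the step: base point plus `d` times the new point in the class `b` -/
def mp (S : MS V ι) (s : Stp V ι) (o : ι → ℤ) (z : (ι ⊕ s.X) ⊕ Lk S s.b → ℝ) (i : ι) : ℝ :=
  bv S s o z i + if s.b ∈ S.fc i then s.d * z (Sum.inl (Sum.inl i)) else 0

/-- admissible steps -/
structure Good (S : MS V ι) (s : Stp V ι) (B : Finset V) (Λ P R : ℝ) : Prop where
  mem : s.b ∈ B
  d1 : 1 ≤ s.d
  lo : s.d * Λ ≤ s.lam
  hi : s.lam ≤ P
  card : (Fintype.card s.X : ℝ) ≤ R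
  fb : ∀ x, s.b ∈ s.fc x
  fB : ∀ x, s.fc x ⊆ B
  top : TopOk (dil S {s.b} s.lam) s.fc s.G s.p
  cx : th s.G⁻¹ 0 ≤ P
  sep : ∀ k : s.X → ℤ, k ≠ 0 → 1 ≤ qq s.G (toR k)

/-- abstract properties of the map of a refinement in the classes of `B` -/
structure Mph {ι' : Type} [Fintype ι'] [DecidableEq ι'] (B : Finset V) (K : ℝ) (S : MS V ι)
    (S' : MS V ι') (φ : (ι' → ℝ) → ι → ℝ) : Prop where
  int : ∀ z : ι' → ℤ, ∃ y : ι → ℤ, φ (toR z) = toR y
  loc : ∀ i, On (fce S' (S.fc i)) fun z => φ z i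
  aff : ∀ v i, v ∈ S.fc i → Aff (S'.st v) fun z => φ z i
  lin : ∀ v i, v ∉ B → v ∈ S.fc i → Lin (S'.st v) fun z => φ z i
  nrm : ∀ A F, B ⊆ F → Disjoint A F → ∀ z, ln2 S (fce S (A ∪ F) ∩ S.sts A) (φ z) ≤
    K * ln2 S' (fce S' (A ∪ F) ∩ S'.sts A) z

end step

/-- bundled systems -/
structure Sy (V : Type) : Type 1 where
  ι : Type
  [fin : Fintype ι]
  [dec : DecidableEq ι]
  S : MS V ι

attribute [instance] Sy.fin Sy.dec

/-- the refined bundled system -/
def Sy.rf (X : Sy V) (s : Stp V X.ι) (o : X.ι → ℤ) : Sy V :=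
  ⟨(X.ι ⊕ s.X) ⊕ Lk X.S s.b, P057IV.rf X.S s o⟩

/-- chains of `n` admissible steps in the classes of `B` -/
inductive Chain (B : Finset V) (Λ P R : ℝ) (X : Sy V) :
    ℕ → (X' : Sy V) → ((X'.ι → ℝ) → X.ι → ℝ) → Prop
  | refl : Chain B Λ P R X 0 X id
  | step {n : ℕ} {X' : Sy V} {φ : (X'.ι → ℝ) → X.ι → ℝ} (s : Stp V X'.ι) (o : X'.ι → ℤ) :
      Chain B Λ P R X n X' φ → Good X'.S s B Λ P R →
      Chain B Λ P R X (n + 1) (X'.rf s o) (φ ∘ mp X'.S s o)

end

end Vale.Agent.P057IV
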