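import Vale.Agent.P057IV.Sst
import Vale.Agent.P057CV.Dvm

/-!
One more direction for the slopes of the labels.
-/

set_option linter.unusedSectionVars false

open Matrix Finset Real
open Vale.Agent.P267.H775 Vale.Agent.P057G Vale.Agent.P057MA
open Vale.Agent.P057T1 (NF lab pr a4)
open Vale.Agent.P057QP (ok_jt cen_jt)

namespace Vale.Agent.P057IV

noncomputable section

theorem mul_exp {a b x y : ℝ} (ha : a ≤ exp x) (hb : b ≤ exp y) (h0 : 0 ≤ b) :
    a * b ≤ exp (x + y) := by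
  rw [exp_add]; exact mul_le_mul ha hb h0 (exp_pos _).le

theorem le_exp {a x : ℝ} (h : a ≤ x) : a ≤ exp x := by linarith [add_one_le_exp x]

theorem crq2 {ϱ α : Type} [Fintype ϱ] [DecidableEq ϱ] [Fintype α] (f : α → ϱ → ℤ) {u : ℝ}
    (h2 : 2 ≤ u) (hm : (Fintype.card ϱ : ℝ) ≤ u) (hf : ∀ a ρ, |(f a ρ : ℝ)| ≤ exp u) :
    ∃ (t : ℕ) (sel : Fin t → α) (w : Fin t → ϱ → ℤ) (D H : ℕ), t ≤ Fintype.card ϱ ∧ 0 < D ∧
      (D : ℝ) ≤ exp (u ^ 5) ∧
      (∀ ρ', ∑ ρ, |(pj D (fun l => f (sel l)) w ρ' ρ : ℝ)| ≤ exp (u ^ 5)) ∧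
      (∀ a, ∑ ρ, |(f a ρ : ℝ)| ≤ H) ∧ (H : ℝ) ≤ exp (u ^ 5) ∧
      (2 * H + 1 : ℝ) ^ t ≤ exp (u ^ 5) ∧
      ∀ a ρ', ∑ ρ, f a ρ * pj D (fun l => f (sel l)) w ρ' ρ = 0 := by
  have e1 := add_one_le_exp u
  have e2 : (⌈exp u⌉₊ : ℝ) ≤ exp (u + u) := by
    rw [exp_add]; nlinarith [Nat.ceil_lt_add_one (exp_pos u).le]
  have e3 := mul_exp (le_exp hm) e2 (Nat.cast_nonneg _)
  have e4 : 8 * (u * u) ≤ u ^ 5 := by
    have := pow_le_pow_left₀ zero_le_two h2 3
    nlinarith [mul_nonneg (by linarith : 0 ≤ u ^ 3 - 8) (mul_self_nonneg u)]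
  have e5 : 2 * u ≤ u * u := by nlinarith
  have hf' : ∀ a ρ, |(f a ρ : ℝ)| ≤ ⌈exp u⌉₊ := fun a ρ => (hf a ρ).trans (Nat.le_ceil _)
  obtain ⟨t, sel, w, D, a1, a2, a3, a4, a5⟩ := crq' f (H := ⌈exp u⌉₊)
    (Nat.ceil_pos.2 (exp_pos u)) fun a ρ => by exact_mod_cast hf' a ρ
  have t1 : (t : ℝ) ≤ u := le_trans (by exact_mod_cast a1) hm
  have e6 : (((Fintype.card ϱ).factorial * ⌈exp u⌉₊ ^ Fintype.card ϱ : ℕ) : ℝ) ≤
      exp (u * (u + (u + u))) := by
    refine le_trans ?_ (P057CV.pow_exp (by positivity) e3 (by linarith) hm)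
    rw [mul_pow]
    exact_mod_cast Nat.mul_le_mul_right _ (Nat.factorial_le_pow _)
  have d1 : (D : ℝ) ≤ exp (u * (u + (u + u))) := le_trans (by exact_mod_cast a3) e6
  refine ⟨t, sel, w, D, Fintype.card ϱ * ⌈exp u⌉₊, a1, a2, d1.trans (exp_le_exp.2 (by linarith)),
    fun ρ' => ?_, fun a => (sum_le_card_nsmul _ _ _ fun ρ _ => hf' a ρ).trans (by simp), ?_, ?_, a5⟩
  · refine (sum_le_card_nsmul _ _ (exp (u * (u + (u + u)) + (u + u + 3))) fun ρ _ => ?_).trans ?_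
    · have k1 : |((∑ l, f (sel l) ρ' * w l ρ : ℤ) : ℝ)| ≤ exp (u + (u + u * (u + (u + u)))) := by
        push_cast
        refine (abs_sum_le_sum_abs _ _).trans ((sum_le_card_nsmul _ _ _ fun l _ =>
          (abs_mul _ _).le.trans (mul_exp (hf _ _) (le_trans (by exact_mod_cast a4 l ρ) e6)
            (abs_nonneg _))).trans ?_)
        rw [card_univ, Fintype.card_fin, nsmul_eq_mul]
        exact mul_exp (le_exp t1) le_rfl (exp_pos _).le
      have k2 : |((if ρ = ρ' then (D : ℤ) else 0 : ℤ) : ℝ)| ≤ exp (u * (u + (u + u))) := by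
        split_ifs
        · simpa using d1
        · simpa using (exp_pos _).le
      rw [pj, Int.cast_sub]
      have := exp_sum (x := u + (u + u * (u + (u + u)))) (y := u * (u + (u + u)))
        (z := u * (u + (u + u)) + (u + u + 3)) (by linarith) (by linarith)
      linarith [abs_sub ((if ρ = ρ' then (D : ℤ) else 0 : ℤ) : ℝ)
        ((∑ l, f (sel l) ρ' * w l ρ : ℤ) : ℝ), exp_pos (u + (u + u * (u + (u + u))))]
    · rw [card_univ, nsmul_eq_mul]
      exact (mul_exp (le_exp hm) le_rfl (exp_pos _).le).trans (exp_le_exp.2 (by linarith))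
  · push_cast; exact e3.trans (exp_le_exp.2 (by linarith))
  · refine (P057CV.pow_exp (t := u + (u + u) + 3) (by positivity) ?_ (by linarith) t1).trans
      (exp_le_exp.2 (by nlinarith))
    have := exp_sum (x := u + (u + u)) (y := 0) (z := u + (u + u) + 3) le_rfl (by linarith)
    rw [exp_zero] at this
    push_cast
    linarith [exp_pos (u + (u + u))]

theorem sum_zero {ϱ R : Type} [Fintype ϱ] [AddCommMonoid R] (g : Fin 4 × ϱ → R) :
    ∑ p, (if p.1 = 0 then g p else 0) = ∑ ρ, g (0, ρ) := by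
  simp [Fintype.sum_prod_type, Fin.sum_univ_four]

variable {V : Type} [Fintype V] [DecidableEq V]

/-- one more direction for the labels -/
theorem gst (hP : PIECE V) (hT : TW V) (hA : PAS V) (hU : UNF V) (hK : PICK V) (hN : NWM V)
    (hJ : JSM V) (hQ : QUAD V) (hD : DVM (V × Fin 4)) : GST V := by
  classical
  obtain ⟨c1, -, hs⟩ := sup hQ
  obtain ⟨c2, hD⟩ := hD
  obtain ⟨c3, a3, hq⟩ := seq1 hP hA hU hK hN
  obtain ⟨c4, hT⟩ := hT
  intro B L D i b hi hb hDB hd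
  set n := Fintype.card V with hn
  refine tr_one mn_gam (pl_pw ((c1 + n + 4) * (c2 + 3) * 6 * 2 * (c3 + c4) * (c3 + c4)))
    (c1 + c3 + 4) ?_
  rintro N Y Z Bad h2 hZ hf hb0 ⟨p0, ϱ, _, γ, Ψ, cf, p1, p2, p3⟩ hM hB
  simp only [pow_mul] at hf hB ⊢
  obtain ⟨h, hc⟩ : N.X.S.Ok ∧ N.X.S.Cen := ⟨hb0.ok, hb0.cen⟩
  have hty := fun r => (hb0.ty r).2
  have hty' := fun r => (hty r).mono_right (erase_subset i B)
  have hbB := mem_of_mem_erase hb
  have hib := (ne_of_mem_erase hb).symm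
  have n1 : 4 * Y + 2 * n + 3 ≤ Y ^ (c1 + n + 4) * 2 ∧ Y + 2 * n + 3 ≤ Y ^ (c1 + n + 4) ∧
      Y ^ c1 + 3 ≤ Y ^ (c1 + n + 4) := by
    have := nat_le_pw h2 n
    have := nat_le_pw h2 3
    have := two_pw h2 (le_refl (n + 1))
    have := add_pw h2 (a := 1) (b := 2) (c := 3) (by omega) le_rfl
    have := add_pw h2 (a := n + 1) (b := 3) (c := c1 + n + 4) (by omega) (by omega)
    have := add_pw h2 (a := c1) (b := 3) (c := c1 + n + 4) (by omega) (by omega)
    have := six_pw h2 (c := c1 + n + 4) (by omega)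
    refine ⟨?_, ?_, ?_⟩ <;> nlinarith
  have n1' := six_pw h2 (c := c1 + n + 4) (by omega)
  generalize Y ^ (c1 + n + 4) = y1 at hf hB n1 n1' ⊢
  obtain ⟨-, n1, n1''⟩ := n1
  have n0 : (0 : ℝ) ≤ n := Nat.cast_nonneg _
  have u1 : 2 ≤ y1 := by linarith
  have n2 : y1 ^ c2 + 3 ≤ y1 ^ (c2 + 3) ∧ y1 ≤ y1 ^ (c2 + 3) := by
    have := add_pw u1 (a := c2) (b := 2) (c := c2 + 3) (by omega) (by omega)
    exact ⟨by nlinarith, le_pw u1 (by omega)⟩
  generalize y1 ^ (c2 + 3) = u at hf hB n2 ⊢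
  obtain ⟨n2, n2'⟩ := n2
  have u2 : 2 ≤ u := by linarith
  have n3 : u + u ^ 5 ≤ u ^ 6 := by simpa using add_pw u2 (a := 1) (b := 5) (by omega) le_rfl
  have n3' : Y * Y ≤ u ^ 5 := le_trans (by nlinarith) (pw_mono u2 (show 2 ≤ 5 by omega))
  have u5 : 0 ≤ u ^ 5 := by positivity
  generalize u ^ 6 = y2 at hf hB n3 ⊢
  have u3 : 2 ≤ y2 := by linarith
  have n4 : y2 + 1 ≤ y2 ^ 2 := by nlinarith
  generalize y2 ^ 2 = y2' at hf hB n4 ⊢
  have u4 : 2 ≤ y2' := by linarith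
  have n5 := le_pw u4 (show 1 ≤ c3 + c4 by omega)
  have n5' := pw_mono u4 (Nat.le_add_right c3 c4)
  have n5'' : y2 ^ c4 ≤ y2' ^ (c3 + c4) := (pow_le_pow_left₀ (by linarith) (by linarith) c4).trans
    (pw_mono u4 (Nat.le_add_left c4 c3))
  generalize y2' ^ (c3 + c4) = y at hf hB n5 n5' n5'' ⊢
  have u6 : 2 ≤ y := by linarith
  have n6 := le_pw u6 (show 1 ≤ c3 + c4 by omega)
  have n6' := pw_mono u6 (Nat.le_add_right c3 c4)
  have n6'' := pw_mono u6 (Nat.le_add_left c4 c3)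
  generalize y ^ (c3 + c4) = y3 at hf hB n6 n6' n6'' ⊢
  have z2 := h2.trans hZ
  have u0 : 0 ≤ y1 ^ c2 := by positivity
  have l1 : 1 ≤ exp y := one_le_exp (by linarith)
  obtain ⟨Ω, o1, o2, o3⟩ := hs _ N.X.S B L i b N.κ N.ty N.Φ N.E Y y Z h hc h2 (by linarith)
    (by linarith) (by linarith) hi hbB hd hty hb0.fm hb0.on hb0.ci
    (hM.mono h hc (pw_mono z2 (by omega))) hb0.dn (p0 b hb)
  have mj := hJ _ N.X.S b (exp y) Z h hc z2 l1 (exp_le_exp.2 (by linarith))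
    (hM.mono h hc (six_pw z2 (by omega)))
  obtain ⟨q, k, q1, q2, q4, q3⟩ := hD _ (jt N.X.S b (exp y)) (b4 B b) (i, 0) N.κ (Fin 4 × ϱ)
    (fun r => a4 (N.ty r)) Ω _ _ _ y1 (ok_jt h b l1) (cen_jt hc b _) u1 (mem_b4i hi hb)
    (fun r => ty_a4 (hb0.ty r) hbB) o1
    ((card_bi hb0.ci).trans (exp_le_exp.2 (by linarith))) (by linarith [hb0.ck])
    (by rw [Fintype.card_prod, Fintype.card_fin]; push_cast; linarith)
    (mj.mono (ok_jt h b l1) (cen_jt hc b _) (by linarith))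
    ((p2.jt h hc l1 hbB hib hty hb0.fm (exp_pos _).le fun W hW => (o3 W hW).2).mono
      (by linarith [mul_two_le (Y := Y) (le_refl n), exp_sum (x := Y + n) (by linarith) n1''])
      fun _ h => h) ((exp_le_exp.2 (by linarith)).trans o2)
  obtain ⟨t, sel, w, D0, H, d1, d2, d3, d4, d5, d6, d7, d8⟩ := crq2 (fun a ρ => k a (0, ρ)) u2
    (by linarith) fun a ρ => (q4 a _).trans (exp_le_exp.2 (by linarith))
  have t1 : (Fintype.card (Fin t) : ℝ) ≤ Y := by
    rw [Fintype.card_fin]; exact le_trans (by exact_mod_cast d1) p1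
  set ψ : N.κ × ϱ → (N.X.ι → ℝ) → ℝ := fun p x =>
    q * ∑ ρ, pj D0 (fun l ρ => k (sel l) (0, ρ)) w p.2 ρ * cf p.1 ρ x with hψ
  have fψ : ∀ p, Ty N.X.S (N.ty p.1) (B.erase i) (ψ p) := fun p =>
    (Fm.sum _ fun ρ _ => (p2.cf p.1 ρ).smul _).smul _
  set ξ : Fin 4 → Fin t → (N.X.ι → ℝ) → ℝ := fun j l x =>
    sn j * ∑ ρ, k (sel l) (j, ρ) * lab N.X.S i (γ ρ) x with hξ
  have oU := onP_pd h (dis_erase (i := i) hd) (by rw [union_erase hi]; exact hb0.on) (exp (-y))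
  have oP : OnP (fce (jt N.X.S b (exp y)) (b4 (B.erase i) b)) fun W =>
      (exp (-y) ≤ pd N.X.S (B.erase i) (insert i L) N.E (pr N.X.S b 0 2 W) ∧ ∀ l,
        Nr (jt N.X.S b (exp y)) (a4 {i}) (b4 (B.erase i) b) (rel N.X.S b fun j => ξ j l)
          (exp y2) W) ∧ ∀ p : N.κ × ϱ, Nr (jt N.X.S b (exp y)) (a4 (N.ty p.1)) (b4 (B.erase i) b)
        (fun x => ψ p (pr N.X.S b 0 2 x)) (exp y2) W :=
    ((onP_pr hb oU).and (onP_all fun _ => onP_nr)).and (onP_all fun _ => onP_nr)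
  have k1 := jt_proj h hc l1 hi hb u0 (mj.mono (ok_jt h b l1) (cen_jt hc b _) (by linarith)) oP
    (fun W hW => ⟨⟨(exp_le_exp.2 (by linarith)).trans (o3 W hW.1).1, fun l => by
      have := (hW.2.1 (sel l)).mono (exp_le_exp.2 (show y1 ^ c2 ≤ y2 by linarith))
      rw [b4_erase hib, ← a4_one] at this
      exact nf_congr this fun x _ => by
        simp only [rel_eq, hξ, ← mul_assoc, sn_sq, one_mul, lab, pt, pr_kill hib, mul_sub,
          sum_sub_distrib, Fintype.sum_prod_type]⟩, fun p => by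
      have := hW.2.2 (fun a => if a.1 = 0 then pj D0 (fun l ρ => k (sel l) (0, ρ)) w p.2 a.2 else 0)
        (fun a => by simp only [mul_ite, mul_zero, sum_zero]; exact d8 a p.2) p.1
      simp only [Int.cast_ite, Int.cast_zero, ite_mul, zero_mul, apply_ite abs, abs_zero,
        sum_zero] at this
      rw [b4_erase hib] at this
      exact nf_congr (this.mono ((mul_exp le_rfl (d4 p.2) (by positivity)).trans
        (exp_le_exp.2 (by linarith)))) fun x _ => by simp [hψ, sn, pt]⟩) q3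
  have k2 := hT _ N.X.S (B.erase i) b (N.κ × ϱ) (fun p => N.ty p.1) ψ _ y2 y h hc u3 n5'' hb
    (fun p => ⟨(hb0.ty p.1).1, hty' p.1⟩) fψ oP (hb0.ci.trans (exp_le_exp.2 (by linarith)))
    (by
      rw [Fintype.card_prod]; push_cast
      linarith [mul_le_mul hb0.ck p1 (Nat.cast_nonneg _) (by linarith)])
    (hM.mono h hc (by linarith [le_pw z2 (show 1 ≤ c1 + c3 + 4 by omega)])) (fun W hW => hW.2)
    ((exp_le_exp.2 (by linarith)).trans k1)
  obtain ⟨s, o, E', s1, s2, s3, s4, s5, s6, s7⟩ := hq _ N.X.S (B.erase i) (insert i L) b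
    (Fin t) (fun _ => {i}) ξ N.E (fun x => exp (-y) ≤ pd N.X.S (B.erase i) (insert i L) N.E x ∧
      ∀ p, Nr N.X.S (N.ty p.1) (B.erase i) (ψ p) (exp (y ^ c4)) x) Bad y2' y Z h hc u4 n5'
    (by linarith) hb (dis_erase hd)
    (fun _ => ⟨singleton_nonempty _, disjoint_singleton_left.2 (notMem_erase _ _)⟩)
    (fun _ _ => (Fm.sum _ fun ρ _ => (ty_gam hi (p2.ga ρ)).smul _).smul _)
    (by rw [union_erase hi]; exact hb0.on) (oU.and (onP_all fun _ => onP_nr))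
    (hb0.ci.trans (exp_le_exp.2 (by linarith))) (by linarith)
    (hM.mono h hc (pw_mono z2 (by omega))) (fun _ hy => hy.1)
    ((exp_le_exp.2 (by linarith)).trans (k2.trans (den_mono (ok_jt h b l1) fun W hW =>
      ⟨⟨hW.1.1.1, hW.2⟩, fun l => (hW.1.1.2 l).mono (exp_le_exp.2 (by linarith))⟩)))
    fun s g m => (hB s (g.mono (erase_subset _ _) (exp_le_exp.2 (by linarith))
      (exp_le_exp.2 (le_pw z2 (by omega))) (by linarith)) m).trans
      (mul_le_mul_of_nonneg_right (exp_le_exp.2 (by linarith)) (vl_pos h.pd _).le)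
  rw [union_erase hi] at s5 s6
  have mφ := mph_mp h hc s1 l1 o
  have e1 : (2 : ℝ) ^ n ≤ exp y3 := (two_pow_le n).trans (exp_le_exp.2 (by linarith))
  have e2 : ((q * D0 : ℕ) : ℝ) ≤ exp y3 := by
    rw [Nat.cast_mul]
    exact (mul_exp q2 d3 (Nat.cast_nonneg _)).trans (exp_le_exp.2 (by linarith))
  have e3 : Y + y3 + y3 ≤ 3 * y3 := by linarith
  obtain ⟨a, E'', Ψ', c', r1, r2, r3, r4⟩ := refac (s1.ok_rf l1 h o) hi hty subset_union_left s5
    (p2.pull mφ h hc one_le_two (erase_subset _ _) hty hb0.fm (exp_pos _).le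
      fun z hz => (s4 z hz).1) (fun l ρ => k (sel l) (0, ρ)) w D0 q H (K' := exp (y ^ c4 + n))
    (fun z hz r ρ' => (mφ.nr h hc one_le_two Subset.rfl (hty' r) (fψ (r, ρ')).lin
      ((s4 z hz).2.2 (r, ρ'))).mono (mul_two_le (card_le_univ _))) fun l => d5 (sel l)
  have e4 : (fun l => lab (rf N.X.S s o) i fun x =>
      ∑ ρ, k (sel l) (0, ρ) * γ ρ (mp N.X.S s o x) - a l) =
      fun l x => ∑ ρ, k (sel l) (0, ρ) * lab N.X.S i (γ ρ) (mp N.X.S s o x) := by
    funext l x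
    simp only [lab, mφ.kill (notMem_erase _ _), mul_sub, sum_sub_distrib]; ring
  refine ⟨s, o, E'', q * D0, s1.mono (erase_subset _ _) (exp_le_exp.2 (by linarith))
    (exp_le_exp.2 (le_pw z2 (by omega))) (by linarith), s2, s3,
    fun z hz => (s4 z (r1 _ hz)).1, Nat.mul_pos q1 d2,
    e2.trans (exp_le_exp.2 (by linarith)), r2, le_trans ?_ r3,
    mn_par _ _ _ e3 (p0.next hb0 mφ (erase_subset _ _) one_le_two e1
      (fun z hz => (s4 z (r1 _ hz)).1) e2 (by linarith)), Fin t, _, _, Ψ', c', by linarith,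
    r4.mono ?_ fun _ h => h, fun b' hb' => ?_⟩
  · rw [Fintype.card_fin, le_div_iff₀ (by positivity)]
    exact ((mul_exp le_rfl d7 (by positivity)).trans (exp_le_exp.2 (by linarith))).trans s6
  · have := mul_exp e2 (mul_two_le (Y := Y) (le_refl n)) (by positivity)
    have := mul_exp (le_exp p1) (le_refl (exp (y ^ c4 + n))) (exp_pos _).le
    linarith [exp_sum (x := y3 + (Y + n)) (y := Y + (y ^ c4 + n)) (z := 3 * y3) (by linarith)
      (by linarith), exp_pos (y3 + (Y + n))]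
  · change CH _ _ _ _ (fun l => lab (rf N.X.S s o) i fun x =>
      ∑ ρ, k (sel l) (0, ρ) * γ ρ (mp N.X.S s o x) - a l) _ _
    rw [e4]
    rcases mem_insert.1 hb' with rfl | hb'
    · simp only [hξ, sn, Matrix.cons_val_zero, Int.cast_one, one_mul] at s7
      exact s7.mono (by linarith) fun _ h => r1 _ h
    · exact (((p3 b' hb').pull mφ h hc one_le_two Subset.rfl
        (fun _ => disjoint_singleton_left.2 (notMem_erase _ _)) (fun ρ => ty_gam hi (p2.ga ρ)) e1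
        (by linarith) fun z hz => (s4 z hz).1).comb (fun l ρ => k (sel l) (0, ρ))
        (fun l => (d5 _).trans d6) u5).mono (by linarith) fun _ h => r1 _ h

end

end Vale.Agent.P057IV
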