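import Vale.Agent.P057IV.Xst
import Vale.Agent.P057GA.Pce
import Vale.Agent.P057TW.Tw
import Vale.Agent.P057T1.Dv1
import Vale.Agent.P057PX.Extb
import Vale.Agent.P057PK.Pick
import Vale.Agent.P057LU.Loc
import Vale.Agent.P057QP.Pas

/-!
The inverse step.
-/

namespace Vale.Agent.P057IV

/-- the inverse step holds -/
theorem inv_all (V : Type) [Fintype V] [DecidableEq V] : INV V :=
  inv (P057GA.piece V) (P057TW.tw V) (P057T1.dv1 _) (P057CV.dvm _) (P057PX.extb V) P057PK.pick
    (P057LU.loc V) (P057QP.pas V) (P057LU.unf V) P057PK.nwm P057PK.jsm (P057QP.quad V)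

end Vale.Agent.P057IV
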