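import Vale.Agent.P057IV.Chart
import Vale.Agent.P057QP.Shear

/-!
Pull back to the joint system of four copies; relations along parallelograms.
-/

set_option linter.unusedSectionVars false

open Matrix Finset Real
open Vale.Agent.P267.H775 Vale.Agent.P057G Vale.Agent.P057MA
open Vale.Agent.P057T1 (NF lab pr a4 cq q4 Bal cq_out cq_mem lin_pr aff_pr intV_pr qq_add_le)
open Vale.Agent.P057QP (mem_a4 fce_b4 ok_jt cen_jt sc_jt)

namespace Vale.Agent.P057IV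

noncomputable section

variable {V : Type} [Fintype V] [DecidableEq V] {ι : Type} [Fintype ι] [DecidableEq ι]
  {S : MS V ι} {A B F : Finset V} {b v : V} {lam : ℝ} {a c : Fin 4} {f : (ι → ℝ) → ℝ}

theorem mem_b4 {u : V} {k : Fin 4} : (u, k) ∈ b4 B b ↔ (u ≠ b ∧ u ∈ B ∧ k = 0) ∨ u = b := by
  simp only [b4, mem_union, mem_a4, mem_erase, mem_image, mem_univ, true_and, Prod.mk.injEq,
    and_assoc]
  exact or_congr Iff.rfl ⟨fun ⟨_, h, _⟩ => h.symm, fun h => ⟨k, h.symm, rfl⟩⟩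

theorem a4_b4 : a4 A ∪ b4 B b = b4 (A ∪ B) b := by
  ext ⟨u, k⟩
  simp only [mem_union, mem_b4, mem_a4]
  tauto

theorem b4_erase (hv : v ≠ b) : (b4 B b).erase (v, 0) = b4 (B.erase v) b := by
  ext ⟨u, k⟩
  simp only [mem_erase, mem_b4, ne_eq, Prod.mk.injEq]
  constructor
  · rintro ⟨h1, ⟨h2, h3, h4⟩ | h2⟩
    exacts [Or.inl ⟨h2, ⟨fun e => h1 ⟨e, h4⟩, h3⟩, h4⟩, Or.inr h2]
  · rintro (⟨h1, h2, h3⟩ | h1)
    exacts [⟨fun e => h2.1 e.1, Or.inl ⟨h1, h2.2, h3⟩⟩, ⟨fun e => hv (e.1.symm.trans h1), Or.inr h1⟩]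

theorem a4_insert : a4 (insert v A) = insert (v, 0) (a4 A) := image_insert _ _ _

theorem a4_one : a4 {v} = {(v, (0 : Fin 4))} := image_singleton _ _

theorem card_a4 : (a4 A).card = A.card :=
  card_image_of_injective _ fun _ _ h => congrArg Prod.fst h

theorem dis_a4 (hd : Disjoint A B) (hb : b ∈ B) : Disjoint (a4 A) (b4 B b) :=
  disjoint_left.2 fun ⟨u, k⟩ h1 h2 => by
    have h3 := disjoint_left.1 hd (mem_a4.1 h1).1
    rcases mem_b4.1 h2 with h4 | h4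
    exacts [h3 h4.2.1, h3 (h4 ▸ hb)]

theorem ty_a4 (hd : A.Nonempty ∧ Disjoint A B) (hb : b ∈ B) :
    (a4 A).Nonempty ∧ Disjoint (a4 A) (b4 B b) := ⟨hd.1.image _, dis_a4 hd.2 hb⟩

theorem toR_pr (W : BI S.fc (0 : Fin 4) → ℤ) : pr S b a c (toR W) = toR (pr S b a c W) := by
  funext j
  simp only [pr, mix, Function.comp, toR_apply]; split_ifs <;> simp

theorem pr_agree (hb : b ∈ F) {W W' : BI S.fc (0 : Fin 4) → ℝ}
    (e : ∀ i ∈ fce (jt S b lam) (b4 F b), W i = W' i) :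
    ∀ j ∈ fce S F, pr S b a c W j = pr S b a c W' j := fun j hj => by
  have : ∀ k, W (cq S b k j) = W' (cq S b k j) := fun k => e _ (by rw [fce_b4 hb]; exact cq_mem hj k)
  simp only [pr, mix, Function.comp, this]

theorem on_pr (hb : b ∈ F) (h : On (fce S F) f) :
    On (fce (jt S b lam) (b4 F b)) fun W => f (pr S b a c W) :=
  fun _ _ e => h _ _ (pr_agree hb e)

theorem onP_pr (hb : b ∈ F) {E : (ι → ℝ) → Prop} (h : OnP (fce S F) E) :
    OnP (fce (jt S b lam) (b4 F b)) fun W => E (pr S b a c W) :=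
  fun _ _ e => h _ _ (pr_agree hb e)

theorem pr_mix (hv : v ≠ b) (X Y : BI S.fc (0 : Fin 4) → ℝ) :
    pr S b a c (mix ((jt S b lam).st (v, 0)) X Y) = mix (S.st v) (pr S b a c X) (pr S b a c Y) := by
  have : ∀ k j, mix ((jt S b lam).st (v, 0)) X Y (cq S b k j) =
      mix (S.st v) (X ∘ cq S b k) (Y ∘ cq S b k) j := fun k j => by
    have h1 := congrFun (mix_cp (c0 := (0 : Fin 4)) (P057T1.ch b k) v X Y) j
    rwa [show P057T1.ch b k v = 0 by simp only [P057T1.ch, Function.update_of_ne hv]] at h1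
  funext j
  simp only [pr, mix, Function.comp] at this ⊢
  rw [this, this, this]
  split_ifs <;> rfl

theorem lin_prm (S : MS V ι) (b : V) (a c : Fin 4) :
    IsLinearMap ℝ fun X : BI S.fc (0 : Fin 4) → ℝ => pr S b a c X := by
  constructor
  · intro X X'; funext j
    simp only [pr, mix, Function.comp, Pi.add_apply]; split_ifs <;> ring
  · intro r X; funext j
    simp only [pr, mix, Function.comp, Pi.smul_apply, smul_eq_mul]; split_ifs <;> ring

theorem pr_kill (hv : v ≠ b) (W : BI S.fc (0 : Fin 4) → ℝ) :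
    pr S b a c (mix ((jt S b lam).st (v, 0)) 0 W) = mix (S.st v) 0 (pr S b a c W) := by
  rw [pr_mix hv, (lin_prm S b a c).map_zero]

theorem aff_prv (hv : v ≠ b) (h : Aff (S.st v) f) :
    Aff ((jt S b lam).st (v, 0)) fun W => f (pr S b a c W) := fun Y => by
  simp only [pr_mix hv, (lin_prm S b a c).map_zero]
  exact ⟨fun X X' => by rw [(lin_prm S b a c).map_add, (h _).map_add],
    fun r X => by rw [(lin_prm S b a c).map_smul, (h _).map_smul]⟩

theorem lin_prv (hv : v ≠ b) (h : Lin (S.st v) f) :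
    Lin ((jt S b lam).st (v, 0)) fun W => f (pr S b a c W) :=
  (aff_prv hv h.aff).lin fun Y => by rw [pr_kill hv]; exact h.zero _

theorem lin_a4 (hb : b ∉ A) (h : ∀ v ∈ A, Lin (S.st v) f) :
    ∀ u ∈ a4 A, Lin ((jt S b lam).st u) fun W => f (pr S b a c W) := fun ⟨u, k⟩ hu => by
  obtain ⟨h1, rfl⟩ := mem_a4.1 hu
  exact lin_prv (fun e => hb (e ▸ h1)) (h u h1)

theorem ty_pr (hb : b ∈ B) (hd : Disjoint A B) (h : Ty S A B f) :
    Ty (jt S b lam) (a4 A) (b4 B b) fun W => f (pr S b a c W) :=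
  ⟨by rw [a4_b4]; exact on_pr (mem_union_right _ hb) h.on,
    lin_a4 (disjoint_right.1 hd hb) h.lin⟩

theorem lab_pr (hv : v ≠ b) :
    lab (jt S b lam) (v, 0) (fun W => f (pr S b a c W)) = fun W => lab S v f (pr S b a c W) := by
  funext W; simp only [lab, pr_kill hv]

theorem ln2_pr (h : S.Ok) (hc : S.Cen) (hl : 1 ≤ lam) (r : Finset ι)
    (Z : BI S.fc (0 : Fin 4) → ℝ) : ln2 S r (pr S b a c Z) ≤ 4 * ln2 (jt S b lam) (q4 S r b) Z := by
  have e := (P057PI.cop_split h (sc_jt r b hl)).1 Z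
  change ln2 (jt S b lam) (q4 S r b) Z = ln2 S (r \ S.st b) (Z ∘ cq S b 0) +
    ∑ k, _ * ln2 S (r ∩ S.st b) (Z ∘ cq S b k) at e
  have h1 : ∀ k, ln2 S (r ∩ S.st b) (Z ∘ cq S b k) ≤ ∑ k, (![1, 1, √lam, √lam] : Fin 4 → ℝ) k ^ 2 *
      ln2 S (r ∩ S.st b) (Z ∘ cq S b k) := fun k =>
    le_trans (le_mul_of_one_le_left (ln2_nonneg h _) (one_le_pow₀ (P057QP.one_le_sig hl k)))
      (single_le_sum (f := fun k => (![1, 1, √lam, √lam] : Fin 4 → ℝ) k ^ 2 *
        ln2 S (r ∩ S.st b) (Z ∘ cq S b k))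
        (fun k _ => mul_nonneg (sq_nonneg _) (ln2_nonneg h _)) (mem_univ k))
  rw [ln2_split h (h.sat_st b)]
  have h3 : ln2 S (r \ S.st b) (pr S b a c Z) = ln2 S (r \ S.st b) (Z ∘ cq S b 0) :=
    P057T1.ln2_congr fun j hj => by
      have e : ∀ i ∈ univ \ S.st b, pr S b a c Z i = (Z ∘ cq S b 0) i := fun i hi =>
        mix_neg _ _ (mem_sdiff.1 hi).2
      have h4 : j ∈ univ \ S.st b := mem_sdiff.2 ⟨mem_univ _, (mem_sdiff.1 hj).2⟩
      rw [e j h4, P057T1.cls_p h ((cls_univ S).sdiff_st b) e h4]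
  have h4 : ln2 S (r ∩ S.st b) (pr S b a c Z) ≤
      2 * ln2 S (r ∩ S.st b) (Z ∘ cq S b a) + 2 * ln2 S (r ∩ S.st b) (Z ∘ cq S b c) := by
    refine le_trans (le_of_eq ?_) (qq_add_le h.pd.posSemidef _ _)
    unfold ln2
    congr 1; funext j
    by_cases hj : j ∈ r ∩ S.st b
    · have h5 := (mem_inter.1 hj).2
      rw [Pi.add_apply, msk_pos _ hj, msk_pos _ hj, msk_pos _ hj, Pi.sub_apply, Pi.sub_apply,
        Pi.sub_apply, lin_pr a c (h.lin hc (S.mem_st.1 h5)), pr, mix_pos _ _ h5]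
      simp only [Function.comp]; ring
    · rw [Pi.add_apply, msk_neg _ hj, msk_neg _ hj, msk_neg _ hj, add_zero]
  linarith [h1 a, h1 c, ln2_nonneg (q := r \ S.st b) h (Z ∘ cq S b 0)]

/-- near integer forms pull back to the joint system -/
theorem nr_pr (h : S.Ok) (hc : S.Cen) (hl : 1 ≤ lam) (hb : b ∈ B) (hd : Disjoint A B)
    (hf : ∀ v ∈ A, Lin (S.st v) f) {K : ℝ} {W : BI S.fc (0 : Fin 4) → ℤ}
    (hn : Nr S A B f K (pr S b a c (toR W))) :
    Nr (jt S b lam) (a4 A) (b4 B b) (fun Z => f (pr S b a c Z)) (K * 2 ^ A.card) (toR W) := by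
  obtain ⟨η, h1, h2, h3⟩ := hn
  refine nf_intro (ty_pr hb hd (h1.mono inter_subset_left Subset.rfl)) (intV_pr b a c h2)
    fun Z hZ => ?_
  refine bal_large h hc (fun v hv => ?_) h3 one_le_two
    (fun j hj => pr_agree hb (bal_raw (dis_a4 hd hb) hZ) j (raw_of hj)) ?_
  · simpa [sub_eq_add_neg] using lin_comb (hf v hv) (h1.lin v hv) 1 (-1)
  · refine (ln2_pr h hc hl _ Z).trans ?_
    have e := hZ.2
    rw [a4_b4, fce_b4 (mem_union_right _ hb), P057QP.q4_eq] at e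
    have e' := P057QP.cps_inter (S := S) (fun _ => fce S (A ∪ B)) (disjoint_right.1 hd hb)
    change _ ∩ (jt S b lam).sts _ = _ at e'
    rw [e', ← P057QP.q4_eq] at e
    linarith

/-- the four points of a parallelogram -/
def pt (S : MS V ι) (b : V) (j : Fin 4) (W : BI S.fc (0 : Fin 4) → ℝ) : ι → ℝ :=
  pr S b (![0, 0, 1, 1] j) (![2, 3, 2, 3] j) W

/-- the signs of the four points -/
def sn : Fin 4 → ℤ := ![1, -1, -1, 1]

theorem abs_sn (j : Fin 4) : |(sn j : ℝ)| = 1 := by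
  fin_cases j <;> simp [sn]

theorem sn_sq (j : Fin 4) : (sn j : ℝ) * sn j = 1 := by
  fin_cases j <;> simp [sn]

theorem rel_eq (ψ : Fin 4 → (ι → ℝ) → ℝ) :
    rel S b ψ = fun W => ∑ j, (sn j : ℝ) * ψ j (pt S b j W) := by
  funext W
  simp [rel, Fin.sum_univ_four, sn, pt]; ring

theorem rel_aff (h : Aff (S.st b) f) (W : BI S.fc (0 : Fin 4) → ℝ) :
    ∑ j, (sn j : ℝ) * f (pt S b j W) = 0 := by
  simp [Fin.sum_univ_four, sn, pt, aff_pr _ _ h]; ring

theorem pt_out (j : Fin 4) (W : BI S.fc (0 : Fin 4) → ℝ) {i : ι} (hi : i ∉ S.st b) :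
    pt S b j W i = pt S b 0 W i := by
  simp only [pt, pr, mix_neg _ _ hi]

theorem ty_rel (hb : b ∈ B) (hd : Disjoint A B) {ψ : Fin 4 → (ι → ℝ) → ℝ}
    (h : ∀ j, Ty S A B (ψ j)) : Ty (jt S b lam) (a4 A) (b4 B b) (rel S b ψ) := by
  rw [rel_eq]
  exact Fm.sum _ fun j _ => (ty_pr hb hd (h j)).smul _

theorem aff_rel (hv : v ≠ b) {ψ : Fin 4 → (ι → ℝ) → ℝ} (h : ∀ j, Aff (S.st v) (ψ j)) :
    Aff ((jt S b lam).st (v, 0)) (rel S b ψ) := by
  rw [rel_eq]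
  exact Aff.sum _ _ fun j _ => aff_prv hv (h j)

theorem nr_rel (h : S.Ok) (hc : S.Cen) (hl : 1 ≤ lam) (hb : b ∈ B) (hd : Disjoint A B)
    (hf : ∀ v ∈ A, Lin (S.st v) f) {K : ℝ} {W : BI S.fc (0 : Fin 4) → ℤ}
    (hn : ∀ j, Nr S A B f K (pt S b j (toR W))) :
    Nr (jt S b lam) (a4 A) (b4 B b) (rel S b fun _ => f) (4 * (K * 2 ^ A.card)) (toR W) := by
  rw [rel_eq]
  have := nf_sum univ fun j (_ : j ∈ univ) => nf_zsmul (nr_pr h hc hl hb hd hf (hn j)) (sn j)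
  simp only [abs_sn, one_mul, sum_const, card_univ, Fintype.card_fin, nsmul_eq_mul,
    Nat.cast_ofNat] at this
  exact this

variable {κ ϱ : Type} [Fintype ϱ] {ty : κ → Finset V} {Φ : κ → (ι → ℝ) → ℝ}
  {E : (ι → ℝ) → Prop} {K : ℝ} {γ : ϱ → (ι → ℝ) → ℝ} {Ψ : κ → (ι → ℝ) → ℝ}
  {cf : κ → ϱ → (ι → ℝ) → ℝ}

theorem Chart.at (hch : Chart S B v ty Φ E K γ Ψ cf) {W : BI S.fc (0 : Fin 4) → ℤ} {j : Fin 4}
    (hW : clo (fce S B) E (pt S b j (toR W))) :
    (∀ ρ, |γ ρ (pt S b j (toR W)) - round (γ ρ (pt S b j (toR W)))| ≤ 1 / 100) ∧ ∀ r,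
      Nr S (ty r) B (fun w => Φ r w - Ψ r w - ∑ ρ, (round (γ ρ w) : ℝ) * cf r ρ w) K
        (pt S b j (toR W)) := by
  have h1 := hch.sub le_rfl (E' := clo (fce S B) E) fun _ h => h
  rw [pt, toR_pr] at hW ⊢
  exact ⟨h1.arc _ hW, h1.nr _ hW⟩

/-- a chart in the direction `b` gives relations along the parallelograms in that direction -/
theorem Chart.rel (h : S.Ok) (hc : S.Cen) (hl : 1 ≤ lam) (hb : b ∈ B)
    (hch : Chart S B b ty Φ E K γ Ψ cf) {r : κ} (hd : Disjoint (ty r) B)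
    (hΦ : Ty S (ty r) B (Φ r)) {W : BI S.fc (0 : Fin 4) → ℤ}
    (hW : ∀ j, clo (fce S B) E (pt S b j (toR W))) :
    Nr (jt S b lam) (a4 (ty r)) (b4 B b) (rel S b fun _ => Φ r) (4 * (K * 2 ^ (ty r).card))
      (toR W) := by
  refine nf_congr (nr_rel h hc hl hb hd (hch.fm hd hΦ).lin fun j => (hch.at (hW j)).2 r)
    fun Z hZ => ?_
  have e1 : ∀ ρ j, γ ρ (pt S b j Z) = γ ρ (pt S b j (toR W)) := fun ρ j =>
    (hch.ga ρ).on _ _ (pr_agree hb (bal_raw (dis_a4 hd hb) hZ))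
  have e2 : ∀ ρ j, cf r ρ (pt S b j Z) = cf r ρ (pt S b 0 Z) := fun ρ j =>
    (hch.cf r ρ).on _ _ fun i hi => pt_out j Z fun e => by
      rcases mem_union.1 (mem_fce.1 hi (S.mem_st.1 e)) with h1 | h1
      exacts [disjoint_left.1 hd h1 hb, notMem_erase _ _ h1]
  have e3 : ∀ ρ, ∑ j, (sn j : ℝ) * round (γ ρ (pt S b j (toR W))) = 0 := fun ρ => by
    have h1 := rel_aff ((hch.ga ρ).aff b (mem_singleton_self b)) (toR W)
    have h2 : |∑ j, (sn j : ℝ) * (γ ρ (pt S b j (toR W)) - round (γ ρ (pt S b j (toR W))))| < 1 := by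
      refine (abs_sum_le_sum_abs _ _).trans_lt (lt_of_le_of_lt (sum_le_sum
        (g := fun _ => (1 / 100 : ℝ)) fun j _ => by
        rw [abs_mul, abs_sn, one_mul]; exact (hch.at (hW j)).1 ρ) (by norm_num))
    simp only [mul_sub, sum_sub_distrib, h1, zero_sub, abs_neg] at h2
    have h3 : |∑ j, sn j * round (γ ρ (pt S b j (toR W)))| < 1 := by exact_mod_cast h2
    exact_mod_cast Int.abs_lt_one_iff.1 h3
  have e4 : ∑ j, (sn j : ℝ) * ∑ ρ, (round (γ ρ (pt S b j Z)) : ℝ) * cf r ρ (pt S b j Z) = 0 := by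
    simp only [e1, mul_sum]
    rw [sum_comm]
    refine sum_eq_zero fun ρ _ => ?_
    simp only [e2 ρ, ← mul_assoc, ← sum_mul, e3, zero_mul]
  simp only [rel_eq, mul_sub, sum_sub_distrib, e4, rel_aff (hch.pa r), sub_zero]

/-- a chart in another direction gives a chart of zero on the joint system -/
theorem Chart.jt (h : S.Ok) (hc : S.Cen) (hl : 1 ≤ lam) (hb : b ∈ B) (hv : v ≠ b)
    (hch : Chart S B v ty Φ E K γ Ψ cf) (hd : ∀ r, Disjoint (ty r) B)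
    (hΦ : ∀ r, Ty S (ty r) B (Φ r)) (hK : 0 ≤ K) {Ω : (BI S.fc (0 : Fin 4) → ℝ) → Prop} {K' : ℝ}
    (hΩ : ∀ W, Ω (toR W) → (∀ j, clo (fce S B) E (pt S b j (toR W))) ∧
      ∀ r, Nr (jt S b lam) (a4 (ty r)) (b4 B b) (P057IV.rel S b fun _ => Φ r) K' (toR W)) :
    Chart (jt S b lam) (b4 B b) (v, 0) (fun r => a4 (ty r)) (fun _ _ => 0) Ω
      (4 * (K * 2 ^ Fintype.card V) + K') (fun (p : Fin 4 × ϱ) W => γ p.2 (pt S b p.1 W))
      (fun r => P057IV.rel S b fun _ => Ψ r) fun r p W => sn p.1 * cf r p.2 (pt S b p.1 W) := by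
  refine ⟨fun p => ⟨on_pr hb (hch.ga p.2).on, fun u hu => ?_⟩,
    fun r => ty_rel hb (hd r) fun _ => hch.ps r, fun r => aff_rel hv fun _ => hch.pa r,
    fun r p => ?_, fun W hW p => (hch.at ((hΩ W hW).1 p.1)).1 p.2, fun W hW r => ?_⟩
  · rw [mem_singleton.1 hu]
    exact aff_prv hv ((hch.ga p.2).aff v (mem_singleton_self v))
  · rw [b4_erase hv]
    exact (ty_pr (mem_erase.2 ⟨hv.symm, hb⟩) ((hd r).mono_right (erase_subset _ _))
      (hch.cf r p.2)).smul _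
  · refine nf_congr (P057T1.NF.mono (nf_sub (nr_rel h hc hl hb (hd r) (hch.fm (hd r) (hΦ r)).lin
      fun j => (hch.at ((hΩ W hW).1 j)).2 r) ((hΩ W hW).2 r)) ?_) fun Z _ => ?_
    · have := pow_le_pow_right₀ (one_le_two (α := ℝ)) (card_le_univ (ty r))
      nlinarith
    · simp only [rel_eq, mul_sub, sum_sub_distrib, Fintype.sum_prod_type, mul_sum]
      simp only [mul_left_comm]
      ring

end

end Vale.Agent.P057IV
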