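import Vale.Agent.P057IV.Step

/-!
Algebra of nearly integral forms over frozen raw classes; pull back along morphisms.
-/

set_option linter.unusedSectionVars false

open Matrix Finset
open Vale.Agent.P267.H775 Vale.Agent.P057G Vale.Agent.P057MA
open Vale.Agent.P057T1 (NF Bal lab)

namespace Vale.Agent.P057IV

noncomputable section

variable {V : Type} [Fintype V] [DecidableEq V] {ι : Type} [Fintype ι] [DecidableEq ι]
  {S : MS V ι}

section nf

variable {q : Finset ι} {A : Finset V} {f g : (ι → ℝ) → ℝ} {K K' : ℝ} {y : ι → ℝ}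

theorem nf_congr (h : NF S q A f K y) (e : ∀ w, Bal S q (q ∩ S.sts A) y w → g w = f w) :
    NF S q A g K y := by
  obtain ⟨η, a, b, c⟩ := h
  exact ⟨η, a, b, fun z hz => by rw [e z hz]; exact c z hz⟩

theorem nf_small (h : ∀ w, Bal S q (q ∩ S.sts A) y w → |f w| ≤ K) : NF S q A f K y :=
  ⟨fun _ => 0, Fm.zero _ _ _, IntV.zero, fun z hz => by rw [sub_zero]; exact h z hz⟩

theorem nf_add (h : NF S q A f K y) (h' : NF S q A g K' y) :
    NF S q A (fun w => f w + g w) (K + K') y := by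
  obtain ⟨η, a, b, c⟩ := h
  obtain ⟨η', a', b', c'⟩ := h'
  refine ⟨fun w => η w + η' w, a.add a', b.add b', fun z hz => ?_⟩
  rw [show f z + g z - (η z + η' z) = f z - η z + (g z - η' z) by ring]
  exact (abs_add_le _ _).trans (add_le_add (c z hz) (c' z hz))

theorem nf_zsmul (h : NF S q A f K y) (n : ℤ) :
    NF S q A (fun w => n * f w) (|(n : ℝ)| * K) y := by
  obtain ⟨η, a, b, c⟩ := h
  refine ⟨fun w => n * η w, a.smul n, (IntV.const n).mul b, fun z hz => ?_⟩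
  rw [← mul_sub, abs_mul]
  exact mul_le_mul_of_nonneg_left (c z hz) (abs_nonneg _)

theorem nf_nsmul (h : NF S q A f K y) (n : ℕ) : NF S q A (fun w => n * f w) (n * K) y := by
  simpa using nf_zsmul h n

theorem nf_neg (h : NF S q A f K y) : NF S q A (fun w => -f w) K y := by
  simpa using nf_zsmul h (-1)

theorem nf_sub (h : NF S q A f K y) (h' : NF S q A g K' y) :
    NF S q A (fun w => f w - g w) (K + K') y := by
  simpa only [sub_eq_add_neg] using nf_add h (nf_neg h')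

theorem nf_sum {κ : Type*} (s : Finset κ) {f : κ → (ι → ℝ) → ℝ} {K : κ → ℝ}
    (h : ∀ k ∈ s, NF S q A (f k) (K k) y) :
    NF S q A (fun w => ∑ k ∈ s, f k w) (∑ k ∈ s, K k) y := by
  classical
  induction s using Finset.induction_on with
  | empty => exact nf_small fun w _ => by simp
  | insert a s ha ih =>
    simp only [sum_insert ha]
    exact nf_add (h a (mem_insert_self _ _)) (ih fun k hk => h k (mem_insert_of_mem hk))

theorem lin_fix {r s : Finset ι} (hr : r ⊆ s) (h : Lin r f) (y : ι → ℝ) :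
    Lin r fun w => f (mix s w y) := fun y' => by
  simp only [mix_mix_sub hr]
  exact h _

/-- integer forms that see the frozen coordinates are allowed at integer points -/
theorem nf_intro {η : (ι → ℝ) → ℝ} (h1 : Fm S q A η) (h2 : IntV η) {y : ι → ℤ}
    (h3 : ∀ w, Bal S q (q ∩ S.sts A) (toR y) w → |f w - η w| ≤ K) : NF S q A f K (toR y) := by
  refine ⟨fun w => η (mix (S.sts A) w (toR y)), ⟨fun z z' hz => h1.on _ _ fun i hi => ?_,
    fun v hv => lin_fix (MS.st_subset_sts hv) (h1.lin v hv) _⟩, fun z => ?_, fun w hw => ?_⟩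
  · by_cases e : i ∈ S.sts A
    · rw [mix_pos _ _ e, mix_pos _ _ e, hz i (mem_inter.2 ⟨hi, e⟩)]
    · rw [mix_neg _ _ e, mix_neg _ _ e]
  · beta_reduce; rw [← toR_mix]; exact h2 _
  · beta_reduce
    rw [h1.on (mix (S.sts A) w (toR y)) w fun i hi => ?_]
    · exact h3 w hw
    · by_cases e : i ∈ S.sts A
      · exact mix_pos _ _ e
      · rw [mix_neg _ _ e, hw.1 i (mem_sdiff.2 ⟨hi, fun e2 => e (mem_inter.1 e2).2⟩)]

/-- values on a larger ball -/
theorem bal_large (h : S.Ok) (hc : S.Cen) (hf : ∀ v ∈ A, Lin (S.st v) f)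
    (hb : ∀ w, Bal S q (q ∩ S.sts A) y w → |f w| ≤ K) {R : ℝ} (hR : 1 ≤ R) {w : ι → ℝ}
    (h1 : ∀ j ∈ q \ (q ∩ S.sts A), w j = y j) (h2 : ln2 S (q ∩ S.sts A) w ≤ R ^ 2) :
    |f w| ≤ K * R ^ A.card := by
  have h0 : 0 < R := by linarith
  have h3 := ln2_scl (q := q ∩ S.sts A) h hc A (t := R⁻¹) (s := R⁻¹) (fun i hi => by
    obtain ⟨v, a, b⟩ := MS.mem_sts.1 (mem_inter.1 hi).2
    have := pow_le_pow_of_le_one (inv_pos.2 h0).le (inv_le_one_of_one_le₀ hR)
      (Nonempty.card_pos ⟨v, mem_inter.2 ⟨b, a⟩⟩)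
    rw [pow_one] at this
    exact pow_le_pow_left₀ (by positivity) this 2) w
  have h4 := hb (scl S A R⁻¹ w) ⟨fun j hj => ?_, h3.trans (by
    rw [inv_pow, inv_mul_le_iff₀ (by positivity)]; linarith)⟩
  · rw [lin_scl hf, abs_mul, abs_of_pos (by positivity), inv_pow,
      inv_mul_le_iff₀ (by positivity)] at h4
    linarith
  · have : S.fc j ∩ A = ∅ := by
      refine eq_empty_of_forall_notMem fun v hv => (mem_sdiff.1 hj).2 (mem_inter.2
        ⟨(mem_sdiff.1 hj).1, MS.mem_sts.2 ⟨v, (mem_inter.1 hv).2, (mem_inter.1 hv).1⟩⟩)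
    simp only [scl, this, card_empty, pow_zero, one_mul, h1 j hj]

end nf

section nr

variable {A B : Finset V} {f g : (ι → ℝ) → ℝ} {K : ℝ} {y y' : ι → ℝ}

theorem raw_of {i : ι} (hi : i ∈ fce S (A ∪ B) \ (fce S (A ∪ B) ∩ S.sts A)) : i ∈ fce S B := by
  obtain ⟨h1, h2⟩ := mem_sdiff.1 hi
  refine mem_fce.2 fun v hv => (mem_union.1 (mem_fce.1 h1 hv)).resolve_left fun e => h2 ?_
  exact mem_inter.2 ⟨h1, MS.mem_sts.2 ⟨v, e, hv⟩⟩

theorem not_sts (hd : Disjoint A B) {i : ι} (hi : i ∈ fce S B) : i ∉ S.sts A := fun e => by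
  obtain ⟨v, a, b⟩ := MS.mem_sts.1 e
  exact disjoint_left.1 hd a (mem_fce.1 hi b)

theorem of_raw (hd : Disjoint A B) {i : ι} (hi : i ∈ fce S B) :
    i ∈ fce S (A ∪ B) \ (fce S (A ∪ B) ∩ S.sts A) :=
  mem_sdiff.2 ⟨fce_mono subset_union_right hi, fun e => not_sts hd hi (mem_inter.1 e).2⟩

theorem bal_raw (hd : Disjoint A B) {w : ι → ℝ}
    (h : Bal S (fce S (A ∪ B)) (fce S (A ∪ B) ∩ S.sts A) y w) : ∀ i ∈ fce S B, w i = y i :=
  fun i hi => h.1 i (of_raw hd hi)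

theorem nr_pt (h : Nr S A B f K y) (e : ∀ i ∈ fce S B, y i = y' i) : Nr S A B f K y' := by
  obtain ⟨η, a, b, c⟩ := h
  exact ⟨η, a, b, fun z hz => c z ⟨fun j hj => by rw [hz.1 j hj, e j (raw_of hj)], hz.2⟩⟩

theorem onP_nr : OnP (fce S B) (Nr S A B f K) := fun _ _ e h => nr_pt h e

/-- a function of the raw coordinates does not see the dual classes -/
theorem raw_indep (hd : Disjoint A B) (hg : On (fce S B) g) {v : V} (hv : v ∈ A) (x y : ι → ℝ) :
    g (mix (S.st v) x y) = g y :=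
  hg.indep (fun _ hi e => not_sts hd hi (MS.st_subset_sts hv e)) x y

theorem Ty.mul (hd : Disjoint A B) (hg : On (fce S B) g) (hf : Ty S A B f) :
    Ty S A B fun w => g w * f w :=
  ⟨(hg.mono (fce_mono subset_union_right)).map₂ hf.on (· * ·), fun v hv y => by
    simp only [raw_indep hd hg hv]
    exact P057T1.lin_mul _ (hf.lin v hv) y⟩

theorem Ty.up {B' : Finset V} (hB : B' ⊆ B) (hf : Ty S A B' f) : Ty S A B f :=
  hf.mono (fce_mono (union_subset_union_right hB)) Subset.rfl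

/-- more raw classes -/
theorem nr_up (h : S.Ok) {B' : Finset V} (hB : B' ⊆ B) (hd : Disjoint A B)
    (hf : Nr S A B' f K y) : Nr S A B f K y := by
  obtain ⟨η, a, b, c⟩ := hf
  have hs : fce S (A ∪ B') ∩ S.sts A ⊆ fce S (A ∪ B) ∩ S.sts A :=
    inter_subset_inter_right (fce_mono (union_subset_union_right hB))
  refine ⟨η, a.mono hs Subset.rfl, b, fun z hz => c z ⟨fun j hj => ?_, le_trans ?_ hz.2⟩⟩
  · exact bal_raw hd hz j (fce_mono hB (raw_of hj))
  · exact P057T1.ln2_mono h (((cls_fce S _).sat h).inter (h.sat_sts _)) hs z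

theorem insert_union_erase {i : V} (hi : i ∈ B) : insert i A ∪ B.erase i = A ∪ B := by
  rw [insert_union, ← union_insert, insert_erase hi]

/-- evaluation of the class `i` at a point of bounded length -/
theorem nr_eval (h : S.Ok) (hc : S.Cen) {i : V} (hi : i ∈ B) (hd : Disjoint A B)
    (hf : ∀ v ∈ insert i A, Lin (S.st v) f) {z : ι → ℤ} {R : ℝ} (hR : 1 ≤ R)
    (hz : 1 + ln2 S (fce S B) (toR z) ≤ R ^ 2) (hn : Nr S (insert i A) (B.erase i) f K (toR z)) :
    Nr S A B f (K * R ^ (insert i A).card) (toR z) := by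
  obtain ⟨η, a, b, c⟩ := hn
  rw [insert_union_erase hi] at a c
  refine nf_intro (a.mono inter_subset_left (subset_insert _ _)) b fun w hw => ?_
  refine bal_large h hc (f := fun w => f w - η w)
    (fun v hv => P057T1.lin_sub (hf v hv) (a.lin v hv)) c hR (fun j hj => ?_) ?_
  · refine hw.1 j (mem_sdiff.2 ⟨(mem_sdiff.1 hj).1, fun e => (mem_sdiff.1 hj).2 ?_⟩)
    rw [MS.sts_insert]
    exact mem_inter.2 ⟨(mem_inter.1 e).1, mem_union_right _ (mem_inter.1 e).2⟩
  · rw [P057T1.ln2_split h (h.sat_sts A)]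
    refine le_trans (add_le_add (le_trans (P057T1.ln2_mono h ?_ ?_ w) hw.2) ?_) hz
    · exact (((cls_fce S _).sat h).inter (h.sat_sts _)).inter (h.sat_sts _)
    · exact inter_subset_inter_right inter_subset_left
    · rw [← P057T1.ln2_congr (q := fce S B) (z := w) fun j hj => by
        rw [bal_raw hd hw j hj, P057T1.cls_p h (cls_fce S B) (bal_raw hd hw) hj]]
      refine P057T1.ln2_mono h ((((cls_fce S _).sat h).inter (h.sat_sts _)).sdiff h.pd.1
        (h.sat_sts _)) (fun j hj => raw_of (A := A) (mem_sdiff.2 ⟨(mem_inter.1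
          (mem_sdiff.1 hj).1).1, fun e => (mem_sdiff.1 hj).2 (mem_inter.1 e).2⟩)) w

end nr

section mph

variable {ι' ι'' : Type} [Fintype ι'] [DecidableEq ι'] [Fintype ι''] [DecidableEq ι'']
  {S' : MS V ι'} {S'' : MS V ι''} {B0 : Finset V} {K : ℝ} {φ : (ι' → ℝ) → ι → ℝ}

theorem mph_id (S : MS V ι) (B : Finset V) : Mph B 1 S S id :=
  ⟨fun z => ⟨z, rfl⟩, fun _ => On.coord (mem_fce.2 Subset.rfl), fun _ i _ => aff_coord _ i,
    fun _ _ _ hi => lin_coord (S.mem_st.2 hi), fun _ _ _ _ _ => (one_mul _).ge⟩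

theorem Mph.indep (h : Mph B0 K S S' φ) {v : V} {i : ι} (hi : i ∉ S.st v) (x y : ι' → ℝ) :
    φ (mix (S'.st v) x y) i = φ y i :=
  (h.loc i).indep (fun _ hj h2 => hi (S.mem_st.2 (mem_fce.1 hj (S'.mem_st.1 h2)))) x y

theorem Mph.agree (h : Mph B0 K S S' φ) {F : Finset V} {z z' : ι' → ℝ}
    (e : ∀ j ∈ fce S' F, z j = z' j) : ∀ i ∈ fce S F, φ z i = φ z' i := fun i hi =>
  h.loc i z z' fun j hj => e j (fce_mono (mem_fce.1 hi) hj)

theorem Mph.on (h : Mph B0 K S S' φ) {F : Finset V} {f : (ι → ℝ) → ℝ} (hf : On (fce S F) f) :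
    On (fce S' F) fun z => f (φ z) := fun _ _ hz => hf _ _ (h.agree hz)

theorem Mph.onP (h : Mph B0 K S S' φ) {F : Finset V} {E : (ι → ℝ) → Prop}
    (hf : OnP (fce S F) E) : OnP (fce S' F) fun z => E (φ z) := fun _ _ hz => hf _ _ (h.agree hz)

theorem Mph.aff' (h : Mph B0 K S S' φ) {v : V} {f : (ι → ℝ) → ℝ} (hf : Aff (S.st v) f) :
    Aff (S'.st v) fun z => f (φ z) :=
  aff_comp (on_univ f) hf (fun i _ hi => h.aff v i (S.mem_st.1 hi)) fun _ _ hi => h.indep hi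

theorem Mph.lin' (h : Mph B0 K S S' φ) {v : V} (hv : v ∉ B0) {f : (ι → ℝ) → ℝ}
    (hf : Lin (S.st v) f) : Lin (S'.st v) fun z => f (φ z) :=
  lin_comp (on_univ f) hf (fun i _ hi => h.lin v i hv (S.mem_st.1 hi)) fun _ _ hi => h.indep hi

theorem Mph.intV (h : Mph B0 K S S' φ) {f : (ι → ℝ) → ℝ} (hf : IntV f) :
    IntV fun z => f (φ z) := fun z => by
  obtain ⟨y, hy⟩ := h.int z
  simpa only [hy] using hf y

theorem Mph.ty (h : Mph B0 K S S' φ) {A B : Finset V} (hd : Disjoint A B0) {f : (ι → ℝ) → ℝ}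
    (hf : Ty S A B f) : Ty S' A B fun z => f (φ z) :=
  ⟨h.on hf.on, fun v hv => h.lin' (disjoint_left.1 hd hv) (hf.lin v hv)⟩

theorem Mph.mono (h : Mph B0 K S S' φ) (hS : S'.Ok) {B1 : Finset V} {K' : ℝ} (hB : B0 ⊆ B1)
    (hK : K ≤ K') : Mph B1 K' S S' φ :=
  ⟨h.int, h.loc, h.aff, fun v i hv => h.lin v i fun e => hv (hB e), fun A F a b z =>
    (h.nrm A F (hB.trans a) b z).trans (mul_le_mul_of_nonneg_right hK (ln2_nonneg hS z))⟩

theorem Mph.comp (h : Mph B0 K S S' φ) (hK : 0 ≤ K) {K' : ℝ} {ψ : (ι'' → ℝ) → ι' → ℝ}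
    (h' : Mph B0 K' S' S'' ψ) : Mph B0 (K * K') S S'' (φ ∘ ψ) := by
  refine ⟨fun z => ?_, fun i => h'.on (h.loc i), fun v i hv => h'.aff' (h.aff v i hv),
    fun v i a b => h'.lin' a (h.lin v i a b), fun A F a b z => ?_⟩
  · obtain ⟨y, hy⟩ := h'.int z
    simpa only [Function.comp, hy] using h.int y
  · rw [mul_assoc]
    exact (h.nrm A F a b _).trans (mul_le_mul_of_nonneg_left (h'.nrm A F a b z) hK)

theorem Mph.nr (h : Mph B0 K S S' φ) (hS : S.Ok) (hc : S.Cen) (hK : 1 ≤ K) {A B : Finset V}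
    (hB : B0 ⊆ B) (hd : Disjoint A B) {f : (ι → ℝ) → ℝ} (hf : ∀ v ∈ A, Lin (S.st v) f) {K0 : ℝ}
    {z : ι' → ℤ} (hn : Nr S A B f K0 (φ (toR z))) :
    Nr S' A B (fun w => f (φ w)) (K0 * K ^ A.card) (toR z) := by
  obtain ⟨η, a, b, c⟩ := hn
  refine nf_intro (h.ty (hd.mono_right hB) (a.mono inter_subset_left Subset.rfl)) (h.intV b)
    fun w hw => bal_large hS hc (f := fun w => f w - η w)
      (fun v hv => P057T1.lin_sub (hf v hv) (a.lin v hv)) c hK
      (fun j hj => h.agree (bal_raw hd hw) j (raw_of hj)) ((h.nrm A B hB hd w).trans ?_)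
  nlinarith [hw.2]

/-- killing a class outside `B0` commutes with the map -/
theorem Mph.kill (h : Mph B0 K S S' φ) {v : V} (hv : v ∉ B0) (z : ι' → ℝ) :
    φ (mix (S'.st v) 0 z) = mix (S.st v) 0 (φ z) := by
  funext i
  by_cases hi : i ∈ S.st v
  · rw [mix_pos _ _ hi]; exact (h.lin v i hv (S.mem_st.1 hi)).zero z
  · rw [mix_neg _ _ hi, h.indep hi]

theorem Mph.lab (h : Mph B0 K S S' φ) {v : V} (hv : v ∉ B0) (f : (ι → ℝ) → ℝ) :
    lab S' v (fun z => f (φ z)) = fun z => lab S v f (φ z) := by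
  funext z
  simp only [P057T1.lab, h.kill hv]

end mph

section chain

variable {B : Finset V} {Λ P R : ℝ} {X X' X'' : Sy V} {n : ℕ} {φ : (X'.ι → ℝ) → X.ι → ℝ}

theorem Chain.ok (h : Chain B Λ P R X n X' φ) (hΛ : 1 ≤ Λ) (h1 : X.S.Ok) (h2 : X.S.Cen) :
    X'.S.Ok ∧ X'.S.Cen ∧ Mph B (2 ^ n) X.S X'.S φ := by
  induction h with
  | refl => exact ⟨h1, h2, by simpa using mph_id X.S B⟩
  | step s o _ hs ih =>
    exact ⟨hs.ok_rf hΛ ih.1 o, hs.cen_rf hΛ ih.1 ih.2.1 o, by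
      rw [pow_succ]; exact ih.2.2.comp (by positivity) (mph_mp ih.1 ih.2.1 hs hΛ o)⟩

theorem Chain.card (h : Chain B Λ P R X n X' φ) :
    (Fintype.card X'.ι : ℝ) + R ≤ 2 ^ n * (Fintype.card X.ι + R) := by
  induction h with
  | refl => simp
  | step s o _ hs ih =>
    rw [pow_succ]
    exact (add_le_add_left (card_rf hs) R).trans (by linarith)

theorem Chain.mono (h : Chain B Λ P R X n X' φ) {B' : Finset V} {Λ' P' R' : ℝ} (hB : B ⊆ B')
    (hΛ : Λ' ≤ Λ) (hP : P ≤ P') (hR : R ≤ R') : Chain B' Λ' P' R' X n X' φ := by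
  induction h with
  | refl => exact Chain.refl
  | step s o _ hs ih => exact ih.step s o (hs.mono hB hΛ hP hR)

theorem Chain.trans (h : Chain B Λ P R X n X' φ) {m : ℕ} {ψ : (X''.ι → ℝ) → X'.ι → ℝ}
    (h' : Chain B Λ P R X' m X'' ψ) : Chain B Λ P R X (n + m) X'' (φ ∘ ψ) := by
  induction h' with
  | refl => exact h
  | step s o _ hs ih => exact ih.step s o hs

end chain

end

end Vale.Agent.P057IV
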