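import Vale.Agent.P057IV.Chart
import Vale.Agent.P057L.Crq

/-!
Refactoring a chart through integer relations of its labels.
-/

set_option linter.unusedSectionVars false

open Matrix Finset Real
open Vale.Agent.P267.H775 Vale.Agent.P057G Vale.Agent.P057MA
open Vale.Agent.P057T1 (NF lab Bal)

namespace Vale.Agent.P057IV

noncomputable section

/-- the projection along a dual family -/
def pj {ϱ τ : Type} [DecidableEq ϱ] [Fintype τ] (D : ℕ) (σ w : τ → ϱ → ℤ) (ρ' ρ : ϱ) : ℤ :=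
  (if ρ = ρ' then (D : ℤ) else 0) - ∑ l, σ l ρ' * w l ρ

theorem crq' {ϱ α : Type} [Fintype ϱ] [DecidableEq ϱ] [Fintype α] (f : α → ϱ → ℤ) {H : ℕ}
    (h1 : 1 ≤ H) (hf : ∀ a ρ, |f a ρ| ≤ H) :
    ∃ (t : ℕ) (sel : Fin t → α) (w : Fin t → ϱ → ℤ) (D : ℕ), t ≤ Fintype.card ϱ ∧ 0 < D ∧
      D ≤ (Fintype.card ϱ).factorial * H ^ Fintype.card ϱ ∧
      (∀ l ρ, |w l ρ| ≤ ((Fintype.card ϱ).factorial * H ^ Fintype.card ϱ : ℕ)) ∧
      ∀ a ρ', ∑ ρ, f a ρ * pj D (fun l => f (sel l)) w ρ' ρ = 0 := by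
  obtain ⟨t, sel, w, D0, a1, a2, a3, a4, -, a6⟩ := P057L.crq ϱ α f H h1 hf
  refine ⟨t, sel, fun l ρ => D0.sign * w l ρ, D0.natAbs, a1, Int.natAbs_pos.2 a2, ?_,
    fun l ρ => ?_, fun a ρ' => ?_⟩
  · rw [← Int.natCast_natAbs] at a3; exact_mod_cast a3
  · rw [abs_mul, Int.abs_sign_of_ne_zero a2, one_mul]; exact a4 l ρ
  · have e := congrFun (a6 a) ρ'
    simp only [Pi.smul_apply, smul_eq_mul, Finset.sum_apply, dotProduct, sum_mul] at e
    simp only [pj, mul_sub, sum_sub_distrib, mul_ite, mul_zero, sum_ite_eq', mem_univ, if_true,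
      mul_sum]
    rw [← Int.sign_mul_self_eq_natAbs, sum_comm, sub_eq_zero, mul_comm, mul_assoc, e, mul_sum]
    refine sum_congr rfl fun l _ => ?_
    rw [mul_sum]
    exact sum_congr rfl fun ρ _ => by ring

theorem pj_sum {ϱ τ : Type} [Fintype ϱ] [DecidableEq ϱ] [Fintype τ] (D : ℕ) (σ w : τ → ϱ → ℤ)
    (m c : ϱ → ℝ) : D * ∑ ρ, m ρ * c ρ = ∑ ρ', m ρ' * ∑ ρ, pj D σ w ρ' ρ * c ρ +
      ∑ l, (∑ ρ, σ l ρ * m ρ) * ∑ ρ, w l ρ * c ρ := by
  simp only [pj, Int.cast_sub, Int.cast_ite, Int.cast_sum, Int.cast_mul, Int.cast_natCast,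
    Int.cast_zero, sub_mul, sum_sub_distrib, ite_mul, zero_mul, sum_ite_eq', mem_univ, if_true,
    mul_sub, mul_sum, sum_mul]
  have : ∑ x, ∑ y, ∑ l, m x * ((σ l x : ℝ) * w l y * c y) =
      ∑ l, ∑ y, ∑ x, (σ l x : ℝ) * m x * (w l y * c y) := by
    rw [sum_comm]
    simp only [sum_comm (s := (univ : Finset ϱ)) (t := (univ : Finset τ))]
    exact sum_congr rfl fun l _ => sum_congr rfl fun y _ => sum_congr rfl fun x _ => by ring
  rw [this, sub_add_cancel]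
  exact sum_congr rfl fun x _ => by ring

variable {V : Type} [Fintype V] [DecidableEq V] {ι : Type} [Fintype ι] [DecidableEq ι]
  {S : MS V ι} {A B F : Finset V} {i : V}

/-- one integer form for all frozen points -/
theorem nr_unif (hd : Disjoint A B) (f : (ι → ℝ) → ℝ) (K : ℝ) :
    ∃ I, Ty S A B I ∧ IntV I ∧ ∀ y, Nr S A B f K y →
      ∀ w, Bal S (fce S (A ∪ B)) (fce S (A ∪ B) ∩ S.sts A) y w → |f w - I w| ≤ K := by
  have : ∀ y, ∃ η, Ty S A B η ∧ IntV η ∧ (Nr S A B f K y →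
      ∀ w, Bal S (fce S (A ∪ B)) (fce S (A ∪ B) ∩ S.sts A) y w → |f w - η w| ≤ K) := fun y => by
    by_cases h : Nr S A B f K y
    · obtain ⟨η, h1, h2, h3⟩ := h
      exact ⟨η, h1.mono inter_subset_left Subset.rfl, h2, fun _ => h3⟩
    · exact ⟨_, Fm.zero _ _ _, IntV.zero, fun h' => absurd h' h⟩
  choose η h1 h2 h3 using this
  refine ⟨fun w => η (msk (fce S B) w) w, ty_par (fun _ _ e => msk_congr e) Subset.rfl hd h1,
    fun z => h2 _ z, fun y hy w hw => h3 _ (nr_pt hy fun j hj => ?_) w ⟨fun j hj => ?_, hw.2⟩⟩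
  · rw [msk_agree _ _ j hj, bal_raw hd hw j hj]
  · rw [msk_agree _ _ j (raw_of hj)]

theorem aff_mul_out {r : Finset ι} {f g : (ι → ℝ) → ℝ} (hf : Aff r f)
    (hg : ∀ x y, g (mix r x y) = g y) : Aff r fun z => f z * g z := fun y => by
  simp only [hg, ← sub_mul]
  exact ⟨fun a b => by rw [(hf y).map_add, add_mul],
    fun a b => by rw [(hf y).map_smul, smul_mul_assoc]⟩

theorem aff_out {r : Finset ι} {g : (ι → ℝ) → ℝ} (hg : ∀ x y, g (mix r x y) = g y) : Aff r g :=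
  fun y => by simp only [hg, sub_self]; exact ⟨fun _ _ => (add_zero _).symm, fun _ _ => by simp⟩

theorem aff_add {r : Finset ι} {f g : (ι → ℝ) → ℝ} (hf : Aff r f) (hg : Aff r g) :
    Aff r fun z => f z + g z := by simpa using aff_comb hf hg 1 1

theorem aff_sum {r : Finset ι} {κ : Type*} [Fintype κ] {f : κ → (ι → ℝ) → ℝ}
    (hf : ∀ k, Aff r (f k)) : Aff r fun z => ∑ k, f k z := by
  simpa using Aff.sum univ (fun _ => 1) fun k _ => hf k

/-- forms over the other raw classes do not see the class `i` -/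
theorem Ty.out {f : (ι → ℝ) → ℝ} (hi : i ∈ B) (hd : Disjoint A B) (h : Ty S A (B.erase i) f)
    (x y : ι → ℝ) : f (mix (S.st i) x y) = f y :=
  raw_indep (A := {i}) (disjoint_singleton_left.2 fun e => (mem_union.1 e).elim
    (disjoint_right.1 hd hi) (notMem_erase _ _)) h.on (mem_singleton_self i) x y

/-- the ball over all raw classes lies in the ball over fewer raw classes -/
theorem bal_down (h : S.Ok) {B' : Finset V} (hB : B' ⊆ B) (hd : Disjoint A B) {y w : ι → ℝ}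
    (hw : Bal S (fce S (A ∪ B)) (fce S (A ∪ B) ∩ S.sts A) y w) :
    Bal S (fce S (A ∪ B')) (fce S (A ∪ B') ∩ S.sts A) y w :=
  ⟨fun j hj => bal_raw hd hw j (mem_fce.2 ((mem_fce.1 (raw_of hj)).trans hB)),
    (P057T1.ln2_mono h (((cls_fce S _).sat h).inter (h.sat_sts _)) (inter_subset_inter_right
      fun _ hj => mem_fce.2 ((mem_fce.1 hj).trans (union_subset_union_right hB))) w).trans hw.2⟩

variable {κ ϱ τ : Type} [Fintype ϱ] [DecidableEq ϱ] [Fintype τ] [DecidableEq τ]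
  {ty : κ → Finset V} {Φ : κ → (ι → ℝ) → ℝ}
  {E : (ι → ℝ) → Prop} {K K' : ℝ} {γ : ϱ → (ι → ℝ) → ℝ} {Ψ : κ → (ι → ℝ) → ℝ}
  {c : κ → ϱ → (ι → ℝ) → ℝ}

theorem round_eq {x : ℝ} {n : ℤ} (h : |x - n| < 1 / 2) : round x = n := by
  rw [abs_lt] at h
  rw [_root_.round_eq, Int.floor_eq_iff]
  constructor <;> linarith

/-- the new labels are the combinations `σ`, the rest of the coefficients is absorbed -/
theorem refac (h : S.Ok) (hi : i ∈ B) (hd : ∀ r, Disjoint (ty r) B) (hF : B ⊆ F)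
    (hE : OnP (fce S F) E) (hch : Chart S B i ty Φ E K γ Ψ c) (σ w : τ → ϱ → ℤ) (D q H : ℕ)
    (hψ : ∀ z, E (toR z) → ∀ r ρ', Nr S (ty r) (B.erase i)
      (fun u => q * ∑ ρ, pj D σ w ρ' ρ * c r ρ u) K' (toR z))
    (hσ : ∀ l, ∑ ρ, |(σ l ρ : ℝ)| ≤ H) :
    ∃ (a : τ → ℝ) (E' : (ι → ℝ) → Prop) (Ψ' : κ → (ι → ℝ) → ℝ) (c' : κ → τ → (ι → ℝ) → ℝ),
      (∀ z, E' z → E z) ∧ OnP (fce S F) E' ∧
      den S F E / (2 * H + 1) ^ Fintype.card τ ≤ den S F E' ∧
      Chart S B i ty (fun r u => (q * D : ℕ) * Φ r u) E' ((q * D : ℕ) * K + Fintype.card ϱ * K')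
        (fun l u => ∑ ρ, σ l ρ * γ ρ u - a l) Ψ' c' := by
  have hd' : ∀ r, Disjoint (ty r) (B.erase i) := fun r => (hd r).mono_right (erase_subset _ _)
  choose I i1 i2 i3 using fun r ρ' => nr_unif (S := S) (hd' r)
    (fun u => q * ∑ ρ, pj D σ w ρ' ρ * c r ρ u) K'
  have hp : ∀ r ρ', Ty S (ty r) (B.erase i)
      fun u => q * ∑ ρ, pj D σ w ρ' ρ * c r ρ u - I r ρ' u := fun r ρ' =>
    ((Fm.sum _ fun ρ _ => (hch.cf r ρ).smul _).smul _).sub (i1 r ρ')
  have : Nonempty (Icc (-(H : ℤ)) H) := ⟨⟨0, by simp⟩⟩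
  obtain ⟨j, hj⟩ := den_pigeon (F := F) (E := E) h
    (fun (j : τ → Icc (-(H : ℤ)) H) z => ∀ l,
      |∑ ρ, σ l ρ * (γ ρ z - round (γ ρ z)) - (j l : ℤ) / 100| ≤ 1 / 100) fun z hz => by
    have h1 : ∀ l, |100 * ∑ ρ, σ l ρ * (γ ρ (toR z) - round (γ ρ (toR z)))| ≤ H := fun l => by
      rw [abs_mul, abs_of_pos (by norm_num : (0 : ℝ) < 100)]
      have := (abs_sum_le_sum_abs _ _).trans (sum_le_sum (s := univ) fun ρ _ =>
        (abs_mul _ _).le.trans
          (mul_le_mul_of_nonneg_left (hch.arc z hz ρ) (abs_nonneg (σ l ρ : ℝ))))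
      rw [← sum_mul] at this
      linarith [hσ l]
    refine ⟨fun l => ⟨round (100 * ∑ ρ, σ l ρ * (γ ρ (toR z) - round (γ ρ (toR z)))), ?_⟩,
      fun l => ?_⟩
    · have h2 := abs_le.1 (h1 l)
      have h3 := abs_le.1 (abs_sub_round (100 * ∑ ρ, σ l ρ * (γ ρ (toR z) - round (γ ρ (toR z)))))
      rw [mem_Icc]
      constructor
      · exact Int.le_of_lt_add_one (Int.cast_lt (R := ℝ).1 (by push_cast; linarith))
      · exact Int.le_of_lt_add_one (Int.cast_lt (R := ℝ).1 (by push_cast; linarith))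
    · have h3 := abs_le.1 (abs_sub_round (100 * ∑ ρ, σ l ρ * (γ ρ (toR z) - round (γ ρ (toR z)))))
      rw [abs_le]
      constructor <;> linarith
  have key : ∀ u l, |∑ ρ, σ l ρ * (γ ρ u - round (γ ρ u)) - (j l : ℤ) / 100| ≤ 1 / 100 →
      (round (∑ ρ, σ l ρ * γ ρ u - (j l : ℤ) / 100) : ℝ) = ∑ ρ, (σ l ρ : ℝ) * round (γ ρ u) := by
    intro u l hu
    rw [round_eq (n := ∑ ρ, σ l ρ * round (γ ρ u)) (lt_of_le_of_lt (le_of_eq ?_)
      (hu.trans_lt (by norm_num)))]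
    · push_cast; rfl
    · push_cast; simp only [mul_sub, sum_sub_distrib]; ring_nf
  refine ⟨fun l => (j l : ℤ) / 100, _, fun r u => (q * D : ℕ) * Ψ r u +
    ∑ ρ', γ ρ' u * (q * ∑ ρ, pj D σ w ρ' ρ * c r ρ u - I r ρ' u),
    fun r l u => q * ∑ ρ, w l ρ * c r ρ u, fun z hz => hz.1, hE.and (onP_all fun l => ?_),
    le_trans (le_of_eq ?_) hj, fun l => ?_, fun r => ?_, fun r => ?_, fun r l => ?_,
    fun z hz l => ?_, fun z hz r => ?_⟩
  · exact (onP_on (On.sum univ fun ρ _ => on_map (hch.ga ρ).on fun x => σ l ρ * (x - round x))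
      fun x => |x - (j l : ℤ) / 100| ≤ 1 / 100).mono fun k hk => mem_fce.2 ((mem_fce.1 hk).trans hF)
  · congr 1
    simp only [Fintype.card_fun, Fintype.card_coe, Int.card_Icc, Nat.cast_pow]
    congr 1
    rw [show (H : ℤ) + 1 - -H = ((2 * H + 1 : ℕ) : ℤ) by push_cast; ring, Int.toNat_natCast]
    push_cast; rfl
  · exact (Af.sum _ fun ρ _ => (hch.ga ρ).smul _).sub (Af.const _ _ _ _)
  · exact ((hch.ps r).smul _).add (Fm.sum _ fun ρ' _ =>
      Ty.mul (hd r) (hch.ga ρ').on (Ty.up (erase_subset _ _) (hp r ρ')))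
  · exact aff_add (by simpa using aff_comb (hch.pa r) (hch.pa r) (q * D : ℕ) 0) (aff_sum fun ρ' =>
      aff_mul_out ((hch.ga ρ').aff i (mem_singleton_self i)) ((hp r ρ').out hi (hd r)))
  · exact (Fm.sum _ fun ρ _ => (hch.cf r ρ).smul _).smul _
  · rw [key _ l (hz.2 l)]
    refine le_trans (le_of_eq ?_) (hz.2 l)
    simp only [mul_sub, sum_sub_distrib]; ring_nf
  · have h1 : Nr S (ty r) B (fun u => ∑ ρ', (round (γ ρ' u) : ℝ) * I r ρ' u) 0 (toR z) :=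
      nf_intro (Fm.sum univ fun ρ' _ => Ty.mul (hd r) (on_map (hch.ga ρ').on fun x => round x)
        (Ty.up (erase_subset _ _) (i1 r ρ')))
        (IntV.sum _ fun ρ' _ => IntV.mul (fun y => ⟨_, rfl⟩) (i2 r ρ')) fun u _ => by simp
    have h2 : Nr S (ty r) B (fun u => ∑ ρ', (γ ρ' u - round (γ ρ' u)) *
        (q * ∑ ρ, pj D σ w ρ' ρ * c r ρ u - I r ρ' u)) (Fintype.card ϱ * K') (toR z) :=
      nf_small fun u hu => by
        refine (abs_sum_le_sum_abs _ _).trans ((sum_le_card_nsmul _ _ K' fun ρ' _ => ?_).trans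
          (by simp))
        have h3 := i3 r ρ' _ (hψ z hz.1 r ρ') u (bal_down h (erase_subset _ _) (hd r) hu)
        have h4 := hch.arc z hz.1 ρ'
        rw [← (hch.ga ρ').on _ _ (bal_raw (hd r) hu)] at h4
        rw [abs_mul]
        nlinarith [abs_nonneg (q * ∑ ρ, pj D σ w ρ' ρ * c r ρ u - I r ρ' u)]
    refine nf_congr (P057T1.NF.mono (nf_sub (nf_add (nf_nsmul (hch.nr z hz.1 r) (q * D)) h1) h2)
      (le_of_eq (by ring))) fun u hu => ?_
    have h5 : ∀ l, (round (∑ ρ, σ l ρ * γ ρ u - (j l : ℤ) / 100) : ℝ) =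
        ∑ ρ, (σ l ρ : ℝ) * round (γ ρ u) := fun l => key u l (by
      simpa only [fun ρ => (hch.ga ρ).on _ _ (bal_raw (hd r) hu)] using hz.2 l)
    have h6 := pj_sum D σ w (fun ρ => round (γ ρ u)) fun ρ => c r ρ u
    simp only [h5, mul_left_comm _ (q : ℝ), ← mul_sum, sub_mul, mul_sub, sum_sub_distrib]
    push_cast
    linear_combination (q : ℝ) * h6

end

end Vale.Agent.P057IV
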