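import Vale.Agent.P057IV.Jt
import Vale.Agent.P057IV.Tr
import Vale.Agent.P057LU.Unf

/-!
One more chart after a narrowing step; the supply of parallelograms.
-/

set_option linter.unusedSectionVars false

open Matrix Finset Real
open Vale.Agent.P267.H775 Vale.Agent.P057G Vale.Agent.P057MA
open Vale.Agent.P057T1 (NF lab pr a4 cq ind)
open Vale.Agent.P057QP (ok_jt cen_jt)

namespace Vale.Agent.P057IV

noncomputable section

variable {V : Type} [Fintype V] [DecidableEq V]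

theorem fce_mono {ι : Type} [Fintype ι] [DecidableEq ι] {S : MS V ι} {A B : Finset V}
    (h : A ⊆ B) : fce S A ⊆ fce S B := fun _ hj => mem_fce.2 ((mem_fce.1 hj).trans h)

theorem msk_eq_self {ι : Type} [DecidableEq ι] {q : Finset ι} {u : ι → ℝ}
    (h : ∀ j ∉ q, u j = 0) : msk q u = u := funext fun j => by
  by_cases hj : j ∈ q
  exacts [msk_pos _ hj, (msk_neg _ hj).trans (h j hj).symm]

theorem two_pw {Y : ℝ} (h : 2 ≤ Y) {a b : ℕ} (hab : a + 1 ≤ b) : 2 * Y ^ a ≤ Y ^ b := by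
  refine le_trans ?_ (pw_mono h hab)
  rw [pow_succ]; nlinarith [pow_pos (by linarith : 0 < Y) a]

theorem exp_three : (8 : ℝ) ≤ exp 3 := by
  have h := pow_le_pow_left₀ zero_le_two (show (2 : ℝ) ≤ exp 1 by linarith [add_one_le_exp 1]) 3
  rw [← exp_nat_mul] at h
  norm_num at h; exact h

theorem exp_div {x y : ℝ} (h : y + 3 ≤ x) : exp (-x) ≤ exp (-y) / 8 := by
  have h1 := exp_le_exp.2 (show -x + 3 ≤ -y by linarith)
  rw [exp_add] at h1
  nlinarith [exp_three, exp_pos (-x)]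

/-- relations along many parallelograms in the direction `b` give a chart after a step -/
theorem seq1 (hP : PIECE V) (hA : PAS V) (hU : UNF V) (hK : PICK V) (hN : NWM V) :
    ∃ C : ℕ, 1 ≤ C ∧ ∀ (ι : Type) [Fintype ι] [DecidableEq ι] (S : MS V ι) (B L : Finset V)
    (b : V) (κ : Type) [Fintype κ] (ty : κ → Finset V) (ψ : Fin 4 → κ → (ι → ℝ) → ℝ)
    (E U : (ι → ℝ) → Prop) (Bad : Stp V ι → (ι → ℤ) → Prop) (Y Y' Z : ℝ),
    S.Ok → S.Cen → 2 ≤ Y → Y ^ C ≤ Y' → Y' ^ C ≤ Z → b ∈ B → Disjoint B L →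
    (∀ r, (ty r).Nonempty ∧ Disjoint (ty r) B) → (∀ j r, Ty S (ty r) B (ψ j r)) →
    OnP (fce S (B ∪ L)) E → OnP (fce S B) U → (Fintype.card ι : ℝ) ≤ exp Y →
    (Fintype.card κ : ℝ) ≤ Y → Mg S (Z ^ C) →
    (∀ y, U (toR y) → exp (-Y') ≤ pd S B L E (toR y)) →
    exp (-Y) ≤ den (jt S b (exp Y')) (b4 B b) (fun W => U (pr S b 0 2 W) ∧
      ∀ r, Nr (jt S b (exp Y')) (a4 (ty r)) (b4 B b) (rel S b fun j => ψ j r) (exp Y) W) →
    (∀ s, Good S s B (exp Y') (exp Z) 0 → Mg (xt S s) Z →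
      ∑' o, S.wt (fce S {s.b}) o * ind (Bad s o) ≤ exp (-Y' ^ C) * vl S.G (fce S {s.b})) →
    ∃ (s : Stp V ι) (o : ι → ℤ) (E' : _ → Prop), Good S s B (exp Y') (exp Z) 0 ∧ ¬ Bad s o ∧
      Mg (rf S s o) Z ∧
      (∀ z, E' (toR z) → E (mp S s o (toR z)) ∧ U (mp S s o (toR z))) ∧
      OnP (fce (rf S s o) (B ∪ L)) E' ∧ exp (-Y' ^ C) ≤ den (rf S s o) (B ∪ L) E' ∧
      CH (rf S s o) B b ty (fun r w => ψ 0 r (mp S s o w)) E' (Y' ^ C) := by
  obtain ⟨c1, hP⟩ := hP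
  obtain ⟨c2, hA⟩ := hA
  obtain ⟨c3, hK⟩ := hK
  set a := (c1 + 1) * (c2 + 1) with ha
  have a1 : c1 + 1 ≤ a := Nat.le_mul_of_pos_right _ c2.succ_pos
  refine ⟨a + c2 + c3 + Fintype.card V + 4, by omega, ?_⟩
  intro ι _ _ S B L b κ _ ty ψ E U Bad Y Y' Z h hc h2 hY hZ hb hd hty hψ hE hUo hι hκ hM hpd hsh hB
  have y1 : Y ≤ Y' := (le_pw h2 (by omega)).trans hY
  have y2 := h2.trans y1
  have z1 : Y' ≤ Z := (le_pw y2 (by omega)).trans hZ
  have z2 := y2.trans z1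
  have t1 : 2 * Y' ^ a ≤ Z := (two_pw y2 (by omega)).trans hZ
  have t0 : Y' ≤ Y' ^ a := le_pw y2 (by omega)
  have t2 : Y' ≤ Y' ^ (c1 + 1) := le_pw y2 (by omega)
  have t3 : 2 * Y' ^ (c1 + 1) + 6 ≤ Y' ^ (a + c2 + c3 + Fintype.card V + 4) := by
    have := two_pw y2 (le_refl (c1 + 1 + 1))
    have := two_pw y2 (le_refl (c1 + 2 + 1))
    have := two_pw y2 (show c1 + 3 + 1 ≤ a + c2 + c3 + Fintype.card V + 4 by omega)
    linarith
  have l1 : 1 ≤ exp (2 * Y' ^ a) := one_le_exp (by linarith)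
  have l2 : √(exp (2 * Y' ^ a)) = exp (Y' ^ a) := by
    rw [two_mul, exp_add, sqrt_mul_self (exp_pos _).le]
  obtain ⟨P, p1, p2, p3⟩ := hP ι S B b κ ty ψ U Y Y' Z (exp (2 * Y' ^ a)) h hc h2
    ((pw_mono h2 (by omega)).trans hY) z1
    (exp_le_exp.2 (by linarith [pw_mono y2 (show c1 ≤ a by omega)])) (exp_le_exp.2 t1) hb hty hψ
    hUo hι hκ (hM.mono h hc (pw_mono z2 (by omega))) hsh
  have p4 : ∀ a (y : ι → ℤ), P a (msk (fce S B) (toR y)) → U (toR y) := fun a y hy => by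
    rw [msk_toR] at hy
    exact hUo _ _ (by rw [← msk_toR]; exact msk_agree _ _) (p1 a _ hy)
  have q2 : ∀ {c : Fin 4}, c = 0 ∨ c = 2 → ∀ j, cq S b c j ∈
      fce (jt S b (exp (2 * Y' ^ a))) (b2 B b) ↔ j ∈ fce S B := fun hc => P057LU.cq_q2 hb hc
  have k1 := hA ι S B L b E
    (fun W => P (msk (fce S B) (W ∘ cq S b 0)) (msk (fce S B) (pr S b 0 2 W))) (Y' ^ (c1 + 1)) Z
    (exp (2 * Y' ^ a)) h hc (y2.trans t2) (by linarith)
    (exp_le_exp.2 (by rw [← pow_mul]; linarith [pw_mono y2 (show (c1 + 1) * c2 ≤ a from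
      Nat.mul_le_mul_left _ c2.le_succ)])) (exp_le_exp.2 t1) hb hd hE
    (fun W W' e hW => by
      have e0 := fun j hj => e _ ((q2 (Or.inl rfl) j).2 hj)
      have e2 := fun j hj => e _ ((q2 (Or.inr rfl) j).2 hj)
      beta_reduce
      rwa [← msk_congr (u := W ∘ cq S b 0) (w := W' ∘ cq S b 0) e0,
        ← msk_congr (u := pr S b 0 2 W) (w := pr S b 0 2 W') fun j hj => by
        simp only [pr, mix, Function.comp, e0 j hj, e2 j hj]])
    (hι.trans (exp_le_exp.2 (y1.trans t2))) (hM.mono h hc (pw_mono z2 (by omega)))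
    (fun W hW => by
      rw [toR_pr] at hW ⊢
      exact (exp_le_exp.2 (neg_le_neg t2)).trans (hpd _ (p4 _ _ hW)))
    ((exp_le_exp.2 (neg_le_neg (pw_mono y2 c1.le_succ))).trans (p3.trans
      (den_supp (ok_jt h b l1) fun W e hW => by
        have e0 := fun j hj => e _ (mt (q2 (Or.inl rfl) j).1 hj)
        have e2 := fun j hj => e _ (mt (q2 (Or.inr rfl) j).1 hj)
        rwa [msk_eq_self fun j hj => by simp [e0 j hj], msk_eq_self fun j hj => by
          simp [pr, mix, e0 j hj, e2 j hj]])))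
  have k2 := hU ι S (B ∪ L) b _ (fun a y => P (msk (fce S B) a) (msk (fce S B) y) ∧ E y) h hc
    (mem_union_left _ hb) l1
  rw [l2] at k2
  have g : Good S (nw ι b (exp (Y' ^ a))) B (exp Y') (exp Z) 0 :=
    good_nw hb (exp_le_exp.2 t0) (exp_le_exp.2 (by linarith)) (one_le_exp (by linarith)) le_rfl
  have y0 : 1 ≤ exp Y' := one_le_exp (by linarith)
  have z3 : Z ≤ Z ^ (c3 + 1) := le_pw z2 (by omega)
  have m1 := hN ι S b (exp (Y' ^ a)) (Z ^ (c3 + 1)) h hc (z2.trans z3) (one_le_exp (by linarith))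
    (exp_le_exp.2 (by linarith)) (hM.mono h hc (two_pw z2 (by omega)))
  obtain ⟨o, o1, o2, o3⟩ := hK ι S _ B (B ∪ L) _ _ _ _ (Bad _) (exp (-(2 * Y' ^ (c1 + 1) + 3))) Z h
    hc g y0 subset_union_left z2 (exp_le_exp.2 (by linarith))
    (m1.mono (g.ok_xt y0 h) (g.cen_xt y0 h hc) (pw_mono z2 c3.le_succ))
    (le_trans (mul_le_mul_of_nonneg_right k1 (vl_pos h.pd _).le) k2)
    ((hB _ g (m1.mono (g.ok_xt y0 h) (g.cen_xt y0 h hc) z3)).trans
      (mul_le_mul_of_nonneg_right (exp_div (by linarith)) (vl_pos h.pd _).le))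
  have mφ := mph_mp h hc g y0 o
  refine ⟨_, o, _, g, o1, o2, fun z hz => ⟨hz.2, ?_⟩, OnP.and (fun w w' e hw => ?_) (mφ.onP hE),
    ((exp_div (y := 2 * Y' ^ (c1 + 1) + 3) (by linarith)).trans
      (by linarith [exp_pos (-(2 * Y' ^ (c1 + 1) + 3))])).trans o3,
    (ch_glue h hc g y0 o (fun r => (hty r).2) (hψ 0) (by positivity) p2).mono ?_ fun z hz => hz.1⟩
  · obtain ⟨y, hy⟩ := mφ.int z
    have := hz.1
    rw [hy] at this ⊢
    exact p4 _ _ this
  · rwa [← msk_congr (u := bv S _ o w) fun j hj => on_bv j _ _ fun k hk => e k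
      (fce_mono (((erase_subset _ _).trans (mem_fce.1 hj)).trans subset_union_left) hk),
      ← msk_congr (mφ.agree fun k hk => e k (fce_mono subset_union_left hk))]
  · have := nat_le_pw y2 (Fintype.card V)
    have := pw_mono y2 (Nat.le_add_left (Fintype.card V) c1)
    have := pw_mono y2 (Nat.le_add_right c1 (Fintype.card V))
    have := two_pw y2 (show c1 + Fintype.card V + 1 ≤ a + c2 + c3 + Fintype.card V + 4 by omega)
    linarith

theorem union_erase {B L : Finset V} {i : V} (hi : i ∈ B) : B.erase i ∪ insert i L = B ∪ L := by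
  rw [union_insert, ← insert_union, insert_erase hi]

theorem dis_erase {B L : Finset V} {i : V} (hd : Disjoint B L) :
    Disjoint (B.erase i) (insert i L) :=
  disjoint_insert_right.2 ⟨notMem_erase _ _, hd.mono_left (erase_subset _ _)⟩

theorem two_pow_le (n : ℕ) : (2 : ℝ) ^ n ≤ exp n := by
  have h := pow_le_pow_left₀ zero_le_two (show (2 : ℝ) ≤ exp 1 by linarith [add_one_le_exp 1]) n
  rwa [← exp_nat_mul, mul_one] at h

/-- many parallelograms in a charted direction, with passengers over the first point -/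
theorem sup (hQ : QUAD V) : ∃ C : ℕ, 1 ≤ C ∧ ∀ (ι : Type) [Fintype ι] [DecidableEq ι]
    (S : MS V ι) (B L : Finset V) (i b : V) (κ : Type) (ty : κ → Finset V)
    (Φ : κ → (ι → ℝ) → ℝ) (E : (ι → ℝ) → Prop) (Y Y' Z : ℝ), S.Ok → S.Cen → 2 ≤ Y → Y ≤ Y' →
    Y' ≤ Z → Y ^ C ≤ Z → i ∈ B → b ∈ B → Disjoint B L → (∀ r, Disjoint (ty r) B) →
    (∀ r, Ty S (ty r) B (Φ r)) → OnP (fce S (B ∪ L)) E → (Fintype.card ι : ℝ) ≤ exp Y →
    Mg S (Z ^ C) → exp (-Y) ≤ den S (B ∪ L) E → CH S B b ty Φ E Y →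
    ∃ Ω : _ → Prop, OnP (fce (jt S b (exp Y')) (b4 B b)) Ω ∧
      exp (-Y ^ C) ≤ den (jt S b (exp Y')) (b4 B b) Ω ∧ ∀ W, Ω (toR W) →
        exp (-Y ^ C) ≤ pd S (B.erase i) (insert i L) E (pr S b 0 2 (toR W)) ∧
        (∀ j, clo (fce S B) E (pt S b j (toR W))) ∧
        ∀ r, Nr (jt S b (exp Y')) (a4 (ty r)) (b4 B b) (rel S b fun _ => Φ r) (exp (Y ^ C))
          (toR W) := by
  obtain ⟨c, hQ⟩ := hQ
  refine ⟨3 * c + Fintype.card V + 4, by omega, ?_⟩
  intro ι _ _ S B L i b κ ty Φ E Y Y' Z h hc h2 hY hZ hZ' hi hb hd hty hΦ hE hι hM hdn hch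
  obtain ⟨ϱ, _, γ, Ψ, cf, -, hch⟩ := hch
  have z2 : 2 ≤ Z := h2.trans (hY.trans hZ)
  have y3 : Y + 3 ≤ Y ^ 3 := by
    have := two_pw h2 (show 1 + 1 ≤ 2 from le_rfl)
    have := two_pw h2 (show 2 + 1 ≤ 3 from le_rfl)
    rw [pow_one] at *
    linarith
  have y4 : Y ^ 3 ≤ Z := (pw_mono h2 (by omega)).trans hZ'
  have m1 : Mg S (Y + 3) := hM.mono h hc ((y3.trans y4).trans (le_pw z2 (by omega)))
  have e1 := exp_div (le_refl (Y + 3))
  have e2 : exp (-Y) ≤ 1 := exp_le_one_iff.2 (by linarith)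
  have k1 := den_pop (E := E) h (dis_erase (i := i) hd) (exp_pos (-(Y + 3))).le
    ((m1.mass h hc (by linarith) (cls_fce S _)).trans (by linarith))
  rw [union_erase hi] at k1
  have k2 := den_proj (E := fun z => E z ∧ exp (-(Y + 3)) ≤ pd S (B.erase i) (insert i L) E z) h hc
    hd (m1.mass h hc (by linarith) (cls_fce S _)) (onP_clo _ _) fun z hz =>
      clo_self (E := fun z => E z ∧ exp (-(Y + 3)) ≤ pd S (B.erase i) (insert i L) E z) hz
  have k3 := hQ ι S B b _ (Y + 3) Z (exp Y') h hc (by linarith) (y3.trans y4) hb (onP_clo _ _)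
    (hι.trans (exp_le_exp.2 hY)) (one_le_exp (by linarith)) (exp_le_exp.2 hZ)
    (hM.mono h hc (pw_mono z2 (by omega))) (le_trans (by linarith [exp_pos (-Y)]) k2)
  refine ⟨_, (onP_pr hb (onP_clo _ _)).and ((onP_pr hb (onP_clo _ _)).and
    ((onP_pr hb (onP_clo _ _)).and (onP_pr hb (onP_clo _ _)))), le_trans (exp_le_exp.2
      (neg_le_neg ((pow_le_pow_left₀ (by linarith) y3 c).trans ?_))) k3, fun W hW => ?_⟩
  · rw [← pow_mul]; exact pw_mono h2 (by omega)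
  have k4 : ∀ j, clo (fce S B) E (pt S b j (toR W)) := fun j => by
    have : ∀ {y}, clo (fce S B) (fun z => E z ∧ exp (-(Y + 3)) ≤
        pd S (B.erase i) (insert i L) E z) y → clo (fce S B) E y :=
      fun ⟨z, h1, h2⟩ => ⟨z, h1, h2.1⟩
    fin_cases j
    exacts [this hW.1, this hW.2.1, this hW.2.2.1, this hW.2.2.2]
  refine ⟨?_, k4, fun r => P057T1.NF.mono
    (hch.rel h hc (one_le_exp (by linarith)) hb (hty r) (hΦ r) k4) ?_⟩
  · obtain ⟨z, h1, h3⟩ := hW.1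
    rw [pd_congr h (dis_erase hd) (by rwa [union_erase hi])
      fun j hj => h1 j (fce_mono (erase_subset _ _) hj)]
    exact (exp_le_exp.2 (neg_le_neg (y3.trans (pw_mono h2 (by omega))))).trans h3.2
  · have e3 := (pow_le_pow_right₀ one_le_two (card_le_univ (ty r))).trans
      (two_pow_le (Fintype.card V))
    have e4 : Y + 3 + Fintype.card V ≤ Y ^ (3 * c + Fintype.card V + 4) := by
      have := nat_le_pw h2 (Fintype.card V)
      have := pw_mono h2 (Nat.le_add_left (Fintype.card V) 3)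
      have := pw_mono h2 (Nat.le_add_right 3 (Fintype.card V))
      have := two_pw h2 (show 3 + Fintype.card V + 1 ≤ 3 * c + Fintype.card V + 4 by omega)
      linarith
    refine le_trans ?_ (exp_le_exp.2 e4)
    rw [exp_add, exp_add]
    have := mul_le_mul_of_nonneg_left e3 (exp_pos Y).le
    nlinarith [exp_three, mul_pos (exp_pos Y) (exp_pos (Fintype.card V : ℝ))]

end

end Vale.Agent.P057IV
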