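import Vale.Agent.P057IV.St

/-!
The steps that chart one more direction: slopes of the family, slopes of the labels.
-/

set_option linter.unusedSectionVars false

open Matrix Finset Real
open Vale.Agent.P267.H775 Vale.Agent.P057G Vale.Agent.P057MA
open Vale.Agent.P057T1 (NF lab pr a4)
open Vale.Agent.P057QP (ok_jt cen_jt)

namespace Vale.Agent.P057IV

noncomputable section

variable {V : Type} [Fintype V] [DecidableEq V]

section jt

variable {ι : Type} [Fintype ι] [DecidableEq ι] {S : MS V ι} {B : Finset V} {i b : V} {lam : ℝ}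

theorem card_bi {Y : ℝ} (h : (Fintype.card ι : ℝ) ≤ exp Y) :
    (Fintype.card (BI S.fc (0 : Fin 4)) : ℝ) ≤ exp (Y + 2 * Fintype.card V) := by
  have h1 : Fintype.card (BI S.fc (0 : Fin 4)) ≤ Fintype.card ι * 2 ^ (2 * Fintype.card V) :=
    (Fintype.card_subtype_le _).trans (by simp [pow_mul])
  have h2 := two_pow_le (2 * Fintype.card V)
  rw [exp_add]
  push_cast at h2
  exact le_trans (by exact_mod_cast h1) (mul_le_mul h h2 (by positivity) (exp_pos _).le)

theorem mem_b4i (hi : i ∈ B) (hb : b ∈ B.erase i) : (i, (0 : Fin 4)) ∈ b4 B b :=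
  mem_b4.2 (Or.inl ⟨(ne_of_mem_erase hb).symm, hi, rfl⟩)

theorem jt_proj (h : S.Ok) (hc : S.Cen) (hl : 1 ≤ lam) (hi : i ∈ B) (hb : b ∈ B.erase i) {y : ℝ}
    (hy : 0 ≤ y) (hM : Mg (jt S b lam) (y + 3)) {Ω P : (BI S.fc (0 : Fin 4) → ℝ) → Prop}
    (hP : OnP (fce (jt S b lam) (b4 (B.erase i) b)) P) (e : ∀ W, Ω (toR W) → P (toR W))
    (hd : exp (-y) ≤ den (jt S b lam) (b4 B b) Ω) :
    exp (-(y + 3)) ≤ den (jt S b lam) (b4 (B.erase i) b) P := by
  rw [← b4_erase (ne_of_mem_erase hb).symm] at hP ⊢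
  have := den_proj (ok_jt h b hl) (cen_jt hc b lam) (disjoint_singleton_right.2 (notMem_erase _ _))
    (hM.mass (ok_jt h b hl) (cen_jt hc b lam) (by linarith) (cls_fce _ _)) hP e
  rw [union_comm, ← insert_eq, insert_erase (mem_b4i hi hb)] at this
  linarith [exp_div (le_refl (y + 3)), exp_pos (-y)]

theorem aff_smul {r : Finset ι} {f : (ι → ℝ) → ℝ} (h : Aff r f) (a : ℝ) :
    Aff r fun z => a * f z := by simpa using aff_comb h h a 0

end jt

theorem add_pw {Y : ℝ} (h : 2 ≤ Y) {a b c : ℕ} (ha : a + 1 ≤ c) (hb : b + 1 ≤ c) :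
    Y ^ a + Y ^ b ≤ Y ^ c := by
  linarith [two_pw h ha, two_pw h hb]

theorem pl_pw (a : ℕ) : Pl fun Y => 3 * Y ^ a :=
  ⟨a + 2, by omega, fun Y h => by
    linarith [two_pw h (le_refl (a + 1)), two_pw h (le_refl (a + 1 + 1)),
      pow_pos (by linarith : 0 < Y) a]⟩

theorem six_pw {Z : ℝ} (h : 2 ≤ Z) {c : ℕ} (hc : 4 ≤ c) : 6 * Z ≤ Z ^ c := by
  have := two_pw h (show 1 + 1 ≤ 2 from le_rfl)
  have := two_pw h (show 2 + 1 ≤ 3 from le_rfl)
  have := two_pw h (show 3 + 1 ≤ c from hc)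
  rw [pow_one] at *
  linarith

theorem exp_sum {x y z : ℝ} (hx : x + 3 ≤ z) (hy : y + 3 ≤ z) : 4 * exp x + exp y ≤ exp z := by
  have h1 := exp_div (x := -x) (y := -z) (by linarith)
  have h2 := exp_div (x := -y) (y := -z) (by linarith)
  rw [neg_neg, neg_neg] at h1 h2
  linarith [exp_pos z]

theorem mul_two_le {Y : ℝ} {n m : ℕ} (h : n ≤ m) : exp Y * 2 ^ n ≤ exp (Y + m) := by
  rw [exp_add]
  exact mul_le_mul_of_nonneg_left ((pow_le_pow_right₀ one_le_two h).trans (two_pow_le m))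
    (exp_pos _).le

/-- one more direction for slope and constant term -/
theorem sst (hP : PIECE V) (hA : PAS V) (hU : UNF V) (hK : PICK V) (hN : NWM V) (hJ : JSM V)
    (hQ : QUAD V) (hD : DV1 (V × Fin 4)) : SST V := by
  obtain ⟨c1, -, hs⟩ := sup hQ
  obtain ⟨c2, hD⟩ := hD
  obtain ⟨c3, a3, hq⟩ := seq1 hP hA hU hK hN
  intro B L D i b hi hb hDB hd
  set n := Fintype.card V with hn
  refine tr_one mn_slo (pl_pw ((c1 + n + 4) * (c2 + 3) * c3 * c3)) (c1 + c3 + 4) ?_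
  rintro N Y Z Bad h2 hZ hf hb0 ⟨p0, Ψ, p1, p2, p3⟩ hM hB
  simp only [pow_mul] at hf hB ⊢
  obtain ⟨h, hc⟩ : N.X.S.Ok ∧ N.X.S.Cen := ⟨hb0.ok, hb0.cen⟩
  have hty := fun r => (hb0.ty r).2
  have hbB := mem_of_mem_erase hb
  have hib := (ne_of_mem_erase hb).symm
  have n1 : Y + 2 * n + 3 ≤ Y ^ (c1 + n + 4) ∧ Y ^ c1 + 3 ≤ Y ^ (c1 + n + 4) := by
    have := nat_le_pw h2 n
    have := nat_le_pw h2 3
    have := two_pw h2 (le_refl (n + 1))
    have := add_pw h2 (a := 1) (b := 2) (c := 3) (by omega) le_rfl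
    have := add_pw h2 (a := n + 1) (b := 3) (c := c1 + n + 4) (by omega) (by omega)
    have := add_pw h2 (a := c1) (b := 3) (c := c1 + n + 4) (by omega) (by omega)
    constructor <;> nlinarith
  generalize Y ^ (c1 + n + 4) = y1 at hf hB n1 ⊢
  have n0 : (0 : ℝ) ≤ n := Nat.cast_nonneg _
  have u1 : 2 ≤ y1 := by linarith [n1.1]
  have n2 : y1 ^ c2 + 3 ≤ y1 ^ (c2 + 3) ∧ 2 * y1 ≤ y1 ^ (c2 + 3) := by
    have := add_pw u1 (a := c2) (b := 2) (c := c2 + 3) (by omega) (by omega)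
    have := two_pw u1 (a := 1) (b := c2 + 3) (by omega)
    constructor <;> nlinarith
  generalize y1 ^ (c2 + 3) = y2 at hf hB n2 ⊢
  have u2 : 2 ≤ y2 := by linarith [n2.2]
  have n3 := le_pw u2 a3
  generalize hy : y2 ^ c3 = y at hf hB n3 ⊢
  have n4 := le_pw (u2.trans n3) a3
  generalize hy3 : y ^ c3 = y3 at hf hB n4 ⊢
  have z2 := h2.trans hZ
  have u0 : 0 ≤ y1 ^ c2 := by positivity
  have l1 : 1 ≤ exp y := one_le_exp (by linarith)
  obtain ⟨Ω, o1, o2, o3⟩ := hs _ N.X.S B L i b N.κ N.ty N.Φ N.E Y y Z h hc h2 (by linarith [n1.1])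
    (by linarith) (by linarith [n1.2]) hi hbB hd hty hb0.fm hb0.on hb0.ci
    (hM.mono h hc (pw_mono z2 (by omega))) hb0.dn (p0 b hb)
  have mj := hJ _ N.X.S b (exp y) Z h hc z2 l1 (exp_le_exp.2 (by linarith))
    (hM.mono h hc (six_pw z2 (by omega)))
  obtain ⟨q, q1, q2, q3⟩ := hD _ (jt N.X.S b (exp y)) (b4 B b) (i, 0) N.κ (fun r => a4 (N.ty r))
    (fun r => rel N.X.S b fun _ => Ψ r) Ω y1 (ok_jt h b l1) (cen_jt hc b _) u1 (mem_b4i hi hb)
    (fun r => ty_a4 (hb0.ty r) hbB)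
    (fun r => ⟨ty_rel hbB (hty r) fun _ => (p1 r).1, aff_rel hib fun _ => (p1 r).2⟩) o1
    ((card_bi hb0.ci).trans (exp_le_exp.2 (by linarith [n1.1]))) (by linarith [hb0.ck, n1.1])
    (mj.mono (ok_jt h b l1) (cen_jt hc b _) (by linarith [n2.1]))
    (fun W hW r => nf_congr ((nf_sub ((o3 W hW).2.2 r) (nr_rel h hc l1 hbB (hty r)
      ((hb0.fm r).sub (p1 r).1).lin fun j => by
        obtain ⟨z, e, hz⟩ := (o3 W hW).2.1 j
        exact nr_pt (p2 z hz r) fun k hk => (e k hk).symm)).mono (by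
          linarith [mul_two_le (Y := Y) (card_le_univ (N.ty r)),
            exp_sum (x := Y + n) (by linarith [n1.1]) n1.2]))
      fun _ _ => by simp only [rel]; ring)
    ((exp_le_exp.2 (by linarith [n1.2])).trans o2)
  have oU := onP_pd h (dis_erase (i := i) hd) (by rw [union_erase hi]; exact hb0.on) (exp (-y))
  have k1 := jt_proj h hc l1 hi hb u0 (mj.mono (ok_jt h b l1) (cen_jt hc b _) (by linarith [n2.1]))
    (P := fun W => exp (-y) ≤ pd N.X.S (B.erase i) (insert i L) N.E (pr N.X.S b 0 2 W) ∧ ∀ r,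
      Nr (jt N.X.S b (exp y)) (a4 (ty2 i N.ty r)) (b4 (B.erase i) b)
        (rel N.X.S b fun _ w => q * sl2 N.X.S i Ψ r w) (exp y2) W)
    ((onP_pr hb oU).and (onP_all fun _ => onP_nr)) (fun W hW => ⟨(exp_le_exp.2
      (by linarith [n1.2])).trans (o3 W hW.1).1, fun r => by
      have e := exp_le_exp.2 (show y1 ^ c2 ≤ y2 by linarith [n2.1])
      rcases r with r | r
      · have := ((hW.2 r).1).mono e
        rw [b4_erase hib, ← a4_insert] at this
        exact nf_congr this fun _ _ => by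
          simp only [rel, sl2, Sum.elim_inl, lab, pr_kill hib]; ring
      · have := ((hW.2 r).2).mono e
        rw [b4_erase hib] at this
        exact nf_congr this fun _ _ => by
          simp only [rel, sl2, Sum.elim_inr, pr_kill hib]; ring⟩) q3
  obtain ⟨s, o, E', s1, s2, s3, s4, s5, s6, s7⟩ := hq _ N.X.S (B.erase i) (insert i L) b
    (N.κ ⊕ N.κ) (ty2 i N.ty) (fun _ r w => q * sl2 N.X.S i Ψ r w) N.E _ Bad y2 y Z h hc u2 hy.le
    (by linarith) hb (dis_erase hd) (dis_ty2 hb0.ty)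
    (fun _ r => (ty_sl2 hi hty p1 r).smul _) (by rw [union_erase hi]; exact hb0.on) oU
    (hb0.ci.trans (exp_le_exp.2 (by linarith [n1.1])))
    (by rw [Fintype.card_sum]; push_cast; linarith [hb0.ck, n1.1])
    (hM.mono h hc (pw_mono z2 (by omega))) (fun _ hy => hy)
    ((exp_le_exp.2 (by linarith [n2.1])).trans k1)
    fun s g m => (hB s (g.mono (erase_subset _ _) (exp_le_exp.2 (by linarith [n1.1]))
      (exp_le_exp.2 (le_pw z2 (by omega))) (by linarith)) m).trans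
      (mul_le_mul_of_nonneg_right (exp_le_exp.2 (by linarith)) (vl_pos h.pd _).le)
  rw [union_erase hi] at s5 s6
  rw [hy3] at s6 s7
  have mφ := mph_mp h hc s1 l1 o
  have e1 : (2 : ℝ) ^ n ≤ exp y3 := (two_pow_le n).trans (exp_le_exp.2 (by linarith [n1.1]))
  have e2 : (q : ℝ) ≤ exp y3 := q2.trans (exp_le_exp.2 (by linarith [n2.1]))
  have e3 : Y + y3 + y3 ≤ 3 * y3 := by linarith [n1.1]
  refine ⟨s, o, E', q, s1.mono (erase_subset _ _) (exp_le_exp.2 (by linarith [n1.1]))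
    (exp_le_exp.2 (le_pw z2 (by omega))) (by linarith), s2, s3, fun z hz => (s4 z hz).1, q1,
    e2.trans (exp_le_exp.2 (by linarith)), s5, (exp_le_exp.2 (by linarith)).trans s6,
    mn_par _ _ _ e3 (p0.next hb0 mφ (erase_subset _ _) one_le_two e1 (fun z hz => (s4 z hz).1) e2
      (by linarith)), fun r w => q * Ψ r (mp N.X.S s o w), fun r =>
    ⟨(mφ.ty ((hty r).mono_right (erase_subset _ _)) (p1 r).1).smul _,
      aff_smul (mφ.aff' (p1 r).2) q⟩, fun z hz r => ?_,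
    fun b' hb' => ?_⟩
  · obtain ⟨x, hx⟩ := mφ.int z
    refine nf_congr ((nf_nsmul (mφ.nr h hc one_le_two (erase_subset _ _) (hty r)
      ((hb0.fm r).sub (p1 r).1).lin (z := z)
      (by rw [hx]; exact p2 x (hx ▸ (s4 z hz).1) r)) q).mono ?_) fun w _ => by ring
    refine (mul_le_mul e2 (mul_two_le (card_le_univ _)) (by positivity) (exp_pos _).le).trans ?_
    rw [← exp_add]; exact exp_le_exp.2 (by linarith [n1.1])
  · change CH _ _ _ _ (sl2 (rf N.X.S s o) i fun r w => q * Ψ r (mp N.X.S s o w)) _ _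
    rw [mφ.sl2 (notMem_erase _ _)]
    rcases mem_insert.1 hb' with rfl | hb'
    · exact s7.mono (by linarith) fun _ h => h
    · exact (((p3 b' hb').pull mφ h hc one_le_two Subset.rfl (fun r => (dis_ty2 hb0.ty r).2)
        (ty_sl2 hi hty p1) e1 (by linarith) fun z hz => (s4 z hz).1).nsmul e2
        (by linarith)).mono e3 fun _ h => h

end

end Vale.Agent.P057IV
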