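import Vale.Agent.P057IV.Seq
import Vale.Agent.P057IV.Ref

/-!
The states of the recursion, the two recursive calls and the induction on the raw classes.
-/

set_option linter.unusedSectionVars false

open Matrix Finset Real
open Vale.Agent.P267.H775 Vale.Agent.P057G Vale.Agent.P057MA
open Vale.Agent.P057T1 (NF lab)

namespace Vale.Agent.P057IV

noncomputable section

variable {V : Type} [Fintype V] [DecidableEq V]

/-- charts in the directions of `D` -/
def Par (B D : Finset V) (N : Nd V) (Y : ℝ) : Prop := ∀ b ∈ D, CH N.X.S B b N.ty N.Φ N.E Y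

/-- a multi-affine model of the family `Φ` -/
def Mod {ι : Type} [Fintype ι] [DecidableEq ι] (S : MS V ι) (B : Finset V) {κ : Type}
    (ty : κ → Finset V) (Φ : κ → (ι → ℝ) → ℝ) (E : (ι → ℝ) → Prop) (Y : ℝ) : Prop :=
  ∃ T : κ → (ι → ℝ) → ℝ, (∀ r, Ty S (ty r) B (T r) ∧ ∀ b ∈ B, Aff (S.st b) (T r)) ∧
    ∀ z, E (toR z) → ∀ r, Nr S (ty r) B (fun w => Φ r w - T r w) (exp Y) (toR z)

/-- the goal -/
def Goal (B : Finset V) (N : Nd V) (Y : ℝ) : Prop := Mod N.X.S B N.ty N.Φ N.E Y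

/-- the slopes of the labels are charted in the directions of `D` -/
def Gam (B : Finset V) (i : V) (D : Finset V) (N : Nd V) (Y : ℝ) : Prop :=
  Par B (B.erase i) N Y ∧ ∃ (ϱ : Type) (_ : Fintype ϱ) (γ : ϱ → (N.X.ι → ℝ) → ℝ)
    (Ψ : N.κ → (N.X.ι → ℝ) → ℝ) (c : N.κ → ϱ → (N.X.ι → ℝ) → ℝ), (Fintype.card ϱ : ℝ) ≤ Y ∧
    Chart N.X.S B i N.ty N.Φ N.E (exp Y) γ Ψ c ∧
    ∀ b ∈ D, CH N.X.S (B.erase i) b (fun _ => {i}) (fun ρ => lab N.X.S i (γ ρ)) N.E Y

/-- the slopes of the labels have a multi-affine model -/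
def Ga2 (B : Finset V) (i : V) (N : Nd V) (Y : ℝ) : Prop :=
  Par B (B.erase i) N Y ∧ ∃ (ϱ : Type) (_ : Fintype ϱ) (γ : ϱ → (N.X.ι → ℝ) → ℝ)
    (Ψ : N.κ → (N.X.ι → ℝ) → ℝ) (c : N.κ → ϱ → (N.X.ι → ℝ) → ℝ) (d : ℕ),
    (Fintype.card ϱ : ℝ) ≤ Y ∧ Chart N.X.S B i N.ty N.Φ N.E (exp Y) γ Ψ c ∧ 0 < d ∧
    (d : ℝ) ≤ exp Y ∧
    Mod N.X.S (B.erase i) (fun _ => {i}) (fun ρ w => d * lab N.X.S i (γ ρ) w) N.E Y

/-- the types of slope and constant term -/
def ty2 (i : V) {κ : Type} (ty : κ → Finset V) : κ ⊕ κ → Finset V :=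
  Sum.elim (fun r => insert i (ty r)) ty

/-- slope and constant term in the class `i` -/
def sl2 {ι : Type} [Fintype ι] [DecidableEq ι] (S : MS V ι) (i : V) {κ : Type}
    (Ψ : κ → (ι → ℝ) → ℝ) : κ ⊕ κ → (ι → ℝ) → ℝ :=
  Sum.elim (fun r => lab S i (Ψ r)) fun r w => Ψ r (mix (S.st i) 0 w)

/-- the family is affine in `i`; slope and constant term are charted in the directions of `D` -/
def Slo (B : Finset V) (i : V) (D : Finset V) (N : Nd V) (Y : ℝ) : Prop :=
  Par B (B.erase i) N Y ∧ ∃ Ψ : N.κ → (N.X.ι → ℝ) → ℝ,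
    (∀ r, Ty N.X.S (N.ty r) B (Ψ r) ∧ Aff (N.X.S.st i) (Ψ r)) ∧
    (∀ z, N.E (toR z) → ∀ r,
      Nr N.X.S (N.ty r) B (fun w => N.Φ r w - Ψ r w) (exp Y) (toR z)) ∧
    ∀ b ∈ D, CH N.X.S (B.erase i) b (ty2 i N.ty) (sl2 N.X.S i Ψ) N.E Y

variable (V) in
/-- one more direction for the labels -/
def GST : Prop := ∀ (B L D : Finset V) (i b : V), i ∈ B → b ∈ B.erase i → D ⊆ B.erase i →
  Disjoint B L → Tr B L (Gam B i D) (Gam B i (insert b D))

variable (V) in
/-- the labels become integer forms -/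
def XST : Prop := ∀ (B L : Finset V) (i : V), i ∈ B → Disjoint B L →
  Tr B L (Ga2 B i) (Slo B i ∅)

variable (V) in
/-- one more direction for slope and constant term -/
def SST : Prop := ∀ (B L D : Finset V) (i b : V), i ∈ B → b ∈ B.erase i → D ⊆ B.erase i →
  Disjoint B L → Tr B L (Slo B i D) (Slo B i (insert b D))

variable {B L D : Finset V} {i : V}

theorem Mod.mono {ι : Type} [Fintype ι] [DecidableEq ι] {S : MS V ι} {κ : Type}
    {ty : κ → Finset V} {Φ : κ → (ι → ℝ) → ℝ} {E : (ι → ℝ) → Prop} {Y Y' : ℝ}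
    (h : Mod S B ty Φ E Y) (hY : Y ≤ Y') : Mod S B ty Φ E Y' :=
  h.imp fun _ h => ⟨h.1, fun z hz r => (h.2 z hz r).mono (exp_le_exp.2 hY)⟩

theorem mn_par : Mn (Par B D) := fun _ _ _ hY h b hb => (h b hb).mono hY fun _ h => h

theorem mn_goal : Mn (Goal B) := fun _ _ _ hY h => h.mono hY

theorem mn_gam : Mn (Gam B i D) := fun _ _ _ hY ⟨h, ϱ, _, γ, Ψ, c, h1, h2, h3⟩ =>
  ⟨mn_par _ _ _ hY h, ϱ, _, γ, Ψ, c, h1.trans hY, h2.mono (exp_le_exp.2 hY) fun _ h => h,
    fun b hb => (h3 b hb).mono hY fun _ h => h⟩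

theorem mn_ga2 : Mn (Ga2 B i) := fun _ _ _ hY ⟨h, ϱ, _, γ, Ψ, c, d, h1, h2, h3, h4, h5⟩ =>
  ⟨mn_par _ _ _ hY h, ϱ, _, γ, Ψ, c, d, h1.trans hY, h2.mono (exp_le_exp.2 hY) fun _ h => h, h3,
    h4.trans (exp_le_exp.2 hY), h5.mono hY⟩

theorem mn_slo : Mn (Slo B i D) := fun _ _ _ hY ⟨h, Ψ, h1, h2, h3⟩ =>
  ⟨mn_par _ _ _ hY h, Ψ, h1, fun z hz r => (h2 z hz r).mono (exp_le_exp.2 hY),
    fun b hb => (h3 b hb).mono hY fun _ h => h⟩

/-- the charts of the parent family on the next node -/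
theorem Par.next {N : Nd V} {Y Y' K : ℝ} (h : Par B D N Y) (hb : Base B L N Y) {X' : Sy V}
    {φ : (X'.ι → ℝ) → N.X.ι → ℝ} {B0 : Finset V} (hφ : Mph B0 K N.X.S X'.S φ) (hB : B0 ⊆ B)
    (hK : 1 ≤ K) (hK' : K ^ Fintype.card V ≤ exp Y') {E' : (X'.ι → ℝ) → Prop}
    (e : ∀ z, E' (toR z) → N.E (φ (toR z))) {d : ℕ} (hd : (d : ℝ) ≤ exp Y') (h0 : 0 ≤ Y') :
    Par B D (N.next X' φ E' d) (Y + Y' + Y') := fun b hb' =>
  ((h b hb').pull hφ hb.ok hb.cen hK hB (fun r => (hb.ty r).2) hb.fm hK' h0 e).nsmul hd h0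

section lab

variable {ι : Type} [Fintype ι] [DecidableEq ι] {S : MS V ι} {A : Finset V} {f : (ι → ℝ) → ℝ}

theorem on_kill {F : Finset V} (h : On (fce S F) f) :
    On (fce S (F.erase i)) fun w => f (mix (S.st i) 0 w) := fun z z' e => h _ _ fun j hj => by
  by_cases hi : j ∈ S.st i
  · rw [mix_pos _ _ hi, mix_pos _ _ hi]
  · rw [mix_neg _ _ hi, mix_neg _ _ hi]
    exact e j (mem_fce.2 (subset_erase.2 ⟨mem_fce.1 hj, fun e => hi (S.mem_st.2 e)⟩))

theorem on_lab {F : Finset V} (h : On (fce S F) f) : On (fce S F) (lab S i f) :=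
  h.map₂ ((on_kill h).mono (fce_mono (erase_subset _ _))) fun a b => a - b

theorem lin_kill {v : V} (h : Lin (S.st v) f) : Lin (S.st v) fun w => f (mix (S.st i) 0 w) :=
  fun y => by
  have e : ∀ x, mix (S.st i) 0 (mix (S.st v) x y) =
      mix (S.st v) (mix (S.st i) 0 x) (mix (S.st i) 0 y) := fun x => by
    funext j; simp only [mix]; split_ifs <;> rfl
  simp only [e]
  constructor
  · intro a b
    rw [← (h _).map_add]; congr 2; funext j; simp only [mix, Pi.add_apply]; split_ifs <;> simp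
  · intro a b
    rw [← (h _).map_smul]; congr 2; funext j; simp only [mix, Pi.smul_apply]; split_ifs <;> simp

theorem ty_lab (hi : i ∈ B) (h : Ty S A B f) (ha : Aff (S.st i) f) :
    Ty S (insert i A) (B.erase i) (lab S i f) := by
  refine ⟨by rw [insert_union_erase hi]; exact on_lab h.on, fun v hv => ?_⟩
  rcases mem_insert.1 hv with rfl | hv
  · exact ha.lin_part
  · have := lin_comb (h.lin v hv) (lin_kill (i := i) (h.lin v hv)) 1 (-1)
    simp only [one_mul, neg_mul, ← sub_eq_add_neg] at this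
    exact this

theorem ty_kill (hi : i ∈ B) (hd : Disjoint A B) (h : Ty S A B f) :
    Ty S A (B.erase i) fun w => f (mix (S.st i) 0 w) := by
  refine ⟨?_, fun v hv => lin_kill (h.lin v hv)⟩
  have := on_kill (i := i) h.on
  rwa [erase_union_distrib, erase_eq_of_notMem (disjoint_right.1 hd hi)] at this

theorem ty_gam (hi : i ∈ B) (h : Af S (fce S B) {i} f) : Ty S {i} (B.erase i) (lab S i f) :=
  ty_lab (A := ∅) hi ⟨by simpa using h.on, by simp⟩ (h.aff i (mem_singleton_self i))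

variable {κ : Type} {ty : κ → Finset V} {Ψ : κ → (ι → ℝ) → ℝ}

theorem ty_sl2 (hi : i ∈ B) (hd : ∀ r, Disjoint (ty r) B)
    (h : ∀ r, Ty S (ty r) B (Ψ r) ∧ Aff (S.st i) (Ψ r)) :
    ∀ r, Ty S (ty2 i ty r) (B.erase i) (sl2 S i Ψ r)
  | Sum.inl r => ty_lab hi (h r).1 (h r).2
  | Sum.inr r => ty_kill hi (hd r) (h r).1

theorem dis_ty2 (hd : ∀ r, (ty r).Nonempty ∧ Disjoint (ty r) B) :
    ∀ r, (ty2 i ty r).Nonempty ∧ Disjoint (ty2 i ty r) (B.erase i)
  | Sum.inl r => ⟨insert_nonempty _ _,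
      disjoint_insert_left.2 ⟨notMem_erase _ _, (hd r).2.mono_right (erase_subset _ _)⟩⟩
  | Sum.inr r => ⟨(hd r).1, (hd r).2.mono_right (erase_subset _ _)⟩

theorem Mph.sl2 {ι' : Type} [Fintype ι'] [DecidableEq ι'] {S' : MS V ι'} {B0 : Finset V} {K : ℝ}
    {φ : (ι' → ℝ) → ι → ℝ} (h : Mph B0 K S S' φ) (hi : i ∉ B0) (a : ℝ) :
    P057IV.sl2 S' i (fun r w => a * Ψ r (φ w)) = fun r w => a * P057IV.sl2 S i Ψ r (φ w) := by
  funext r w
  cases r <;> simp only [P057IV.sl2, Sum.elim_inl, Sum.elim_inr, P057T1.lab, h.kill hi, mul_sub]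

end lab

theorem pl_mul (a : ℝ) : Pl fun Y => a * Y := by
  obtain ⟨c, h1, h2⟩ := pl_const a
  exact ⟨c + 1, by omega, fun Y h => by
    rw [pow_succ]; exact mul_le_mul_of_nonneg_right (h2 Y h) (by linarith)⟩

theorem base_sub {N : Nd V} {Y : ℝ} (hb : Base B L N Y) (hi : i ∈ B) (h0 : 0 ≤ Y) {κ : Type}
    [Fintype κ] {ty : κ → Finset V} {Φ : κ → (N.X.ι → ℝ) → ℝ} (h1 : (Fintype.card κ : ℝ) ≤ 2 * Y)
    (h2 : ∀ r, (ty r).Nonempty ∧ Disjoint (ty r) (B.erase i))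
    (h3 : ∀ r, Ty N.X.S (ty r) (B.erase i) (Φ r)) :
    Base (B.erase i) (insert i L) ⟨N.X, κ, ty, Φ, N.E⟩ (2 * Y) :=
  ⟨hb.ok, hb.cen, hb.ci.trans (exp_le_exp.2 (by linarith)), h1, h2, h3,
    by rw [union_erase hi]; exact hb.on,
    by rw [union_erase hi]; exact (exp_le_exp.2 (by linarith)).trans hb.dn⟩

/-- the call for the slopes of the labels -/
theorem gam_call (hi : i ∈ B)
    (h : Tr (B.erase i) (insert i L) (Par (B.erase i) (B.erase i)) (Goal (B.erase i))) :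
    Tr B L (Gam B i (B.erase i)) (Ga2 B i) := by
  refine h.call mn_goal mn_ga2 (erase_subset _ _) (pl_mul 3) ?_
  rintro N Y h2 hb ⟨p0, ϱ, _, γ, Ψ, c, p1, p2, p3⟩
  refine ⟨ϱ, _, fun _ => {i}, fun ρ => lab N.X.S i (γ ρ), base_sub hb hi (by linarith)
    (by linarith) (fun _ => ⟨singleton_nonempty _, disjoint_singleton_left.2 (notMem_erase _ _)⟩)
    fun ρ => ty_gam hi (p2.ga ρ), fun b hb => (p3 b hb).mono (by linarith) fun _ h => h, ?_⟩
  intro X' φ E' d K Y' hY hφ k1 k2 _ e d1 d2 b' q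
  have y0 : 0 ≤ Y' := by linarith
  have o1 := b'.on
  have o2 := b'.dn
  rw [union_erase hi] at o1 o2
  refine ⟨E', 1, fun _ h => h, one_pos, by simpa using y0, o1,
    (exp_le_exp.2 (by linarith)).trans o2,
    mn_par _ _ _ (by linarith) (p0.next hb hφ (erase_subset _ _) k1 k2 e (by simpa using y0) y0),
    ϱ, _, _, _, _, d, by linarith, ((p2.pull hφ hb.ok hb.cen k1 (erase_subset _ _)
      (fun r => (hb.ty r).2) hb.fm (exp_pos _).le e).nsmul 1).mono ?_ fun _ h => h, d1,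
    d2.trans (exp_le_exp.2 (by linarith)), ?_⟩
  · rw [Nat.cast_one, one_mul]
    refine (mul_le_mul_of_nonneg_left k2 (exp_pos _).le).trans ?_
    rw [← exp_add]; exact exp_le_exp.2 (by linarith)
  · simp only [hφ.lab (notMem_erase _ _)]
    exact Mod.mono q (by linarith)

/-- the call for slope and constant term -/
theorem slo_call (hi : i ∈ B)
    (h : Tr (B.erase i) (insert i L) (Par (B.erase i) (B.erase i)) (Goal (B.erase i))) :
    Tr B L (Slo B i (B.erase i)) (Goal B) := by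
  refine h.call mn_goal mn_goal (erase_subset _ _) (pl_mul (2 * Fintype.card V + 6)) ?_
  rintro N Y h2 hb ⟨p0, Ψ, p1, p2, p3⟩
  have hd := fun r => (hb.ty r).2
  refine ⟨N.κ ⊕ N.κ, inferInstance, ty2 i N.ty, sl2 N.X.S i Ψ, base_sub hb hi (by linarith)
    (by rw [Fintype.card_sum]; push_cast; linarith [hb.ck]) (dis_ty2 hb.ty) (ty_sl2 hi hd p1),
    fun b hb => (p3 b hb).mono (by linarith) fun _ h => h, ?_⟩
  rintro X' φ E' d K Y' hY hφ k1 k2 m e d1 d2 b' ⟨T, t1, t2⟩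
  have y0 : 2 ≤ Y' := h2.trans hY
  have n0 : 0 ≤ (Fintype.card V : ℝ) * Y' := by positivity
  have o1 := b'.on
  have o2 := b'.dn
  rw [union_erase hi] at o1 o2
  have x1 := add_one_le_exp Y'
  have k3 := den_tail (B := B) b'.ok b'.cen subset_union_left
    ((m.mass b'.ok b'.cen two_pos (cls_fce _ (B ∪ L))).trans
      (by linarith [exp_le_one_iff.2 (show (-2 : ℝ) ≤ 0 by norm_num)]))
    (r := exp (2 * Y') ^ 2 - 1) (Y := Y' + 3) (by
      have h3 := b'.ci
      have h4 : exp (2 * Y') = exp Y' ^ 2 := by rw [← exp_nat_mul]; norm_num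
      have h5 : 3 * exp Y' ≤ exp Y' ^ 2 := by nlinarith
      rw [h4]; nlinarith) (by linarith)
  refine ⟨fun z => E' z ∧ ln2 X'.S (fce X'.S B) z ≤ exp (2 * Y') ^ 2 - 1, d, fun _ h => h.1, d1,
    d2.trans (exp_le_exp.2 (by linarith)), o1.and ((onP_on (on_ln2 b'.ok) fun x => x ≤ _).mono
      (fce_mono subset_union_left)), le_trans ?_ (den_and b'.ok _),
    fun r w => T (Sum.inl r) w + T (Sum.inr r) w, fun r => ⟨?_, fun b hb' => ?_⟩,
    fun z hz r => ?_⟩
  · have := exp_div (le_refl (Y' + 3))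
    have := exp_le_exp.2 (show -((2 * Fintype.card V + 6) * Y') ≤ -(Y' + 3) by linarith)
    linarith [exp_pos (-Y')]
  · have := (t1 (Sum.inl r)).1.mono Subset.rfl (subset_insert i (N.ty r))
    rw [show ty2 i N.ty (Sum.inl r) ∪ B.erase i = N.ty r ∪ B from insert_union_erase hi] at this
    exact this.add (Ty.up (erase_subset _ _) (t1 (Sum.inr r)).1)
  · by_cases hbi : b = i
    · subst hbi
      exact aff_add ((t1 (Sum.inl r)).1.lin b (mem_insert_self _ _)).aff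
        (aff_out ((t1 (Sum.inr r)).1.out hi (hd r)))
    · exact aff_add ((t1 _).2 b (mem_erase.2 ⟨hbi, hb'⟩)) ((t1 _).2 b (mem_erase.2 ⟨hbi, hb'⟩))
  · obtain ⟨y, hy⟩ := hφ.int z
    have n1 := nf_nsmul (hφ.nr hb.ok hb.cen k1 (erase_subset _ _) (hd r)
      ((hb.fm r).sub (p1 r).1).lin (z := z) (by rw [hy]; exact p2 y (hy ▸ e z hz.1) r)) d
    have n2 := nr_eval b'.ok b'.cen hi (hd r) ((b'.fm (Sum.inl r)).sub (t1 (Sum.inl r)).1).lin
      (one_le_exp (by linarith : 0 ≤ 2 * Y')) (by linarith [hz.2]) (t2 z hz.1 (Sum.inl r))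
    have n3 := nr_up b'.ok (erase_subset _ _) (hd r) (t2 z hz.1 (Sum.inr r))
    refine nf_congr ((nf_add (nf_add n1 n2) n3).mono ?_) fun w _ => ?_
    · have a1 : (d : ℝ) * (exp Y * K ^ (N.ty r).card) ≤ exp (Y' + (Y' + Y')) := by
        rw [exp_add, exp_add]
        exact mul_le_mul d2 (mul_le_mul (exp_le_exp.2 hY) ((pow_le_pow_right₀ k1
          (card_le_univ _)).trans k2) (by positivity) (exp_pos _).le) (by positivity) (exp_pos _).le
      have a2 : exp Y' * exp (2 * Y') ^ (insert i (N.ty r)).card ≤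
          exp (Y' + Fintype.card V * (2 * Y')) := by
        rw [exp_add, exp_nat_mul]
        exact mul_le_mul_of_nonneg_left (pow_le_pow_right₀ (one_le_exp (by linarith))
          (card_le_univ _)) (exp_pos _).le
      have a3 : ∀ {x}, x ≤ (2 * Fintype.card V + 6) * Y' - 3 →
          exp x ≤ exp ((2 * Fintype.card V + 6) * Y') / 8 := fun {x} hx => by
        simpa using exp_div (x := -x) (y := -((2 * Fintype.card V + 6) * Y')) (by linarith)
      have := a3 (x := Y' + (Y' + Y')) (by linarith)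
      have := a3 (x := Y' + Fintype.card V * (2 * Y')) (by linarith)
      have := a3 (x := Y') (by linarith)
      linarith [exp_pos ((2 * Fintype.card V + 6) * Y')]
    · simp only [sl2, Sum.elim_inl, Sum.elim_inr, lab]; ring

/-- iteration over the directions of a fixed set -/
theorem tr_sub {St : Finset V → Nd V → ℝ → Prop} (hm : ∀ D, Mn (St D)) (T : Finset V)
    (h : ∀ b ∈ T, ∀ D ⊆ T, Tr B L (St D) (St (insert b D))) : Tr B L (St ∅) (St T) := by
  have := tr_iter (B := B) (L := L) (St := fun D => St (D ∩ T)) (fun D => hm _) T fun b hb D => by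
    simpa only [insert_inter_of_mem hb] using h b hb _ inter_subset_right
  simpa only [empty_inter, inter_self] using this

theorem tr_all (hG : GST V) (hX : XST V) (hS : SST V) (B : Finset V) :
    ∀ L, Disjoint B L → Tr B L (Par B B) (Goal B) := by
  induction B using Finset.strongInduction with
  | H B ih =>
  intro L hd
  rcases B.eq_empty_or_nonempty with rfl | ⟨i, hi⟩
  · exact tr_imp fun N Y _ hb _ => ⟨N.Φ, fun r => ⟨hb.fm r, by simp⟩,
      fun z _ r => nf_small fun w _ => by simpa using (exp_pos Y).le⟩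
  have h := ih _ (erase_ssubset hi) _ (dis_erase (i := i) hd)
  have h0 : Tr B L (Par B B) (Gam B i ∅) := tr_imp fun N Y _ _ hp => by
    obtain ⟨ϱ, _, γ, Ψ, c, h1, h2⟩ := hp i hi
    exact ⟨fun b hb => hp b (mem_of_mem_erase hb), ϱ, _, γ, Ψ, c, h1, h2, by simp⟩
  exact ((((h0.trans (tr_sub (St := Gam B i) (fun _ => mn_gam) _ fun b hb D hD =>
    hG B L D i b hi hb hD hd) mn_gam).trans (gam_call hi h) mn_ga2).trans (hX B L i hi hd) mn_slo).trans
      (tr_sub (St := Slo B i) (fun _ => mn_slo) _ fun b hb D hD =>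
        hS B L D i b hi hb hD hd) mn_slo).trans (slo_call hi h) mn_goal

/-- the inverse step from the three kinds of steps -/
theorem inv_of (hG : GST V) (hX : XST V) (hS : SST V) : INV V := by
  have : ∀ p : Finset V × Finset V, ∃ C, Disjoint p.1 p.2 →
      TrC p.1 p.2 (Par p.1 p.1) (Goal p.1) C := fun p => by
    by_cases h : Disjoint p.1 p.2
    · exact (tr_all hG hX hS _ _ h).imp fun _ h _ => h.2
    · exact ⟨0, fun h' => absurd h' h⟩
  choose C hC using this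
  refine ⟨univ.sup C, fun X B L κ _ ty Φ E Y Z Gd h hc h2 hZ hd hty hΦ hE hι hκ hdn hch hM hcl hg =>
    ?_⟩
  obtain ⟨n, X', φ, E', d, a1, a2, a3, a4, a5, a6, a7, a8, T, a9⟩ :=
    (hC (B, L) hd).mono mn_goal (le_sup (mem_univ _)) ⟨X, κ, ty, Φ, E⟩ Y Z Gd h2 hZ
      ⟨h, hc, hι, hκ, hty, hΦ, hE, hdn⟩ hch hM hcl hg
  exact ⟨n, X', φ, E', d, T, a1, a2, a3, a4, a8.on, a5, a8.dn, a6, a7, a9.1, a9.2⟩

end

end Vale.Agent.P057IV
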