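import Vale.Agent.P057IV.Defs

/-!
One refinement step: the refined system is admissible and its map is a morphism.
-/

set_option linter.unusedSectionVars false

open Matrix Finset
open Vale.Agent.P267.H775 Vale.Agent.P057G Vale.Agent.P057MA

namespace Vale.Agent.P057IV

noncomputable section

variable {V : Type} [Fintype V] [DecidableEq V] {ι : Type} [Fintype ι] [DecidableEq ι]
  {S : MS V ι} {s : Stp V ι} {o : ι → ℤ} {B : Finset V} {Λ P R : ℝ}

theorem Good.d_le (hs : Good S s B Λ P R) (hΛ : 1 ≤ Λ) : (s.d : ℝ) ≤ s.lam :=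
  (le_mul_of_one_le_right (Nat.cast_nonneg _) hΛ).trans hs.lo

theorem Good.one_le (hs : Good S s B Λ P R) (hΛ : 1 ≤ Λ) : 1 ≤ s.lam :=
  le_trans (by exact_mod_cast hs.d1) (hs.d_le hΛ)

theorem Good.mono (hs : Good S s B Λ P R) {B' : Finset V} {Λ' P' R' : ℝ} (hB : B ⊆ B')
    (hΛ : Λ' ≤ Λ) (hP : P ≤ P') (hR : R ≤ R') : Good S s B' Λ' P' R' :=
  ⟨hB hs.mem, hs.d1, (mul_le_mul_of_nonneg_left hΛ (Nat.cast_nonneg _)).trans hs.lo,
    hs.hi.trans hP, hs.card.trans hR, hs.fb, fun x => (hs.fB x).trans hB, hs.top,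
    hs.cx.trans hP, hs.sep⟩

theorem Good.ok_xt (hs : Good S s B Λ P R) (hΛ : 1 ≤ Λ) (h : S.Ok) : (xt S s).Ok :=
  ok_top (ok_dil h _ (hs.one_le hΛ)) hs.top

theorem Good.cen_xt (hs : Good S s B Λ P R) (hΛ : 1 ≤ Λ) (h : S.Ok) (hc : S.Cen) :
    (xt S s).Cen := cen_top (ok_dil h _ (hs.one_le hΛ)) (cen_dil hc _ _) hs.top

theorem good_nw {b : V} (hb : b ∈ B) {lam : ℝ} (h1 : Λ ≤ lam) (h2 : lam ≤ P) (h3 : 1 ≤ P)
    (hR : 0 ≤ R) : Good S (nw ι b lam) B Λ P R := by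
  refine ⟨hb, le_rfl, by simpa [nw] using h1, h2, le_trans (le_of_eq (Nat.cast_eq_zero.2 (@Fintype.card_eq_zero Empty _ _))) hR, fun x => x.elim,
    fun x => x.elim, ⟨PosDef.one, fun x => x.elim, fun x => x.elim, fun x => x.elim⟩, ?_,
    fun k hk => absurd (funext fun x => x.elim) hk⟩
  refine le_trans (le_of_eq ?_) h3
  unfold th
  rw [tsum_eq_single 0 fun z hz => absurd (funext fun x => x.elim) hz]
  rw [show toR (0 : (nw ι b lam).X → ℤ) - 0 = 0 from funext fun x => x.elim, gs_zero]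

theorem bv_pure {i : ι} (h : S.fc i = {s.b}) (z : (ι ⊕ s.X) ⊕ Lk S s.b → ℝ) :
    bv S s o z i = o i := by
  unfold bv
  rw [dif_pos (h ▸ mem_singleton_self _), dif_pos h]

theorem bv_link (l : Lk S s.b) (z : (ι ⊕ s.X) ⊕ Lk S s.b → ℝ) :
    bv S s o z l = z (Sum.inr l) := by
  unfold bv
  rw [dif_pos l.2.1, dif_neg l.2.2]

theorem bv_out {i : ι} (h : s.b ∉ S.fc i) (z : (ι ⊕ s.X) ⊕ Lk S s.b → ℝ) :
    bv S s o z i = z (Sum.inl (Sum.inl i)) := dif_neg h

theorem tri (S : MS V ι) (b : V) (i : ι) :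
    S.fc i = {b} ∨ (∃ l : Lk S b, l.1 = i) ∨ b ∉ S.fc i := by
  by_cases h : b ∈ S.fc i
  · by_cases h' : S.fc i = {b}
    exacts [Or.inl h', Or.inr (Or.inl ⟨⟨i, h, h'⟩, rfl⟩)]
  · exact Or.inr (Or.inr h)

theorem fc_inl (i : ι) : (rf S s o).fc (Sum.inl (Sum.inl i)) = S.fc i := rfl

theorem fc_inr (l : Lk S s.b) : (rf S s o).fc (Sum.inr l) = (S.fc l).erase s.b := rfl

theorem fc_new (x : s.X) : (rf S s o).fc (Sum.inl (Sum.inr x)) = s.fc x := rfl

/-- the base view of a coordinate is a constant or a coordinate on the face without `b` -/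
theorem bv_cases (i : ι) : (S.fc i = {s.b} ∧ ∀ z, bv S s o z i = o i) ∨
    ∃ a, (rf S s o).fc a = (S.fc i).erase s.b ∧ (rf S s o).lv a = S.lv i ∧
      ∀ z, bv S s o z i = z a := by
  rcases tri S s.b i with h | ⟨l, rfl⟩ | h
  · exact Or.inl ⟨h, bv_pure h⟩
  · exact Or.inr ⟨Sum.inr l, rfl, rfl, bv_link l⟩
  · exact Or.inr ⟨Sum.inl (Sum.inl i), (erase_eq_of_notMem h).symm, rfl, bv_out h⟩

theorem on_bv (i : ι) : On (fce (rf S s o) ((S.fc i).erase s.b)) fun z => bv S s o z i := by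
  intro z z' hz
  rcases bv_cases (S := S) (s := s) (o := o) i with ⟨_, h⟩ | ⟨a, h1, _, h⟩
  · simp only [h]
  · simp only [h]; exact hz a (mem_fce.2 h1.subset)

theorem bv_indep {v : V} {i : ι} (hv : v ∉ (S.fc i).erase s.b) (x y) :
    bv S s o (mix ((rf S s o).st v) x y) i = bv S s o y i :=
  (on_bv i).indep (fun _ hj h2 => hv (mem_fce.1 hj ((rf S s o).mem_st.1 h2))) x y

theorem lin_bv {v : V} {i : ι} (hv : v ∈ (S.fc i).erase s.b) :
    Lin ((rf S s o).st v) fun z => bv S s o z i := by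
  rcases bv_cases (S := S) (s := s) (o := o) i with ⟨h0, _⟩ | ⟨a, h1, _, h⟩
  · simp [h0] at hv
  · simp only [h]
    exact lin_coord ((rf S s o).mem_st.2 (h1 ▸ hv))

theorem lin_base {v : V} (hv : v ≠ s.b) {f : (ι → ℝ) → ℝ} (hf : Lin (S.st v) f) :
    Lin ((rf S s o).st v) fun z => f (bv S s o z) :=
  lin_comp (on_univ f) hf (fun _ _ hi => lin_bv (mem_erase.2 ⟨hv, S.mem_st.1 hi⟩))
    fun _ _ hi => bv_indep fun h => hi (S.mem_st.2 (mem_of_mem_erase h))

theorem aff_base {v : V} (hv : v ≠ s.b) {f : (ι → ℝ) → ℝ} (hf : Aff (S.st v) f) :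
    Aff ((rf S s o).st v) fun z => f (bv S s o z) :=
  aff_comp (on_univ f) hf (fun _ _ hi => (lin_bv (mem_erase.2 ⟨hv, S.mem_st.1 hi⟩)).aff)
    fun _ _ hi => bv_indep fun h => hi (S.mem_st.2 (mem_of_mem_erase h))

theorem bv_mix_b (x y) : bv S s o (mix ((rf S s o).st s.b) x y) = bv S s o y :=
  funext fun _ => bv_indep (notMem_erase _ _) x y

theorem mix_rf (v : V) (x y : (ι ⊕ s.X) ⊕ Lk S s.b → ℝ) :
    mix ((rf S s o).st v) x y ∘ Sum.inl = mix ((xt S s).st v) (x ∘ Sum.inl) (y ∘ Sum.inl) := by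
  funext a
  have : Sum.inl a ∈ (rf S s o).st v ↔ a ∈ (xt S s).st v := by
    rw [MS.mem_st, MS.mem_st]; rfl
  simp only [Function.comp, mix, this]

theorem aff_rf {v : V} {f : (ι ⊕ s.X → ℝ) → ℝ} (h : Aff ((xt S s).st v) f) :
    Aff ((rf S s o).st v) fun z => f (z ∘ Sum.inl) := fun y => by
  simp only [mix_rf]
  exact ⟨fun a b => (h _).map_add _ _, fun a b => (h _).map_smul a _⟩

theorem lin_rf {v : V} {f : (ι ⊕ s.X → ℝ) → ℝ} (h : Lin ((xt S s).st v) f) :
    Lin ((rf S s o).st v) fun z => f (z ∘ Sum.inl) := fun y => by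
  simp only [mix_rf]
  exact ⟨fun a b => (h _).map_add _ _, fun a b => (h _).map_smul a _⟩

theorem pd_blocks {α β : Type} [Fintype α] [Fintype β] [DecidableEq α] [DecidableEq β]
    {G : Matrix α α ℝ} {H : Matrix β β ℝ} (hG : G.PosDef) (hH : H.PosDef) :
    (fromBlocks G 0 0 H).PosDef := by
  refine PosDef.of_dotProduct_mulVec_pos (hG.1.fromBlocks (by simp) hH.1) fun x hx => ?_
  change 0 < qq (fromBlocks G 0 0 H) x
  rw [qq_fromBlocks]
  have a1 := qq_nonneg hG.posSemidef (x ∘ Sum.inl)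
  have a2 := qq_nonneg hH.posSemidef (x ∘ Sum.inr)
  by_cases h1 : x ∘ Sum.inl = 0
  · have : x ∘ Sum.inr ≠ 0 := fun h2 => hx (funext fun a => by
      cases a with
      | inl i => exact congrFun h1 i
      | inr j => exact congrFun h2 j)
    linarith [qq_pos hH this]
  · linarith [qq_pos hG h1]

theorem ok_rf (h : S.Ok) (hx : (xt S s).Ok) (o : ι → ℤ) : (rf S s o).Ok := by
  refine ⟨pd_blocks hx.pd (h.pd.submatrix Subtype.val_injective), fun a b hab => ?_,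
    fun a z z' hz => ?_, fun v a hv => ?_⟩
  · rcases a with i | i <;> rcases b with j | j
    · exact hx.orth i j hab
    · exact absurd rfl hab
    · exact absurd rfl hab
    · obtain ⟨h1, h2⟩ := h.orth i j hab
      exact ⟨by rw [fc_inr, fc_inr, h1], h2⟩
  · rcases a with i | l
    · exact hx.loc i _ _ fun k hk => hz (Sum.inl k) hk
    · refine h.loc l _ _ fun j hj => ?_
      rcases bv_cases (S := S) (s := s) (o := o) j with ⟨_, e⟩ | ⟨a, h1, h2, e⟩
      · rw [e, e]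
      · rw [e, e]
        exact hz a ⟨h1 ▸ erase_subset_erase _ hj.1, h2 ▸ hj.2⟩
  · rcases a with i | l
    · exact aff_rf (hx.aff v i hv)
    · exact aff_base (mem_erase.1 hv).1 (h.aff v l (mem_erase.1 hv).2)

theorem cen_rf (h : S.Ok) (hc : S.Cen) (hx : (xt S s).Ok) (hxc : (xt S s).Cen) (o : ι → ℤ) :
    (rf S s o).Cen := by
  refine ⟨fun a => ?_, fun v a hv => ?_⟩
  · rcases a with i | l
    · exact hxc.ne i
    · refine nonempty_iff_ne_empty.2 fun e => l.2.2 ?_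
      exact ((erase_eq_empty_iff _ _).1 e).resolve_left (nonempty_iff_ne_empty.1 (hc.ne l))
  · rcases a with i | l
    · exact (lin_rf (hx.lin hxc hv)).zero
    · exact (lin_base (mem_erase.1 hv).1 (h.lin hc (mem_erase.1 hv).2)).zero

theorem Good.ok_rf (hs : Good S s B Λ P R) (hΛ : 1 ≤ Λ) (h : S.Ok) (o : ι → ℤ) :
    (rf S s o).Ok := P057IV.ok_rf h (hs.ok_xt hΛ h) o

theorem Good.cen_rf (hs : Good S s B Λ P R) (hΛ : 1 ≤ Λ) (h : S.Ok) (hc : S.Cen) (o : ι → ℤ) :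
    (rf S s o).Cen := P057IV.cen_rf h hc (hs.ok_xt hΛ h) (hs.cen_xt hΛ h hc) o

theorem mp_in {i : ι} (h : s.b ∈ S.fc i) (z : (ι ⊕ s.X) ⊕ Lk S s.b → ℝ) :
    mp S s o z i = bv S s o z i + s.d * z (Sum.inl (Sum.inl i)) := by
  unfold mp; rw [if_pos h]

theorem mp_out {i : ι} (h : s.b ∉ S.fc i) (z : (ι ⊕ s.X) ⊕ Lk S s.b → ℝ) :
    mp S s o z i = z (Sum.inl (Sum.inl i)) := by
  unfold mp; rw [if_neg h, add_zero, bv_out h]

/-- the copy of the old coordinates -/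
abbrev cw (z : (ι ⊕ s.X) ⊕ Lk S s.b → ℝ) : ι → ℝ := fun i => z (Sum.inl (Sum.inl i))

theorem mp_eq (z : (ι ⊕ s.X) ⊕ Lk S s.b → ℝ) :
    mp S s o z = mix (S.st s.b) (bv S s o z + (s.d : ℝ) • cw z) (cw z) := by
  funext i
  by_cases h : s.b ∈ S.fc i
  · rw [mix_pos _ _ (S.mem_st.2 h), mp_in h]; rfl
  · rw [mix_neg _ _ fun h2 => h (S.mem_st.1 h2), mp_out h]

theorem bv_eq (z : (ι ⊕ s.X) ⊕ Lk S s.b → ℝ) : mix (S.st s.b) (bv S s o z) (cw z) = bv S s o z := by
  funext i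
  by_cases h : s.b ∈ S.fc i
  · rw [mix_pos _ _ (S.mem_st.2 h)]
  · rw [mix_neg _ _ fun h2 => h (S.mem_st.1 h2), bv_out h]

/-- a function that is linear in the class `b` splits -/
theorem lin_mp {f : (ι → ℝ) → ℝ} (hf : Lin (S.st s.b) f) (z : (ι ⊕ s.X) ⊕ Lk S s.b → ℝ) :
    f (mp S s o z) = f (bv S s o z) + s.d * f (cw z) := by
  have h1 := (hf (cw z)).map_add (bv S s o z) ((s.d : ℝ) • cw z)
  have h2 := (hf (cw z)).map_smul (s.d : ℝ) (cw z)
  beta_reduce at h1 h2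
  rw [mp_eq, h1, h2, bv_eq, mix_self, smul_eq_mul]

theorem pos_mp (h : S.Ok) (hc : S.Cen) (z : (ι ⊕ s.X) ⊕ Lk S s.b → ℝ) (i : ι) :
    pos S (mp S s o z) i = (if i ∈ S.st s.b then pos S (bv S s o z) i else 0) +
      scl S {s.b} s.d (pos S (cw z)) i := by
  by_cases hi : s.b ∈ S.fc i
  · have e : (S.fc i ∩ {s.b}).card = 1 := by rw [inter_singleton_of_mem hi, card_singleton]
    simp only [pos, Pi.sub_apply, if_pos (S.mem_st.2 hi), scl, e, mp_in hi,
      lin_mp (h.lin hc hi) z]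
    ring
  · have e : (S.fc i ∩ {s.b}).card = 0 := by rw [inter_singleton_of_notMem hi, card_empty]
    simp only [pos, Pi.sub_apply, if_neg fun h2 => hi (S.mem_st.1 h2), scl, e, mp_out hi]
    rw [mp_eq, p_indep h hi]
    ring

theorem ln2_rf (q' : Finset ((ι ⊕ s.X) ⊕ Lk S s.b)) (z : (ι ⊕ s.X) ⊕ Lk S s.b → ℝ) :
    ln2 (rf S s o) q' z =
      qq (dil S {s.b} s.lam).G (fun i => msk q' (pos (rf S s o) z) (Sum.inl (Sum.inl i))) +
      qq s.G (fun x => msk q' (pos (rf S s o) z) (Sum.inl (Sum.inr x))) +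
      qq (S.G.submatrix Subtype.val Subtype.val) fun l : Lk S s.b =>
        msk q' (pos (rf S s o) z) (Sum.inr l) :=
  (qq_fromBlocks _ _ _).trans (congrArg (· + _) (qq_fromBlocks _ _ _))

theorem qq_link {u : ι → ℝ} {b : V} (hu : ∀ i, u i ≠ 0 → ∃ l : Lk S b, l.1 = i) :
    qq (S.G.submatrix Subtype.val Subtype.val) (fun l : Lk S b => u l) = qq S.G u := by
  have := qq_msk_image (e := (Subtype.val : Lk S b → ι)) (q := univ) Subtype.val_injective
    (G := S.G.submatrix Subtype.val Subtype.val) (G' := S.G) (fun _ _ _ _ => rfl) u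
  rw [show msk (univ.image (Subtype.val : Lk S b → ι)) u = u from funext fun i => ?_,
    show msk univ (u ∘ (Subtype.val : Lk S b → ι)) = fun l : Lk S b => u l from
      funext fun i => msk_pos _ (mem_univ i)] at this
  · exact this.symm
  · by_cases h0 : u i = 0
    · simp [msk, h0]
    · obtain ⟨l, rfl⟩ := hu i h0
      exact msk_pos _ (mem_image_of_mem _ (mem_univ l))

/-- the length of the image in terms of the lengths of the two copies -/
theorem nrm_mp (h : S.Ok) (hc : S.Cen) (hs : Good S s B Λ P R) (hΛ : 1 ≤ Λ) {q : Finset ι}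
    {q' : Finset ((ι ⊕ s.X) ⊕ Lk S s.b)} (h0 : ∀ i ∈ q, S.fc i ≠ {s.b})
    (h1 : ∀ i, Sum.inl (Sum.inl i) ∈ q' ↔ i ∈ q) (h2 : ∀ l : Lk S s.b, Sum.inr l ∈ q' ↔ l.1 ∈ q)
    (z : (ι ⊕ s.X) ⊕ Lk S s.b → ℝ) : ln2 S q (mp S s o z) ≤ 2 * ln2 (rf S s o) q' z := by
  set u1 := msk (q ∩ S.st s.b) (pos S (bv S s o z)) with hu1
  set w := msk q (pos S (cw z)) with hw
  have e0 : msk q (pos S (mp S s o z)) = u1 + (fun i => (s.d : ℝ) ^ (S.fc i ∩ {s.b}).card) * w := by
    funext i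
    simp only [hu1, hw, msk, pos_mp h hc, Pi.add_apply, Pi.mul_apply, mem_inter, scl]
    by_cases a : i ∈ q <;> by_cases b : i ∈ S.st s.b <;> simp [a, b]
  have e1 : (fun i => msk q' (pos (rf S s o) z) (Sum.inl (Sum.inl i))) = w := by
    funext i
    simp only [hw, msk, h1]; rfl
  have e2 : (fun l : Lk S s.b => msk q' (pos (rf S s o) z) (Sum.inr l)) = fun l => u1 l.1 := by
    funext l
    simp only [hu1, msk, h2, mem_inter, S.mem_st, l.2.1, and_true]
    congr 1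
    change z (Sum.inr l) - S.p (bv S s o z) l = bv S s o z l - _
    rw [bv_link]
  have e3 : qq (dil S {s.b} s.lam).G w =
      qq S.G ((fun i => s.lam ^ (S.fc i ∩ {s.b}).card) * w) := P057T1.qq_gsc _ _ _
  have e4 := qq_scale_le h.pd.posSemidef (a := fun i => (s.d : ℝ) ^ (S.fc i ∩ {s.b}).card)
    (b := fun i => s.lam ^ (S.fc i ∩ {s.b}).card)
    (fun i j hij => by simp only [(h.orth i j hij).1])
    (fun i j hij => by simp only [(h.orth i j hij).1])
    (fun i => by have := hs.d_le hΛ; gcongr) w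
  have e5 := qq_nonneg hs.top.pd.posSemidef
    fun x => msk q' (pos (rf S s o) z) (Sum.inl (Sum.inr x))
  rw [ln2_eq, e0, ln2_rf, e1, e2, e3, qq_link]
  · linarith [P057T1.qq_add_le h.pd.posSemidef u1 ((fun i => (s.d : ℝ) ^ (S.fc i ∩ {s.b}).card) * w)]
  · intro i hi
    have : i ∈ q ∩ S.st s.b := by
      by_contra hn; exact hi (msk_neg _ hn)
    exact ⟨⟨i, S.mem_st.1 (mem_inter.1 this).2, h0 i (mem_inter.1 this).1⟩, rfl⟩

theorem int_bv (z : (ι ⊕ s.X) ⊕ Lk S s.b → ℤ) (i : ι) : ∃ n : ℤ, bv S s o (toR z) i = n := by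
  rcases bv_cases (S := S) (s := s) (o := o) i with ⟨_, e⟩ | ⟨a, _, _, e⟩
  exacts [⟨o i, e _⟩, ⟨z a, e _⟩]

theorem mph_mp (h : S.Ok) (hc : S.Cen) (hs : Good S s B Λ P R) (hΛ : 1 ≤ Λ) (o : ι → ℤ) :
    Mph B 2 S (rf S s o) (mp S s o) := by
  have hl : ∀ v i, v ∈ S.fc i → Lin ((rf S s o).st v) fun z =>
      if s.b ∈ S.fc i then (s.d : ℝ) * z (Sum.inl (Sum.inl i)) else 0 := fun v i hv => by
    split_ifs
    · exact P057T1.lin_mul _ (lin_coord ((rf S s o).mem_st.2 hv))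
    · exact P057T1.lin_zero _
  refine ⟨fun z => ?_, fun i => ?_, fun v i hv => ?_, fun v i hv hi => ?_, fun A F hF hA z => ?_⟩
  · choose n hn using int_bv (o := o) z
    refine ⟨fun i => n i + if s.b ∈ S.fc i then s.d * z (Sum.inl (Sum.inl i)) else 0,
      funext fun i => ?_⟩
    simp only [mp, hn, toR]
    split_ifs <;> simp
  · intro z z' hz
    simp only [mp]
    rw [show bv S s o z i = bv S s o z' i from
      on_bv i z z' fun j hj => hz j (fce_mono (erase_subset _ _) hj),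
      hz (Sum.inl (Sum.inl i)) (mem_fce.2 Subset.rfl)]
  · refine aff_add ?_ (hl v i hv).aff
    by_cases e : v = s.b
    · exact aff_of_indep fun x y => bv_indep (e ▸ notMem_erase _ _) x y
    · exact (lin_bv (mem_erase.2 ⟨e, hv⟩)).aff
  · exact P057T1.lin_add (lin_bv (mem_erase.2 ⟨fun e => hv (e ▸ hs.mem), hi⟩)) (hl v i hi)
  · have hb : s.b ∉ A := fun e => disjoint_left.1 hA e (hF hs.mem)
    refine nrm_mp h hc hs hΛ (fun i hi e => ?_) (fun i => ?_) (fun l => ?_) z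
    · obtain ⟨v, h1, h2⟩ := MS.mem_sts.1 (mem_inter.1 hi).2
      rw [e, mem_singleton] at h2
      exact hb (h2 ▸ h1)
    · simp only [mem_inter, mem_fce, MS.mem_sts, fc_inl]
    · simp only [mem_inter, mem_fce, MS.mem_sts, fc_inr, mem_erase]
      refine and_congr ⟨fun e v hv => ?_, fun e => (erase_subset _ _).trans e⟩
        (exists_congr fun v => and_congr_right fun hv =>
          ⟨fun e => e.2, fun e => ⟨fun e' => hb (e' ▸ hv), e⟩⟩)
      by_cases e' : v = s.b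
      · exact mem_union_right _ (e' ▸ hF hs.mem)
      · exact e (mem_erase.2 ⟨e', hv⟩)

theorem card_rf (hs : Good S s B Λ P R) :
    (Fintype.card ((ι ⊕ s.X) ⊕ Lk S s.b) : ℝ) ≤ 2 * Fintype.card ι + R := by
  have h1 : Fintype.card (Lk S s.b) ≤ Fintype.card ι := Fintype.card_subtype_le _
  have h2 : (Fintype.card (Lk S s.b) : ℝ) ≤ Fintype.card ι := by exact_mod_cast h1
  simp only [Fintype.card_sum, Nat.cast_add]
  linarith [hs.card]

end

end Vale.Agent.P057IV
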