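import Vale.Agent.P057IV.Gst

/-!
New coordinates turn the labels of a chart into integer forms.
-/

set_option linter.unusedSectionVars false

open Matrix Finset Real
open Vale.Agent.P267.H775 Vale.Agent.P057G Vale.Agent.P057MA
open Vale.Agent.P057T1 (NF lab)

namespace Vale.Agent.P057IV

noncomputable section

variable {V : Type} [Fintype V] [DecidableEq V]

section core

variable {ι : Type} [Fintype ι] [DecidableEq ι] {S : MS V ι}

theorem aff_kill {v b : V} {f : (ι → ℝ) → ℝ} (h : Aff (S.st v) f) :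
    Aff (S.st v) fun w => f (mix (S.st b) 0 w) := aff_fix h _ _

/-- a multi-affine function is a sum of forms on faces -/
theorem aff_dec (D : Finset V) : ∀ (A : Finset V) (f : (ι → ℝ) → ℝ), Disjoint A D → Ty S A D f →
    (∀ b ∈ D, Aff (S.st b) f) → ∃ g : Finset V → (ι → ℝ) → ℝ,
      (∀ F ⊆ D, Fm S (fce S (A ∪ F)) (A ∪ F) (g F)) ∧ ∀ w, f w = ∑ F ∈ D.powerset, g F w := by
  induction D using Finset.induction_on with
  | empty => exact fun A f _ h _ => ⟨fun _ => f, fun F hF => by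
      rw [subset_empty.1 hF]; exact h.mono Subset.rfl (by simp), fun w => by simp⟩
  | insert b D hb ih =>
    intro A f hd h ha
    have hi := mem_insert_self b D
    have h1 := ty_lab hi h (ha b hi)
    have h0 := ty_kill hi hd h
    rw [erase_insert hb] at h1 h0
    have hd0 := hd.mono_right (subset_insert b D)
    obtain ⟨g1, a1, b1⟩ := ih _ _ (disjoint_insert_left.2 ⟨hb, hd0⟩) h1 fun v hv => by
      have := aff_comb (ha v (mem_insert_of_mem hv)) (aff_kill (b := b)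
        (ha v (mem_insert_of_mem hv))) 1 (-1)
      simp only [one_mul, neg_mul, ← sub_eq_add_neg] at this
      exact this
    obtain ⟨g0, a0, b0⟩ := ih _ _ hd0 h0 fun v hv => aff_kill (ha v (mem_insert_of_mem hv))
    refine ⟨fun F => if b ∈ F then g1 (F.erase b) else g0 F, fun F hF => ?_, fun w => ?_⟩
    · beta_reduce
      split_ifs with hbF
      · have := a1 _ (subset_insert_iff.1 hF)
        rwa [insert_union_erase hbF] at this
      · exact a0 F ((subset_insert_iff_of_notMem hbF).1 hF)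
    · have e0 : ∀ F ∈ D.powerset, (if b ∈ F then g1 (F.erase b) else g0 F) w = g0 F w :=
        fun F hF => by rw [if_neg fun e => hb (mem_powerset.1 hF e)]
      have e1 : ∀ F ∈ D.powerset, (if b ∈ insert b F then g1 ((insert b F).erase b)
          else g0 (insert b F)) w = g1 F w := fun F hF => by
        rw [if_pos (mem_insert_self _ _), erase_insert fun e => hb (mem_powerset.1 hF e)]
      rw [sum_powerset_insert hb]
      beta_reduce
      rw [sum_congr rfl e0, sum_congr rfl e1, ← b0, ← b1, lab]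
      ring

variable {s : Stp V ι} {B : Finset V} {Λ P R0 : ℝ}

theorem ln2_xt (h : S.Ok) (o : ι → ℤ) (F : Finset V) (w : (ι ⊕ s.X) ⊕ Lk S s.b → ℝ) :
    ln2 (xt S s) (fce (xt S s) F) (w ∘ Sum.inl) ≤ ln2 (rf S s o) (fce (rf S s o) F) w := by
  refine le_trans (le_of_eq ?_) (le_trans (le_add_of_nonneg_right (qq_nonneg
    (h.pd.posSemidef.submatrix _) _)) (qq_fromBlocks (xt S s).G _ _).ge)
  unfold ln2
  congr 1; funext j
  simp only [msk, Function.comp, mem_fce]; rfl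

theorem ln2_cw (hs : Good S s B Λ P R0) (F : Finset V) (u : ι ⊕ s.X → ℝ) :
    ln2 (dil S {s.b} s.lam) (fce S F) (u ∘ Sum.inl) ≤ ln2 (xt S s) (fce (xt S s) F) u := by
  refine le_trans (le_of_eq ?_) (le_trans (le_add_of_nonneg_right (qq_nonneg
    hs.top.pd.posSemidef _)) (qq_fromBlocks (dil S {s.b} s.lam).G _ _).ge)
  unfold ln2
  congr 1; funext j
  simp only [msk, Function.comp, mem_fce]; rfl

theorem aff_mp {o : ι → ℤ} {γ : (ι → ℝ) → ℝ} (h : Aff (S.st s.b) γ)
    (w : (ι ⊕ s.X) ⊕ Lk S s.b → ℝ) :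
    γ (mp S s o w) = γ (bv S s o w) + s.d * lab S s.b γ (cw w) := by
  have h1 := lin_mp (o := o) h.lin_part w
  have h2 : mix (S.st s.b) 0 (mp S s o w) = mix (S.st s.b) 0 (bv S s o w) := by
    funext j
    by_cases hj : j ∈ S.st s.b
    · rw [mix_pos _ _ hj, mix_pos _ _ hj]
    · rw [mix_neg _ _ hj, mix_neg _ _ hj, mp_out fun e => hj (S.mem_st.2 e),
        bv_out fun e => hj (S.mem_st.2 e)]
  rw [h2] at h1
  rw [lab]; linarith

/-- the label is an affine integer function on the refined system -/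
theorem lab_int (h : S.Ok) (hc : S.Cen) (hs : Good S s B Λ P R0) (hΛ : 1 ≤ Λ) (o : ι → ℤ)
    {γ T : (ι → ℝ) → ℝ} {d d2 : ℕ} (hd : s.d = d * d2) (hγ : Af S (fce S B) {s.b} γ)
    (hT : Ty S {s.b} (B.erase s.b) T) {J : Type} [Fintype J] {F : J → Finset V}
    {g : J → (ι → ℝ) → ℝ} (hF : ∀ j, s.b ∈ F j ∧ F j ⊆ B)
    (hg : ∀ j, Fm S (fce S (F j)) (F j) (g j)) (hTg : ∀ w, T w = ∑ j, g j w) {ε K R : ℝ}
    (hN : ∀ j, Near (xt S s) (fce (xt S s) (F j)) (F j) (fun z => d2 * g j (z ∘ Sum.inl)) ε)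
    (hR : 1 ≤ R) (hε : 0 ≤ ε) (hK : 8 * (K * R) ≤ Λ)
    (hJ : Fintype.card J * (ε * R ^ Fintype.card V) ≤ 1 / 8) :
    ∃ m, Af (rf S s o) (fce (rf S s o) B) {s.b} m ∧ ∀ z : (ι ⊕ s.X) ⊕ Lk S s.b → ℤ,
      ln2 (rf S s o) (fce (rf S s o) B) (toR z) ≤ R ^ 2 →
      |γ (mp S s o (toR z)) - round (γ (mp S s o (toR z)))| ≤ 1 / 100 →
      Nr S {s.b} (B.erase s.b) (fun w => d * lab S s.b γ w - T w) K (mp S s o (toR z)) →
      (round (γ (mp S s o (toR z))) : ℝ) = m (toR z) := by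
  have hb := mem_singleton_self s.b
  have hdj : Disjoint {s.b} (B.erase s.b) := disjoint_singleton_left.2 (notMem_erase _ _)
  have hu : {s.b} ∪ B.erase s.b = B := by rw [← insert_eq, insert_erase hs.mem]
  obtain ⟨I, i1, i2, i3⟩ := nr_unif (S := S) hdj (fun w => d * lab S s.b γ w - T w) K
  choose M m1 m2 m3 using hN
  refine ⟨fun w => round (γ (bv S s o w)) + (d2 * I (cw w) + ∑ j, M j (w ∘ Sum.inl)),
    ⟨fun w w' e => ?_, fun v hv => ?_⟩, fun z h1 h2 h3 => ?_⟩
  · rw [hγ.on _ _ fun j hj => on_bv j _ _ fun k hk => e k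
      (fce_mono ((erase_subset _ _).trans (mem_fce.1 hj)) hk),
      i1.on (cw w) (cw w') fun j hj =>
        e (Sum.inl (Sum.inl j)) (mem_fce.2 ((mem_fce.1 hj).trans hu.le)),
      sum_congr rfl fun j _ => (m1 j).on (w ∘ Sum.inl) (w' ∘ Sum.inl) fun k hk =>
        e (Sum.inl k) (mem_fce.2 ((mem_fce.1 hk).trans (hF j).2))]
  · rw [mem_singleton.1 hv]
    exact aff_add (aff_out fun x y => by rw [bv_mix_b]) (aff_add
      (aff_smul (lin_rf (lin_inl (i1.lin _ hb))).aff _)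
      (aff_sum fun j => (lin_rf ((m1 j).lin _ (hF j).1)).aff))
  have k0 := (ln2_xt h o B (toR z)).trans h1
  have ox := hs.ok_xt hΛ h
  have cx := hs.cen_xt hΛ h hc
  have k1 : ∀ j, |d2 * g j (cw (toR z)) - M j (toR z ∘ Sum.inl)| ≤ ε * R ^ Fintype.card V :=
    fun j => ((m3 j).large ox cx
      (((Fm.inl (S := dil S {s.b} s.lam) ⟨(hg j).on, (hg j).lin⟩).smul d2).sub (m1 j)).lin
      (fun k hk => by rw [inter_eq_left.2 (mem_fce.1 hk)]; exact cx.ne k) hR
      ((ln2_mono ox (cls_fce _ _) (fce_mono (hF j).2) _).trans k0)).trans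
      (mul_le_mul_of_nonneg_left (pow_le_pow_right₀ hR (card_le_univ _)) hε)
  have k2 := (abs_sum_le_sum_abs _ _).trans (sum_le_card_nsmul univ _ _ fun j _ => k1 j)
  rw [card_univ, nsmul_eq_mul, sum_sub_distrib, ← mul_sum, ← hTg] at k2
  have l1 := ((((ty_gam hs.mem hγ).smul d).sub hT).sub i1).lin
  have k3 := bal_large h hc l1 (i3 _ h3) hR (w := scl S {s.b} s.lam (cw (toR z)))
    (fun j hj => by
      have : s.b ∉ S.fc j := fun e => notMem_erase _ _ (mem_fce.1 (raw_of hj) e)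
      rw [mp_out this, scl, inter_singleton_of_notMem this]; simp)
    ((P057T1.ln2_mono h (((cls_fce S _).sat h).inter (h.sat_sts _)) inter_subset_left _).trans (by
      rw [← ln2_dil h hc, hu]
      exact (ln2_cw hs B _).trans k0))
  rw [lin_scl l1, card_singleton, pow_one, pow_one, abs_mul,
    abs_of_pos (by linarith [hs.one_le hΛ])] at k3
  have k4 : |d2 * (d * lab S s.b γ (cw (toR z)) - T (cw (toR z)) - I (cw (toR z)))| ≤ 1 / 8 := by
    have e1 := hs.lo
    have e2 : (1 : ℝ) ≤ d := by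
      exact_mod_cast Nat.pos_of_mul_pos_right (hd ▸ hs.d1 : 0 < d * d2)
    rw [hd, Nat.cast_mul] at e1
    rw [abs_mul, Nat.abs_cast]
    generalize |d * lab S s.b γ (cw (toR z)) - T (cw (toR z)) - I (cw (toR z))| = x,
      hx : abs_nonneg (d * lab S s.b γ (cw (toR z)) - T (cw (toR z)) - I (cw (toR z))) = x0 at k3
    have e3 : (d2 : ℝ) * Λ ≤ s.lam :=
      le_trans (by nlinarith [mul_nonneg (Nat.cast_nonneg (α := ℝ) d2) (zero_le_one.trans hΛ)]) e1
    have e4 := mul_le_mul_of_nonneg_right e3 x0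
    refine le_of_mul_le_mul_left ?_ (zero_lt_one.trans_le hΛ)
    linarith
  obtain ⟨n1, e1⟩ := i2 fun j => z (Sum.inl (Sum.inl j))
  obtain ⟨n2, e2⟩ := IntV.sum univ (fun j _ => m2 j) (z ∘ Sum.inl)
  change I (cw (toR z)) = _ at e1
  change ∑ j, M j (toR z ∘ Sum.inl) = _ at e2
  have k5 := aff_mp (o := o) (hγ.aff _ hb) (toR z)
  rw [hd, Nat.cast_mul] at k5
  beta_reduce
  rw [round_eq (x := γ (bv S s o (toR z))) (n := round (γ (mp S s o (toR z))) - (d2 * n1 + n2)), e1,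
    e2]
  · push_cast; ring
  · rw [e1] at k4
    rw [e2] at k2
    rw [abs_le] at h2 k2 k4
    rw [abs_lt]
    push_cast
    constructor <;> linarith

end core

/-- the labels become integer forms -/
theorem xst (hX : EXT V) (hK : PICK V) (hL : LOC V) : XST V := by
  obtain ⟨c1, hX⟩ := hX
  obtain ⟨c3, hK⟩ := hK
  intro B L i hi hd
  set n := Fintype.card V with hn
  refine tr_one mn_slo (pl_pw ((n + 4) * 2)) ((c3 + 1) * c1) ?_
  rintro N Y Z Bad h2 hZ hf hb0 ⟨p0, ϱ, _, γ, Ψ, cf, d, p1, p2, p3, p4, T, p5, p6⟩ hM hB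
  simp only [pow_mul] at hf hB hM ⊢
  obtain ⟨h, hc⟩ : N.X.S.Ok ∧ N.X.S.Cen := ⟨hb0.ok, hb0.cen⟩
  have hty := fun r => (hb0.ty r).2
  have n0 : (0 : ℝ) ≤ n := Nat.cast_nonneg _
  have n1 : 2 * n + 4 ≤ Y ^ (n + 4) ∧ Y + n + 3 ≤ Y ^ (n + 4) ∧ 2 ^ n ≤ Y ^ (n + 4) := by
    have a1 := nat_le_pw h2 n
    have a2 := pow_le_pow_left₀ zero_le_two h2 n
    have a3 := one_le_pow₀ (n := n) (show (1 : ℝ) ≤ Y by linarith)
    have a4 := six_pw h2 (le_refl 4)
    rw [pow_add]
    refine ⟨?_, ?_, ?_⟩ <;> nlinarith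
  generalize Y ^ (n + 4) = y0 at hf hB n1 ⊢
  obtain ⟨n1, n2, n3⟩ := n1
  have n4 : (2 * n + 4) * y0 ≤ y0 ^ 2 := by nlinarith
  have n5 : 0 ≤ n * y0 := mul_nonneg n0 (by linarith)
  have z2 := h2.trans hZ
  have z3 : Z ≤ Z ^ (c3 + 1) := le_pw z2 (by omega)
  choose g g1 g2 using fun ρ => aff_dec (B.erase i) {i} (T ρ)
    (disjoint_singleton_left.2 (notMem_erase _ _)) (p5 ρ).1 (p5 ρ).2
  have hF : ∀ F : (B.erase i).powerset, i ∈ {i} ∪ F.1 ∧ {i} ∪ F.1 ⊆ B := fun F =>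
    ⟨mem_union_left _ (mem_singleton_self i), union_subset (singleton_subset_iff.2 hi)
      ((mem_powerset.1 F.2).trans (erase_subset _ _))⟩
  have hJ : (Fintype.card (B.erase i).powerset : ℝ) ≤ 2 ^ n := by
    rw [Fintype.card_coe, card_powerset]; push_cast
    exact pow_le_pow_right₀ one_le_two (card_le_univ _)
  have l1 : 1 ≤ exp (y0 ^ 2) := one_le_exp (by positivity)
  have y1 : Y ≤ y0 ^ 2 := by linarith
  obtain ⟨s, d2, rfl, s2, s3, s4, s5⟩ := hX _ N.X.S B i (ϱ × (B.erase i).powerset)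
    (fun p => {i} ∪ p.2.1) (fun p => g p.1 p.2) d (y0 ^ 2) (Z ^ (c3 + 1)) h hc (by linarith)
    (by linarith) (fun p => hF p.2) hi (fun p => g1 p.1 _ (mem_powerset.1 p.2.2)) p3
    (p4.trans (exp_le_exp.2 y1)) (hb0.ci.trans (exp_le_exp.2 y1))
    (by
      rw [Fintype.card_prod, Nat.cast_mul, sq]
      exact mul_le_mul (by linarith) (hJ.trans n3) (Nat.cast_nonneg _) (by linarith)) hM
  have g0 := s3.mono Subset.rfl (exp_le_exp.2 y1) le_rfl (show y0 ^ 2 ≤ 3 * y0 ^ 2 by linarith)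
  have ox := s3.ok_xt l1 h
  have cx := s3.cen_xt l1 h hc
  have e0 := exp_div (le_refl (Y + 3))
  obtain ⟨o, o1, o2, o3⟩ := hK _ N.X.S s B (B ∪ L) _ _ _ (fun o w => N.E (mp N.X.S s o w)) (Bad s)
    (exp (-(Y + 3))) Z h hc s3 l1 subset_union_left z2 (exp_le_exp.2 (by linarith))
    (s4.mono ox cx (pw_mono z2 c3.le_succ))
    (le_trans (mul_le_mul_of_nonneg_right (by linarith [hb0.dn, exp_pos (-Y)]) (vl_pos h.pd _).le)
      (hL _ N.X.S s B (B ∪ L) _ _ _ N.E h hc s3 l1 (hb0.ci.trans (exp_le_exp.2 y1))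
        subset_union_left hb0.on))
    ((hB s g0 (s4.mono ox cx z3)).trans
      (mul_le_mul_of_nonneg_right (exp_div (by linarith)) (vl_pos h.pd _).le))
  have mφ := mph_mp h hc s3 l1 o
  have or := s3.ok_rf l1 h o
  have cr := s3.cen_rf l1 h hc o
  choose m m1 m2 using fun ρ => lab_int h hc s3 l1 o s2 (p2.ga ρ) (p5 ρ).1 hF
    (fun F => g1 ρ _ (mem_powerset.1 F.2)) (fun w => by rw [g2, sum_coe_sort _ fun F => g ρ F w])
    (K := exp Y) (R := exp (2 * y0)) (fun F => s5 (ρ, F)) (one_le_exp (by linarith))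
    (exp_pos _).le (by
      have := exp_div (x := -(Y + 2 * y0)) (y := -y0 ^ 2) (by linarith)
      rw [neg_neg, neg_neg, exp_add] at this
      linarith) (by
      have := exp_div (x := -(n + (-y0 ^ 2 + n * (2 * y0)))) (y := 0) (by linarith)
      rw [neg_neg, neg_zero, exp_zero] at this
      rw [← exp_nat_mul, ← exp_add]
      exact (mul_exp (hJ.trans (two_pow_le n)) le_rfl (exp_pos _).le).trans this)
  have k3 := den_tail (B := B) or cr subset_union_left
    ((o2.mass or cr (by linarith) (cls_fce _ (B ∪ L))).trans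
      (by linarith [exp_le_one_iff.2 (show -Z ≤ 0 by linarith)]))
    (r := exp (2 * y0) ^ 2) (Y := Y + 9) (by
      have h3 := card_rf s3
      have h4 : exp (2 * y0) = exp y0 ^ 2 := by rw [← exp_nat_mul]; norm_num
      have h5 := quadratic_le_exp_of_nonneg (show 0 ≤ y0 by linarith)
      have h6 := hb0.ci.trans (exp_le_exp.2 (show Y ≤ y0 by linarith))
      have h7 : 5 * exp y0 ≤ exp y0 ^ 2 := by nlinarith
      rw [h4]; nlinarith) (by linarith)
  have e1 : (2 : ℝ) ^ n ≤ exp (y0 ^ 2) := (two_pow_le n).trans (exp_le_exp.2 (by linarith))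
  have ch := p2.pull mφ h hc one_le_two Subset.rfl hty hb0.fm (exp_pos _).le
    (E' := fun w => N.E (mp N.X.S s o w)) fun _ h => h
  refine ⟨s, o, fun w => N.E (mp N.X.S s o w) ∧
    ln2 (rf N.X.S s o) (fce (rf N.X.S s o) B) w ≤ exp (2 * y0) ^ 2, 1, g0, o1, o2,
    fun _ h => h.1, one_pos, by simpa using (by positivity : 0 ≤ y0 ^ 2), (mφ.onP hb0.on).and
      ((onP_on (on_ln2 or) fun x => x ≤ _).mono (fce_mono subset_union_left)),
    le_trans ?_ (den_and or _), mn_par _ _ _ (by linarith) (p0.next hb0 mφ Subset.rfl one_le_two e1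
      (fun _ h => h.1) (by simpa using (by positivity : 0 ≤ y0 ^ 2)) (by positivity)),
    fun r w => Ψ r (mp N.X.S s o w) + ∑ ρ, m ρ w * cf r ρ (mp N.X.S s o w), fun r =>
    ⟨(ch.ps r).add (Fm.sum _ fun ρ _ => Ty.mul (hty r) (m1 ρ).on (Ty.up (erase_subset _ _)
      (ch.cf r ρ))), aff_add (ch.pa r) (aff_sum fun ρ => aff_mul_out
        ((m1 ρ).aff _ (mem_singleton_self _)) ((ch.cf r ρ).out hi (hty r)))⟩,
    fun z hz r => nf_congr ((ch.nr z hz.1 r).mono ((mul_two_le le_rfl).trans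
      (exp_le_exp.2 (by linarith)))) fun u hu => ?_, by simp⟩
  · have := exp_div (x := Y + 6) (y := Y + 3) (by linarith)
    have := exp_div (x := Y + 9) (y := Y + 6) (by linarith)
    have := exp_le_exp.2 (show -(3 * y0 ^ 2) ≤ -(Y + 9) by linarith)
    refine le_trans ?_ (sub_le_sub o3 k3)
    linarith [exp_pos (-(Y + 6)), exp_pos (-(Y + 3))]
  · obtain ⟨x, hx⟩ := mφ.int z
    have : ∀ ρ, (round (γ ρ (mp N.X.S s o u)) : ℝ) = m ρ u := fun ρ =>
      (congrArg (fun x : ℝ => (round x : ℝ)) ((ch.ga ρ).on _ _ (bal_raw (hty r) hu))).trans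
        ((m2 ρ z hz.2 (ch.arc z hz.1 ρ) (by rw [hx]; exact p6 x (hx ▸ hz.1) ρ)).trans
          ((m1 ρ).on _ _ (bal_raw (hty r) hu)).symm)
    simp only [this, Nat.cast_one, one_mul, sub_sub]

/-- the inverse step from its blocks -/
theorem inv (hP : PIECE V) (hT : TW V) (h1 : DV1 (V × Fin 4)) (hD : DVM (V × Fin 4)) (hX : EXT V)
    (hK : PICK V) (hL : LOC V) (hA : PAS V) (hU : UNF V) (hN : NWM V) (hJ : JSM V)
    (hQ : QUAD V) : INV V :=
  inv_of (gst hP hT hA hU hK hN hJ hQ hD) (xst hX hK hL) (sst hP hA hU hK hN hJ hQ h1)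

end

end Vale.Agent.P057IV
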